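import Vale.Agent.P106.U.H833.Comp
import Vale.Agent.P106.U.H833.WinC

/-!
# P106 / U / H495 : windows of kind V (helper495)

In a window of kind `V` the conditioning is on the TIME of the later step only, the cells are 785's letters `Mt` without line
history, the positions carry `κ`, and the weight is counted for whole diagonal steps (`4 m`).

* `hc_swap` : change of the letter in the condition.
* `psi_seq` : differences of the potential along a subsequence `f` of indices, letters `Mt`, time `tm` (nothing else in the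
  condition).
* `winV`, `light_V` : the windows of kind `V` in the form of the summation (`H118.summation`, `H833.mic_q`).
* `errC`, `light_cut`, `kind_const`, `errC_sum` : **the cut at the changes of the kind** (generic in the kind).
-/

set_option autoImplicit false

namespace Vale.Agent.P106.U.H495

open Finset Vale.Agent.P127 Vale.Agent.P127.Stk Vale.Agent.P127.U.Cell
open Vale.Agent.P106.U.H833 (psi psi_sub psi_ge psi_triv qc cost_sum fn_chain hc_le_near)
open Vale.Agent.P106.U.H118 (Sdat CS full)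

section

variable {Ω : Type} [Fintype Ω] (P : Law Ω) {Λ κ κ' ζ τt δ α θ : Type*}

/-- change of the letter in the condition -/
theorem hc_swap {β γ χ η : Type*} (X : Ω → β) (M : Ω → γ) (C : Ω → χ) (Y : Ω → η) :
    hc P X (fun ω => (Y ω, M ω)) - hc P C M ≤ hc P X (fun ω => (Y ω, C ω)) := by
  have h1 := hc_le_near P X C (fun ω => (Y ω, M ω))
  have h2 : hc P C (fun ω => (Y ω, M ω)) ≤ hc P C M :=
    hc_mono_right P _ fun ω ω' _ _ e => by
      simp only [Prod.mk.injEq] at e
      exact e.2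
  have h3 : hc P X (fun ω => ((Y ω, M ω), C ω)) ≤ hc P X (fun ω => (Y ω, C ω)) :=
    hc_mono_right P _ fun ω ω' _ _ e => by
      simp only [Prod.mk.injEq] at e ⊢
      exact ⟨e.1.1, e.2⟩
  linarith

/-- **chain of the positions** given the first cell and the letter of the time -/
theorem chain_pos (Mt : ℕ → Ω → κ') (Θ : Ω → θ) (A : ℕ → Ω → α) {r : ℕ} {s c ν : ℕ → ℝ}
    (hA : ∀ q < r, hc P (A q) (fun ω => (A (q + 1) ω, Θ ω)) ≤ c q)
    (hν : ∀ q < r, hc P (Mt 0) (Mt (q + 1)) ≤ ν q)
    (hs : ∀ q < r, s q ≤ hc P (A (q + 1)) (fun ω => (A q ω, (Mt (q + 1) ω, Θ ω)))) :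
    ∑ q ∈ range r, (s q - c q - ν q) ≤ hc P (A r) (fun ω => (Θ ω, Mt 0 ω)) := by
  set Y : Ω → θ × κ' := fun ω => (Θ ω, Mt 0 ω) with hY
  have key : ∀ k ≤ r, ∑ q ∈ range k, (s q - c q - ν q) ≤ hc P (A k) Y := by
    intro k
    induction k with
    | zero =>
      intro _
      simpa using hc_nonneg P (A 0) Y
    | succ k ih =>
      intro hk
      rw [Finset.sum_range_succ]
      have g1 := ih (by omega)
      have g2 := hA k (by omega)
      have g3 := hν k (by omega)
      have g4 := hs k (by omega)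
      -- H(A_(k+1)|Y) - H(A_k|Y) = H(A_(k+1)|A_k,Y) - H(A_k|A_(k+1),Y)
      have g5 : hc P (A (k + 1)) Y - hc P (A k) Y =
          hc P (A (k + 1)) (fun ω => (A k ω, Y ω)) - hc P (A k) (fun ω => (A (k + 1) ω, Y ω)) := by
        have f1 := hc_pair P (A k) (A (k + 1)) Y
        have f2 := hc_pair P (A (k + 1)) (A k) Y
        have f3 : hc P (fun ω => (A k ω, A (k + 1) ω)) Y = hc P (fun ω => (A (k + 1) ω, A k ω)) Y :=
          hc_congr P
            (fun ω ω' _ _ e => by
              simp only [Prod.mk.injEq] at e ⊢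
              exact ⟨e.1.2, e.1.1⟩)
            (fun ω ω' _ _ e => by
              simp only [Prod.mk.injEq] at e ⊢
              exact ⟨e.1.2, e.1.1⟩)
            (fun _ _ _ _ e => e) (fun _ _ _ _ e => e)
        linarith
      have g6 : hc P (A k) (fun ω => (A (k + 1) ω, Y ω)) ≤ c k := by
        refine le_trans (hc_mono_right P _ fun ω ω' _ _ e => ?_) g2
        simp only [hY, Prod.mk.injEq] at e ⊢
        exact ⟨e.1, e.2.1⟩
      have g7 : s k - ν k ≤ hc P (A (k + 1)) (fun ω => (A k ω, Y ω)) := by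
        have f1 := hc_le_near P (A (k + 1)) (Mt 0) (fun ω => (A k ω, (Mt (k + 1) ω, Θ ω)))
        have f2 : hc P (Mt 0) (fun ω => (A k ω, (Mt (k + 1) ω, Θ ω))) ≤ hc P (Mt 0) (Mt (k + 1)) :=
          hc_mono_right P _ fun ω ω' _ _ e => by
            simp only [Prod.mk.injEq] at e
            exact e.2.1
        have f3 : hc P (A (k + 1)) (fun ω => ((A k ω, (Mt (k + 1) ω, Θ ω)), Mt 0 ω)) ≤
            hc P (A (k + 1)) (fun ω => (A k ω, Y ω)) :=
          hc_mono_right P _ fun ω ω' _ _ e => by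
            simp only [hY, Prod.mk.injEq] at e ⊢
            exact ⟨e.1.1, e.1.2.2, e.2⟩
        linarith
      linarith
  exact key r le_rfl

/-- **window of kind `V`, abstract form** : `C0, Cr` the cells at the two ends, `M0, Mt q` the letters without line history,
`Θ` any letter at least as fine as the time `tm` of the cell `Cr` -/
theorem psi_seq (l : Ω → Λ) (Z : ℕ → Ω → ζ) (C : ℕ → Ω → κ) (tm : Ω → δ) (Θ : Ω → θ) (f : ℕ → ℕ) (r : ℕ)
    (Mt : ℕ → Ω → κ') (A : ℕ → Ω → α) {s c ν : ℕ → ℝ} {cC cJ j1 j2 : ℝ}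
    (hZ : Fn P (Z (f 0)) (Z (f r))) (hC0 : Fn P (C (f 0)) (fun ω => (l ω, Z (f 0) ω)))
    (htC : Fn P tm (C (f r))) (hΘ : Fn P tm Θ) (hCC : hc P (C (f 0)) (C (f r)) ≤ cC)
    (hj1 : hc P (C (f 0)) (Mt 0) ≤ j1) (hj2 : hc P (Mt r) (C (f r)) ≤ j2)
    (hJ : hc P (A r) (fun ω => (Θ ω, Mt r ω)) ≤ cJ)
    (hA : ∀ q < r, hc P (A q) (fun ω => (A (q + 1) ω, Θ ω)) ≤ c q)
    (hν : ∀ q < r, hc P (Mt 0) (Mt (q + 1)) ≤ ν q)
    (hs : ∀ q < r, s q ≤ hc P (A (q + 1)) (fun ω => (A q ω, (Mt (q + 1) ω, Θ ω)))) :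
    ∑ q ∈ range r, (s q - c q - ν q) - cJ - cC - j1 - j2 -
        hc P (Z (f r)) (fun ω => (tm ω, (l ω, Z (f 0) ω))) ≤
      psi P l Z C (f r) - psi P l Z C (f 0) := by
  have h0 := psi_ge P l Z C tm hZ hC0 htC
  have h1 := chain_pos P Mt Θ A hA hν hs
  have h2 : hc P (C (f r)) (fun ω => (Θ ω, C (f 0) ω)) ≤ hc P (C (f r)) (fun ω => (tm ω, C (f 0) ω)) := by
    refine hc_mono_right P _ fun ω ω' p p' e => ?_
    simp only [Prod.mk.injEq] at e ⊢
    exact ⟨hΘ ω ω' p p' e.1, e.2⟩
  have h3 := hc_swap P (C (f r)) (Mt 0) (C (f 0)) Θ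
  have h4 : hc P (A r) (fun ω => (Θ ω, Mt 0 ω)) ≤
      hc P (Mt r) (fun ω => (Θ ω, Mt 0 ω)) + hc P (A r) (fun ω => (Θ ω, Mt r ω)) := by
    have f1 := hc_le_add P (A r) (Mt r) (fun ω => (Θ ω, Mt 0 ω))
    have f2 : hc P (A r) (fun ω => (Mt r ω, (Θ ω, Mt 0 ω))) ≤ hc P (A r) (fun ω => (Θ ω, Mt r ω)) :=
      hc_mono_right P _ fun ω ω' _ _ e => by
        simp only [Prod.mk.injEq] at e ⊢
        exact ⟨e.2.1, e.1⟩
    linarith
  have h5 : hc P (Mt r) (fun ω => (Θ ω, Mt 0 ω)) ≤ hc P (C (f r)) (fun ω => (Θ ω, Mt 0 ω)) + hc P (Mt r) (C (f r)) := by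
    have f1 := hc_le_add P (Mt r) (C (f r)) (fun ω => (Θ ω, Mt 0 ω))
    have f2 : hc P (Mt r) (fun ω => (C (f r) ω, (Θ ω, Mt 0 ω))) ≤ hc P (Mt r) (C (f r)) :=
      hc_mono_right P _ fun ω ω' _ _ e => by
        simp only [Prod.mk.injEq] at e
        exact e.1
    linarith
  linarith

end

/-! ### combinatorics of the windows of kind `V` -/

section comb

variable {n : ℕ} {g : ℕ → Prop} {a R : ℕ → ℕ} {lm : ℕ → ℕ}

theorem Rm (D : Sdat n g a R) {i j : ℕ} (hij : i ≤ j) (hj : j ≤ n) : R i ≤ R j := by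
  induction j, hij using Nat.le_induction with
  | base => exact le_rfl
  | succ j _ ih =>
    have h1 := ih (by omega)
    rcases D.hr j (by omega) with h2 | h2 <;> omega

/-- `lm z` = the a-step of the level `z` -/
structure Lvl (n : ℕ) (a : ℕ → ℕ) (lm : ℕ → ℕ) : Prop where
  lt : ∀ z, a 0 ≤ z → z < a n → lm z < n
  eq : ∀ z, a 0 ≤ z → z < a n → a (lm z) = z
  st : ∀ z, a 0 ≤ z → z < a n → a (lm z + 1) = z + 1

/-- a step of the level `z` is not behind its a-step -/
theorem Lvl.le (hl : Lvl n a lm) (D : Sdat n g a R) {j : ℕ} (hj : j ≤ n) (ha : a j < a n) : j ≤ lm (a j) := by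
  have h0 := D.am (Nat.zero_le j) hj
  have h1 := hl.lt _ h0 ha
  have h3 := hl.st _ h0 ha
  by_contra hcon
  have h4 := D.am (i := lm (a j) + 1) (j := j) (by omega) hj
  omega

/-- a later step of a higher level is behind the a-step -/
theorem Lvl.lt' (hl : Lvl n a lm) (D : Sdat n g a R) {j z : ℕ} (hj : j ≤ n) (hz0 : a 0 ≤ z) (hz : z < a n) (ha : z < a j) :
    lm z < j := by
  have h1 := hl.lt _ hz0 hz
  have h2 := hl.eq _ hz0 hz
  by_contra hcon
  have h4 := D.am (i := j) (j := lm z) (by omega) h1.le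
  omega

theorem Lvl.mono (hl : Lvl n a lm) (D : Sdat n g a R) {z z' : ℕ} (hz0 : a 0 ≤ z) (h : z < z') (hz : z' < a n) :
    lm z < lm z' := by
  have h2 := hl.eq z' (by omega) hz
  exact hl.lt' D (hl.lt z' (by omega) hz).le hz0 (by omega) (by omega)

/-- `R` at the a-steps of a diagonal piece -/
theorem diag_R {lm : ℕ → ℕ} {z0 z1 : ℕ} (hd : ∀ z, z0 ≤ z → z < z1 → R (lm (z + 1)) = R (lm z) + 1) :
    ∀ z, z0 ≤ z → z ≤ z1 → R (lm z) = R (lm z0) + (z - z0) := by
  intro z hz
  induction z, hz using Nat.le_induction with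
  | base => intro _; omega
  | succ z h ih =>
    intro h1
    have h2 := ih (by omega)
    have h3 := hd z h (by omega)
    omega

theorem cs_le {M : ℕ} {m : ℝ} (hm : 0 ≤ m) {err : ℕ → ℝ} (herr : ∀ j, 0 ≤ err j) (D : Sdat n g a R)
    {i k : ℕ} (hk : k ≤ n) :
    ∑ j ∈ CS M n g a R i k, (full m a R j - err j) ≤ ∑ j ∈ Ico i k, full m a R j := by
  have h1 : ∑ j ∈ CS M n g a R i k, (full m a R j - err j) ≤ ∑ j ∈ CS M n g a R i k, full m a R j :=
    Finset.sum_le_sum fun j _ => by
      have := herr j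
      linarith
  refine h1.trans (Finset.sum_le_sum_of_subset_of_nonneg (fun j hj => ?_) fun j hj _ => ?_)
  · exact Finset.mem_Ico.2 (H118.mem_CS.1 hj).1
  · have h := Finset.mem_Ico.1 hj
    exact H118.full_nonneg hm D (by omega)

/-- the steps of the first level of a window: at most one block -/
theorem head_le {M : ℕ} {m : ℝ} (hm : 0 ≤ m) {err : ℕ → ℝ} (herr : ∀ j, 0 ≤ err j) {lm : ℕ → ℕ} (D : Sdat n g a R)
    (hl : Lvl n a lm) {i k : ℕ} (hik : i ≤ k) (hk : k ≤ n) (hkn : a k < a n) (hki : k ≤ lm (a i)) (hai : a k = a i)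
    (hb : R (lm (a i)) ≤ R i + 1 ∨ ∀ j ∈ CS M n g a R 0 n, a j = a i → a (j + 1) = a j → m ≤ err j) :
    ∑ j ∈ CS M n g a R i k, (full m a R j - err j) ≤ m := by
  have hln := hl.lt (a i) (D.am (Nat.zero_le i) (by omega)) (by omega)
  have hnoa : ∀ j, i ≤ j → j < k → a (j + 1) = a j := by
    intro j h1 h2
    have e1 := D.am h1 (by omega)
    have e2 := D.am (i := j + 1) (j := k) (by omega) hk
    have e3 := D.am (i := j) (j := j + 1) (by omega) (by omega)
    omega
  rcases hb with hb | hb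
  · have h1 : ∑ j ∈ CS M n g a R i k, (full m a R j - err j) ≤ ∑ j ∈ Ico i k, full m a R j := cs_le hm herr D hk
    rw [H118.sum_full m i k hik, hai] at h1
    have h2 := Rm D hki (by omega)
    have h3 : (R k : ℝ) - R i ≤ 1 := by
      have : R k ≤ R i + 1 := h2.trans hb
      have : (R k : ℝ) ≤ R i + 1 := by exact_mod_cast this
      linarith
    nlinarith
  · refine le_trans (Finset.sum_nonpos fun j hj => ?_) hm
    obtain ⟨⟨h1, h2⟩, h3⟩ := H118.mem_CS.1 hj
    have h4 := hnoa j h1 h2
    have h5 : m ≤ err j := hb j (H118.mem_CS.2 ⟨⟨Nat.zero_le _, by omega⟩, h3⟩) (by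
      have e1 := D.am h1 (by omega)
      have e2 := D.am (i := j) (j := k) (by omega) hk
      omega) h4
    have h6 : full m a R j ≤ m := by
      unfold full
      rw [h4]
      rcases D.hr j (by omega) with h7 | ⟨h7, _⟩
      · rw [h7]
        nlinarith
      · rw [h7]
        push_cast
        nlinarith
    linarith

theorem cs_split {M : ℕ} (F : ℕ → ℝ) {i j k : ℕ} (h1 : i ≤ j) (h2 : j ≤ k) :
    ∑ x ∈ CS M n g a R i k, F x = ∑ x ∈ CS M n g a R i j, F x + ∑ x ∈ CS M n g a R j k, F x := by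
  classical
  rw [← Finset.sum_union]
  · refine Finset.sum_congr ?_ fun _ _ => rfl
    ext x
    simp only [Finset.mem_union, H118.mem_CS]
    constructor
    · rintro ⟨h, h'⟩
      rcases lt_or_ge x j with h3 | h3
      · exact Or.inl ⟨⟨h.1, h3⟩, h'⟩
      · exact Or.inr ⟨⟨h3, h.2⟩, h'⟩
    · rintro (⟨h, h'⟩ | ⟨h, h'⟩)
      · exact ⟨⟨h.1, h.2.trans_le h2⟩, h'⟩
      · exact ⟨⟨h1.trans h.1, h.2⟩, h'⟩
  · rw [Finset.disjoint_left]
    intro x h3 h4
    have h5 := (H118.mem_CS.1 h3).1
    have h6 := (H118.mem_CS.1 h4).1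
    omega

theorem ico_split (F : ℕ → ℝ) {i j k : ℕ} (h1 : i ≤ j) (h2 : j ≤ k) :
    ∑ x ∈ Ico i k, F x = ∑ x ∈ Ico i j, F x + ∑ x ∈ Ico j k, F x :=
  (Finset.sum_Ico_consecutive F h1 h2).symm

/-- the errors at the a-steps of a window -/
theorem err_le {M : ℕ} {m : ℝ} (hm : 0 ≤ m) {err : ℕ → ℝ} (herr : ∀ j, 0 ≤ err j) (D : Sdat n g a R)
    (hl : Lvl n a lm) {i k : ℕ} (hik : i ≤ k) (hk : k ≤ n) (hkn : a k < a n) (hij : i ≤ lm (a i)) :
    ∑ j ∈ CS M n g a R (lm (a i)) k, (full m a R j - err j) ≤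
      ∑ j ∈ Ico (lm (a i)) k, full m a R j - ∑ z ∈ range (a k - a i), err (lm (a i + z)) := by
  classical
  have h0 := D.am (Nat.zero_le i) (hik.trans hk)
  have hak := D.am hik hk
  have h1 : ∑ j ∈ CS M n g a R (lm (a i)) k, full m a R j ≤ ∑ j ∈ Ico (lm (a i)) k, full m a R j := by
    refine Finset.sum_le_sum_of_subset_of_nonneg (fun j hj => ?_) fun j hj _ => ?_
    · exact Finset.mem_Ico.2 (H118.mem_CS.1 hj).1
    · have h := Finset.mem_Ico.1 hj
      exact H118.full_nonneg hm D (by omega)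
  have h2 : ∑ z ∈ range (a k - a i), err (lm (a i + z)) ≤ ∑ j ∈ CS M n g a R (lm (a i)) k, err j := by
    rw [← Finset.sum_image (f := err) (g := fun z => lm (a i + z)) (s := range (a k - a i))]
    · refine Finset.sum_le_sum_of_subset_of_nonneg (fun j hj => ?_) fun j _ _ => herr j
      obtain ⟨z, hz, rfl⟩ := Finset.mem_image.1 hj
      have hz' := Finset.mem_range.1 hz
      refine H118.mem_CS.2 ⟨⟨?_, ?_⟩, Or.inl ?_⟩
      · rcases Nat.eq_zero_or_pos z with hz0 | hz0
        · rw [hz0, Nat.add_zero]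
        · exact (hl.mono D h0 (by omega) (by omega)).le
      · exact hl.lt' D hk (by omega) (by omega) (by omega)
      · rw [hl.st (a i + z) (by omega) (by omega), hl.eq (a i + z) (by omega) (by omega)]
    · intro z hz z' hz' e
      have e1 := Finset.mem_range.1 hz
      have e2 := Finset.mem_range.1 hz'
      have e3 := hl.eq (a i + z) (by omega) (by omega)
      have e4 := hl.eq (a i + z') (by omega) (by omega)
      simp only at e
      rw [e] at e3
      omega
  rw [Finset.sum_sub_distrib]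
  linarith

/-- **a window of kind `V`** : all a-steps are diagonal, the inequality `hV` is for whole diagonal steps (weight `4 m`);
`hb` : the previous a-step is of the same kind, or the line steps before the first a-step are not counted -/
theorem winV {M : ℕ} {m c1 cj : ℝ} (hm : 0 ≤ m) (hc1 : 0 ≤ c1) (hcj : 0 ≤ cj) {ψ err q : ℕ → ℝ} (herr : ∀ j, 0 ≤ err j)
    (D : Sdat n g a R) (hl : Lvl n a lm)
    (htr : ∀ i k, i ≤ k → k ≤ n → - c1 - ∑ j ∈ Ico i k, q j ≤ ψ k - ψ i)
    {i k : ℕ} (hik : i ≤ k) (hk : k ≤ n) (hkn : a k < a n)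
    (hb : R (lm (a i)) ≤ R i + 1 ∨ ∀ j ∈ CS M n g a R 0 n, a j = a i → a (j + 1) = a j → m ≤ err j)
    (hd : ∀ z, a i ≤ z → z < a k → R (lm (z + 1)) = R (lm z) + 1)
    (hV : a i < a k → ∑ z ∈ range (a k - 1 - a i), (4 * m - err (lm (a i + z))) - c1 * ((a k - 1 - a i : ℕ) : ℝ) - cj -
      ∑ j ∈ Ico (lm (a i)) (lm (a k - 1)), q j ≤ ψ (lm (a k - 1)) - ψ (lm (a i))) :
    ∑ j ∈ CS M n g a R i k, (full m a R j - err j) - c1 * ((k : ℝ) - i) - (cj + 5 * m + 2 * c1) -
      ∑ j ∈ Ico i k, q j ≤ ψ k - ψ i := by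
  have h0 := D.am (Nat.zero_le i) (hik.trans hk)
  have hak := D.am hik hk
  have hil : i ≤ lm (a i) := hl.le D (hik.trans hk) (by omega)
  have hki : (0 : ℝ) ≤ (k : ℝ) - i := by
    have : (i : ℝ) ≤ k := by exact_mod_cast hik
    linarith
  rcases Nat.eq_or_lt_of_le hak with hw | hw
  · have h1 := head_le (M := M) hm herr D hl hik hk hkn (by
      have := hl.le D hk hkn
      rw [← hw] at this
      exact this) hw.symm hb
    have h2 := htr i k hik hk
    have h3 := mul_nonneg hc1 hki
    linarith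
  · set j0 := lm (a i) with hj0
    set j1 := lm (a k - 1) with hj1
    have e1 : j1 < k := hl.lt' D hk (by omega) (by omega) (by omega)
    have e2 : j0 ≤ j1 := by
      rcases Nat.eq_or_lt_of_le (show a i ≤ a k - 1 by omega) with h | h
      · rw [hj0, hj1, h]
      · exact (hl.mono D h0 h (by omega)).le
    have e3 : a j0 = a i := hl.eq _ h0 (by omega)
    have hb' := head_le (M := M) hm herr D hl (i := i) (k := j0) hil (by omega) (by omega) le_rfl e3 hb
    have hs := cs_split (M := M) (n := n) (g := g) (a := a) (R := R) (fun j => full m a R j - err j) hil (show j0 ≤ k by omega)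
    have he := err_le (M := M) hm herr D hl hik hk hkn hil
    rw [← hj0] at he
    have hf := H118.sum_full m j0 k (show j0 ≤ k by omega) (a := a) (R := R)
    have hRk : R k ≤ R j0 + (a k - a i) := by
      have g1 := hl.le D hk hkn
      have g0 := D.am (Nat.zero_le k) hk
      have g2 := Rm D g1 (hl.lt _ g0 hkn).le
      have g3 := diag_R (R := R) (lm := lm) (z0 := a i) (z1 := a k) hd (a k) hak le_rfl
      rw [← hj0] at g3
      omega
    have hRk' : (R k : ℝ) - R j0 ≤ (a k : ℝ) - a i := by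
      have : (R k : ℝ) ≤ R j0 + ((a k - a i : ℕ) : ℝ) := by exact_mod_cast hRk
      rw [Nat.cast_sub hak] at this
      linarith
    have hV' := hV hw
    have t1 := htr i j0 hil (by omega)
    have t2 := htr j1 k e1.le hk
    have s1 := ico_split q hil (show j0 ≤ k by omega)
    have s2 := ico_split q e2 e1.le
    -- the errors
    have hr : a k - a i = (a k - 1 - a i) + 1 := by omega
    have he2 : ∑ z ∈ range (a k - 1 - a i), err (lm (a i + z)) ≤ ∑ z ∈ range (a k - a i), err (lm (a i + z)) := by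
      rw [hr, Finset.sum_range_succ]
      have := herr (lm (a i + (a k - 1 - a i)))
      linarith
    have he3 : ∑ z ∈ range (a k - 1 - a i), (4 * m - err (lm (a i + z))) =
        4 * m * ((a k - 1 - a i : ℕ) : ℝ) - ∑ z ∈ range (a k - 1 - a i), err (lm (a i + z)) := by
      rw [Finset.sum_sub_distrib, Finset.sum_const, Finset.card_range, nsmul_eq_mul]
      ring
    have hw' : ((a k - 1 - a i : ℕ) : ℝ) = (a k : ℝ) - a i - 1 := by
      have : a k - 1 - a i + 1 + a i = a k := by omega
      have h : ((a k - 1 - a i : ℕ) : ℝ) + 1 + a i = a k := by exact_mod_cast this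
      linarith
    have hal := D.al hik hk
    have hal' : (a k : ℝ) - a i - 1 ≤ (k : ℝ) - i := by
      have : a k + i ≤ a i + k := by omega
      have : (a k : ℝ) + i ≤ a i + k := by exact_mod_cast this
      linarith
    have hcc := mul_le_mul_of_nonneg_left hal' hc1
    rw [e3] at hf
    rw [hw'] at hV' he3
    have hmR := mul_le_mul_of_nonneg_left hRk' hm
    linarith

/-! ### the cut at the changes of the kind -/

/-- levels within `L` of a level of `Sw` -/
def Near (Sw : Finset ℕ) (L z : ℕ) : Prop := ∃ s ∈ Sw, s ≤ z + L ∧ z ≤ s + L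

open Classical in
/-- the error with the cut: full at the counted steps of the levels within `L` of a level of `Sw` -/
noncomputable def errC (M n : ℕ) (g : ℕ → Prop) (a R : ℕ → ℕ) (Sw : Finset ℕ) (L : ℕ) (m : ℝ) (err : ℕ → ℝ) (j : ℕ) : ℝ :=
  err j + if j ∈ CS M n g a R 0 n ∧ Near Sw L (a j) then 3 * m else 0

theorem errC_ge {M : ℕ} {Sw : Finset ℕ} {L : ℕ} {m : ℝ} (hm : 0 ≤ m) (err : ℕ → ℝ) (j : ℕ) :
    err j ≤ errC M n g a R Sw L m err j := by
  classical
  unfold errC
  split_ifs <;> linarith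

theorem errC_nonneg {M : ℕ} {Sw : Finset ℕ} {L : ℕ} {m : ℝ} (hm : 0 ≤ m) {err : ℕ → ℝ} (herr : ∀ j, 0 ≤ err j) (j : ℕ) :
    0 ≤ errC M n g a R Sw L m err j := (herr j).trans (errC_ge hm err j)

/-- **the cut** : the inequality of the light windows follows from the one for the windows `[i, k)` which meet no level of
`Sw`, `L1` = length of the windows -/
theorem light_cut {M L1 : ℕ} {m c1 cj : ℝ} (hm : 0 ≤ m) (hc1 : 0 ≤ c1) (hcj : 0 ≤ cj) {ψ err q : ℕ → ℝ}
    (herr : ∀ j, 0 ≤ err j) (D : Sdat n g a R) (Sw : Finset ℕ)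
    (htr : ∀ i k, i ≤ k → k ≤ n → - c1 - ∑ j ∈ Ico i k, q j ≤ ψ k - ψ i)
    {i k : ℕ} (hik : i ≤ k) (hk : k ≤ n) (hkL : k ≤ i + L1)
    (h : (∀ z, a i ≤ z → z ≤ a k → z ∉ Sw) →
      ∑ j ∈ CS M n g a R i k, (full m a R j - errC M n g a R Sw L1 m err j) - c1 * ((k : ℝ) - i) - cj -
        ∑ j ∈ Ico i k, q j ≤ ψ k - ψ i) :
    ∑ j ∈ CS M n g a R i k, (full m a R j - errC M n g a R Sw L1 m err j) - c1 * ((k : ℝ) - i) - cj -
      ∑ j ∈ Ico i k, q j ≤ ψ k - ψ i := by
  classical
  by_cases hS : ∀ z, a i ≤ z → z ≤ a k → z ∉ Sw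
  · exact h hS
  · push Not at hS
    obtain ⟨z, z1, z2, z3⟩ := hS
    rcases Nat.eq_or_lt_of_le hik with hik' | hik'
    · subst hik'
      have h1 : ∑ j ∈ CS M n g a R i i, (full m a R j - errC M n g a R Sw L1 m err j) = 0 := by
        refine Finset.sum_eq_zero fun j hj => ?_
        have := (H118.mem_CS.1 hj).1
        omega
      rw [h1, Finset.Ico_self, Finset.sum_empty]
      linarith
    · have h1 : ∑ j ∈ CS M n g a R i k, (full m a R j - errC M n g a R Sw L1 m err j) ≤ 0 := by
        refine Finset.sum_nonpos fun j hj => ?_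
        obtain ⟨⟨h1, h2⟩, h3⟩ := H118.mem_CS.1 hj
        have h4 := H118.full_le hm D (show j < n by omega)
        have h5 := D.am h1 (by omega)
        have h6 := D.am (i := j) (j := k) (by omega) hk
        have h7 := D.al hik hk
        have h8 : errC M n g a R Sw L1 m err j = err j + 3 * m := by
          unfold errC
          rw [if_pos]
          exact ⟨H118.mem_CS.2 ⟨⟨Nat.zero_le _, by omega⟩, h3⟩, z, z3, by omega, by omega⟩
        have h9 := herr j
        linarith
      have h2 := htr i k hik hk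
      have h3 : c1 ≤ c1 * ((k : ℝ) - i) := by
        have : (1 : ℝ) ≤ (k : ℝ) - i := by
          have : (i : ℝ) + 1 ≤ k := by exact_mod_cast hik'
          linarith
        nlinarith
      linarith

/-- passage from `err` to the error with the cut -/
theorem cut_of {M L1 : ℕ} {m x : ℝ} (hm : 0 ≤ m) {err : ℕ → ℝ} {Sw : Finset ℕ} {i k : ℕ}
    (h : ∑ j ∈ CS M n g a R i k, (full m a R j - err j) ≤ x) :
    ∑ j ∈ CS M n g a R i k, (full m a R j - errC M n g a R Sw L1 m err j) ≤ x :=
  (Finset.sum_le_sum fun j _ => by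
    have := errC_ge (M := M) (n := n) (g := g) (a := a) (R := R) (Sw := Sw) (L := L1) hm err j
    linarith).trans h

/-- a window which meets no change of the kind has one kind -/
theorem kind_const {ι : Type*} (kd : ℕ → ι) {Sw : Finset ℕ} {z0 z1 : ℕ}
    (hSw : ∀ z, z0 ≤ z → z < z1 → kd z ≠ kd (z + 1) → z ∈ Sw) (h : ∀ z, z0 ≤ z → z ≤ z1 → z ∉ Sw) :
    ∀ z, z0 ≤ z → z ≤ z1 → kd z = kd z0 := by
  intro z hz
  induction z, hz using Nat.le_induction with
  | base => exact fun _ => rfl
  | succ z h1 ih =>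
    intro h2
    have h3 := ih (by omega)
    rw [← h3]
    by_contra hcon
    exact h z h1 (by omega) (hSw z h1 (by omega) fun e => hcon e.symm)

/-- **the windows of kind `V` in the form of the summation** : `V z` = the a-step of the level `z` is of kind `V`, `Sw` contains
the levels at which the kind changes; the inequality `hV` is for whole diagonal steps (weight `4 m`) -/
theorem light_V {M L1 : ℕ} {m c1 cj : ℝ} (hm : 0 ≤ m) (hc1 : 0 ≤ c1) (hcj : 0 ≤ cj) (hL1 : 1 ≤ L1) {ψ err q : ℕ → ℝ}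
    (herr : ∀ j, 0 ≤ err j) (D : Sdat n g a R) (g0 : g 0) (hl : Lvl n a lm) (V : ℕ → Prop) (Sw : Finset ℕ)
    (hSw : ∀ z, a 0 ≤ z → z + 1 < a n → V (z + 1) → ¬ V z → z ∈ Sw)
    (hd : ∀ z, a 0 ≤ z → z + 1 < a n → V z → R (lm (z + 1)) = R (lm z) + 1)
    (htr : ∀ i k, i ≤ k → k ≤ n → - c1 - ∑ j ∈ Ico i k, q j ≤ ψ k - ψ i)
    {i k : ℕ} (hik : i ≤ k) (hk : k ≤ n) (hkn : a k < a n) (hVk : ∀ z, a i ≤ z → z ≤ a k → V z)
    (hV : a i < a k → ∑ z ∈ range (a k - 1 - a i), (4 * m - err (lm (a i + z))) - c1 * ((a k - 1 - a i : ℕ) : ℝ) - cj -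
      ∑ j ∈ Ico (lm (a i)) (lm (a k - 1)), q j ≤ ψ (lm (a k - 1)) - ψ (lm (a i))) :
    ∑ j ∈ CS M n g a R i k, (full m a R j - errC M n g a R Sw L1 m err j) - c1 * ((k : ℝ) - i) -
      (cj + 5 * m + 2 * c1) - ∑ j ∈ Ico i k, q j ≤ ψ k - ψ i := by
  classical
  have h0 := D.am (Nat.zero_le i) (hik.trans hk)
  have hak := D.am hik hk
  have hil : i ≤ lm (a i) := hl.le D (hik.trans hk) (by omega)
  refine winV hm hc1 hcj (fun j => errC_nonneg hm herr j) D hl htr hik hk hkn ?_ (fun z h1 h2 => ?_) fun h1 => ?_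
  · rcases Nat.eq_or_lt_of_le h0 with h1 | h1
    · left
      have e1 : i = 0 := by
        by_contra hcon
        have e2 := D.ga 0 (by omega) g0
        have e3 := D.am (i := 0 + 1) (j := i) (by omega) (by omega)
        omega
      have e2 := D.ga 0 (by
        have := hl.lt (a 0) le_rfl (by omega)
        omega) g0
      have e3 : lm (a i) = 0 := by
        rw [e1]
        have e4 := hl.eq (a 0) le_rfl (by omega)
        have e5 := hl.lt (a 0) le_rfl (by omega)
        by_contra hcon
        have e6 := D.am (i := 0 + 1) (j := lm (a 0)) (by omega) (by omega)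
        omega
      rw [e3, e1]
      omega
    · by_cases h2 : V (a i - 1)
      · left
        have e1 := hd (a i - 1) (by omega) (by omega) h2
        rw [show a i - 1 + 1 = a i by omega] at e1
        have e2 := hl.lt' D (z := a i - 1) (hik.trans hk) (by omega) (by omega) (by omega)
        have e3 := Rm D e2.le (hik.trans hk)
        omega
      · right
        have e1 : a i - 1 ∈ Sw := hSw (a i - 1) (by omega) (by omega)
          (by rw [show a i - 1 + 1 = a i by omega]; exact hVk _ le_rfl hak) h2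
        intro j hj haj _
        have e2 : errC M n g a R Sw L1 m err j = err j + 3 * m := by
          unfold errC
          rw [if_pos]
          exact ⟨hj, a i - 1, e1, by omega, by omega⟩
        have := herr j
        linarith
  · exact hd z (by omega) (by omega) (hVk z h1 (by omega))
  · have h2 := hV h1
    have h3 : ∑ z ∈ range (a k - 1 - a i), (4 * m - errC M n g a R Sw L1 m err (lm (a i + z))) ≤
        ∑ z ∈ range (a k - 1 - a i), (4 * m - err (lm (a i + z))) :=
      Finset.sum_le_sum fun z _ => by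
        have := errC_ge (M := M) (n := n) (g := g) (a := a) (R := R) (Sw := Sw) (L := L1) hm err (lm (a i + z))
        linarith
    linarith

/-- counted steps of one level -/
theorem cs_level {M : ℕ} (D : Sdat n g a R) (z : ℕ) [DecidablePred fun j => a j = z] :
    ((CS M n g a R 0 n).filter fun j => a j = z).card ≤ M + 1 := by
  classical
  rcases Finset.eq_empty_or_nonempty ((CS M n g a R 0 n).filter fun j => a j = z) with he | hne
  · rw [he]
    simp
  -- the counted line steps of the level `z`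
  set X := ((CS M n g a R 0 n).filter fun j => a j = z).filter fun j => ¬ a (j + 1) = a j + 1 with hX
  set Y := ((CS M n g a R 0 n).filter fun j => a j = z).filter fun j => a (j + 1) = a j + 1 with hY
  have hcard : ((CS M n g a R 0 n).filter fun j => a j = z).card = Y.card + X.card := by
    rw [hX, hY]
    exact (Finset.card_filter_add_card_filter_not _).symm
  have hYc : Y.card ≤ 1 := by
    rw [Finset.card_le_one]
    intro x hx y hy
    rw [hY, Finset.mem_filter, Finset.mem_filter] at hx hy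
    obtain ⟨⟨x1, x2⟩, x3⟩ := hx
    obtain ⟨⟨y1, y2⟩, y3⟩ := hy
    have x4 := (H118.mem_CS.1 x1).1
    have y4 := (H118.mem_CS.1 y1).1
    rcases lt_trichotomy x y with h | h | h
    · have := D.am (i := x + 1) (j := y) (by omega) (by omega)
      omega
    · exact h
    · have := D.am (i := y + 1) (j := x) (by omega) (by omega)
      omega
  have hXc : X.card ≤ M := by
    -- all the witnesses `q` are the a-step of the level
    have hXm : ∀ j ∈ X, j < n ∧ a j = z ∧ R (j + 1) = R j + 1 ∧ ∃ q, j < q ∧ q < n ∧ a (q + 1) = a q + 1 ∧ a q = z ∧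
        R q ≤ R j + M := by
      intro j hj
      rw [hX, Finset.mem_filter, Finset.mem_filter] at hj
      obtain ⟨⟨x1, x2⟩, x3⟩ := hj
      obtain ⟨x4, x5⟩ := H118.mem_CS.1 x1
      rcases x5 with x5 | ⟨x5, q, q1, q2, q3, q4, q5⟩
      · exact absurd x5 x3
      · exact ⟨x4.2, x2, x5, q, q1, q2, D.ga q q2 q3, q4.trans x2, q5⟩
    rcases Finset.eq_empty_or_nonempty X with hXe | ⟨j0, hj0⟩
    · rw [hXe]
      simp
    · obtain ⟨_, _, _, q, q1, q2, q3, q4, _⟩ := hXm j0 hj0
      have hq : ∀ j ∈ X, R q ≤ R j + M ∧ R j < R q := by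
        intro j hj
        obtain ⟨x1, x2, x3, q', y1, y2, y3, y4, y5⟩ := hXm j hj
        have e : q = q' := by
          rcases lt_trichotomy q q' with h | h | h
          · have := D.am (i := q + 1) (j := q') (by omega) (by omega)
            omega
          · exact h
          · have := D.am (i := q' + 1) (j := q) (by omega) (by omega)
            omega
        subst e
        have := Rm D (i := j + 1) (j := q) (by omega) (by omega)
        exact ⟨y5, by omega⟩
      have hinj : Set.InjOn R (X : Set ℕ) := by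
        intro x hx y hy e
        obtain ⟨x1, _, x3, _⟩ := hXm x hx
        obtain ⟨y1, _, y3, _⟩ := hXm y hy
        rcases lt_trichotomy x y with h | h | h
        · have := Rm D (i := x + 1) (j := y) (by omega) (by omega)
          omega
        · exact h
        · have := Rm D (i := y + 1) (j := x) (by omega) (by omega)
          omega
      rw [← Finset.card_image_of_injOn hinj]
      refine (Finset.card_le_card (t := Ico (R q - M) (R q)) fun y hy => ?_).trans ?_
      · obtain ⟨x, hx, rfl⟩ := Finset.mem_image.1 hy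
        have := hq x hx
        rw [Finset.mem_Ico]
        omega
      · rw [Nat.card_Ico]
        omega
  omega

/-- **price of the cut** -/
theorem errC_sum {M L : ℕ} {m : ℝ} (hm : 0 ≤ m) (err : ℕ → ℝ) (D : Sdat n g a R) (Sw : Finset ℕ) :
    ∑ j ∈ range n, errC M n g a R Sw L m err j ≤
      ∑ j ∈ range n, err j + 3 * m * ((M + 1) * ((2 * L + 1) * Sw.card)) := by
  classical
  unfold errC
  rw [Finset.sum_add_distrib]
  have h1 : ∑ j ∈ range n, (if j ∈ CS M n g a R 0 n ∧ Near Sw L (a j) then 3 * m else 0) =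
      3 * m * ((range n).filter fun j => j ∈ CS M n g a R 0 n ∧ Near Sw L (a j)).card := by
    rw [← Finset.sum_filter, Finset.sum_const, nsmul_eq_mul]
    ring
  have h2 : ((range n).filter fun j => j ∈ CS M n g a R 0 n ∧ Near Sw L (a j)).card ≤
      (M + 1) * ((2 * L + 1) * Sw.card) := by
    set T : Finset ℕ := Sw.biUnion fun s => Icc (s - L) (s + L) with hT
    have hTc : T.card ≤ (2 * L + 1) * Sw.card := by
      refine (Finset.card_biUnion_le).trans ?_
      refine (Finset.sum_le_card_nsmul _ _ (2 * L + 1) fun s _ => ?_).trans ?_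
      · rw [Nat.card_Icc]
        omega
      · rw [smul_eq_mul, Nat.mul_comm]
    have hsub : ((range n).filter fun j => j ∈ CS M n g a R 0 n ∧ Near Sw L (a j)) ⊆
        T.biUnion fun z => (CS M n g a R 0 n).filter fun j => a j = z := by
      intro j hj
      rw [Finset.mem_filter] at hj
      obtain ⟨_, h3, s, h4, h5, h6⟩ := hj
      rw [Finset.mem_biUnion]
      refine ⟨a j, ?_, Finset.mem_filter.2 ⟨h3, rfl⟩⟩
      rw [hT, Finset.mem_biUnion]
      exact ⟨s, h4, Finset.mem_Icc.2 ⟨by omega, by omega⟩⟩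
    refine (Finset.card_le_card hsub).trans (Finset.card_biUnion_le.trans ?_)
    refine (Finset.sum_le_card_nsmul _ _ (M + 1) fun z _ => cs_level D z).trans ?_
    rw [smul_eq_mul, Nat.mul_comm]
    exact Nat.mul_le_mul_left _ hTc
  rw [h1]
  have h3 : (((range n).filter fun j => j ∈ CS M n g a R 0 n ∧ Near Sw L (a j)).card : ℝ) ≤
      (M + 1) * ((2 * L + 1) * Sw.card) := by exact_mod_cast h2
  have h4 := mul_le_mul_of_nonneg_left h3 (show 0 ≤ 3 * m by linarith)
  linarith

end comb

end Vale.Agent.P106.U.H495
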