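import Mathlib

/-!
# P106 / U / H495 : Vitali summation of the steep windows (helper495)

`vit` : disjoint windows `[x k, x k + w k)` with weights `R k ≤ N0 * w k`; if the mass of `u` on
`[x k, x k + 2 R k]` is larger than `eta * R k` for every `k`, then `∑ R k ≤ 20 N0 / eta * ∑ u`.
-/

set_option autoImplicit false

namespace Vale.Agent.P106.U.H495

open Finset

/-- Vitali summation -/
theorem vit {ι : Type} (s : Finset ι) (x w R : ι → ℤ) (u : ℤ → ℝ) (hu : ∀ z, 0 ≤ u z)
    (T : Finset ℤ) (hT : ∀ z, z ∉ T → u z = 0) (N0 : ℤ) (hN : 0 ≤ N0) (eta : ℝ) (heta : 0 < eta)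
    (hw : ∀ k ∈ s, 1 ≤ w k ∧ w k ≤ R k ∧ R k ≤ N0 * w k)
    (hdis : (s : Set ι).PairwiseDisjoint fun k => Finset.Ico (x k) (x k + w k))
    (hbad : ∀ k ∈ s, eta * R k < ∑ z ∈ Finset.Icc (x k) (x k + 2 * R k), u z) :
    ∑ k ∈ s, (R k : ℝ) ≤ 20 * N0 / eta * ∑ z ∈ T, u z := by
  classical
  have hNr : (0 : ℝ) ≤ N0 := by exact_mod_cast hN
  obtain ⟨v, hvs, hvd, hv⟩ := Vitali.exists_disjoint_subfamily_covering_enlargement
    (fun k : ι => (Finset.Icc (x k) (x k + 2 * R k) : Set ℤ)) (s : Set ι) (fun k => (R k : ℝ)) 2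
    (by norm_num) (fun k hk => by
      have := hw k (by simpa using hk)
      have h1 : (1 : ℤ) ≤ R k := this.1.trans this.2.1
      exact_mod_cast (by omega : (0 : ℤ) ≤ R k))
    (∑ k ∈ s, |(R k : ℝ)|) (fun k hk => by
      have hk' : k ∈ s := by simpa using hk
      exact (le_abs_self _).trans
        (Finset.single_le_sum (f := fun k => |(R k : ℝ)|) (fun _ _ => abs_nonneg _) hk'))
    (fun k hk => by
      have := hw k (by simpa using hk)
      refine ⟨x k, ?_⟩
      simp only [Finset.coe_Icc, Set.mem_Icc]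
      omega)
  -- the finite subfamily
  have hvf : v.Finite := s.finite_toSet.subset hvs
  set V : Finset ι := hvf.toFinset with hV
  have hVs : ∀ k ∈ V, k ∈ s := fun k hk => by
    have : k ∈ v := by simpa [hV] using hk
    simpa using hvs this
  -- the windows are covered by the enlarged intervals
  have hcov : (s.biUnion fun k => Finset.Ico (x k) (x k + w k)) ⊆
      V.biUnion fun b => Finset.Ico (x b - 4 * R b) (x b + 4 * R b) := by
    intro z hz
    rw [Finset.mem_biUnion] at hz ⊢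
    obtain ⟨a, ha, hza⟩ := hz
    obtain ⟨b, hb, ⟨y, hya, hyb⟩, hab⟩ := hv a (by simpa using ha)
    refine ⟨b, by simpa [hV] using hb, ?_⟩
    have hab' : R a ≤ 2 * R b := by exact_mod_cast hab
    have h1 := hw a ha
    simp only [Finset.coe_Icc, Set.mem_Icc] at hya hyb
    rw [Finset.mem_Ico] at hza ⊢
    omega
  have hcard : ∑ k ∈ s, w k ≤ ∑ b ∈ V, 8 * R b := by
    have h1 : ((s.biUnion fun k => Finset.Ico (x k) (x k + w k)).card : ℤ) = ∑ k ∈ s, w k := by
      rw [Finset.card_biUnion (fun a ha b hb hab => hdis (by simpa using ha) (by simpa using hb) hab)]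
      push_cast
      refine Finset.sum_congr rfl fun k hk => ?_
      have := hw k hk
      rw [Int.card_Ico, Int.toNat_of_nonneg (by omega)]
      ring
    have h2 : ((V.biUnion fun b => Finset.Ico (x b - 4 * R b) (x b + 4 * R b)).card : ℤ) ≤
        ∑ b ∈ V, 8 * R b := by
      have h3 := Finset.card_biUnion_le (s := V)
        (t := fun b => Finset.Ico (x b - 4 * R b) (x b + 4 * R b))
      have h4 : ((V.biUnion fun b => Finset.Ico (x b - 4 * R b) (x b + 4 * R b)).card : ℤ) ≤
          ((∑ b ∈ V, (Finset.Ico (x b - 4 * R b) (x b + 4 * R b)).card : ℕ) : ℤ) := by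
        exact_mod_cast h3
      refine h4.trans (le_of_eq ?_)
      push_cast
      refine Finset.sum_congr rfl fun b hb => ?_
      have := hw b (hVs b hb)
      rw [Int.card_Ico, Int.toNat_of_nonneg (by omega)]
      ring
    have h5 : ((s.biUnion fun k => Finset.Ico (x k) (x k + w k)).card : ℤ) ≤
        (V.biUnion fun b => Finset.Ico (x b - 4 * R b) (x b + 4 * R b)).card := by
      exact_mod_cast Finset.card_le_card hcov
    linarith
  -- the mass
  have hmass : eta * ∑ b ∈ V, (R b : ℝ) ≤ ∑ z ∈ T, u z := by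
    have h1 : eta * ∑ b ∈ V, (R b : ℝ) ≤
        ∑ b ∈ V, ∑ z ∈ Finset.Icc (x b) (x b + 2 * R b), u z := by
      rw [Finset.mul_sum]
      exact Finset.sum_le_sum fun b hb => (hbad b (hVs b hb)).le
    have h2 : ∑ b ∈ V, ∑ z ∈ Finset.Icc (x b) (x b + 2 * R b), u z =
        ∑ z ∈ V.biUnion (fun b => Finset.Icc (x b) (x b + 2 * R b)), u z := by
      rw [Finset.sum_biUnion]
      intro a ha b hb hab
      have ha' : a ∈ v := by simpa [hV] using ha
      have hb' : b ∈ v := by simpa [hV] using hb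
      have := hvd ha' hb' hab
      have h3 : Disjoint ((Finset.Icc (x a) (x a + 2 * R a) : Finset ℤ) : Set ℤ)
        ((Finset.Icc (x b) (x b + 2 * R b) : Finset ℤ) : Set ℤ) := this
      exact Finset.disjoint_coe.1 h3
    have h3 : ∑ z ∈ V.biUnion (fun b => Finset.Icc (x b) (x b + 2 * R b)), u z ≤ ∑ z ∈ T, u z := by
      calc _ = ∑ z ∈ (V.biUnion (fun b => Finset.Icc (x b) (x b + 2 * R b))).filter (· ∈ T), u z := by
            rw [Finset.sum_filter_of_ne]
            intro z _ hz
            by_contra hcon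
            exact hz (hT z hcon)
        _ ≤ _ := by
            refine Finset.sum_le_sum_of_subset_of_nonneg ?_ fun z _ _ => hu z
            intro z hz
            exact (Finset.mem_filter.1 hz).2
    linarith
  have hVR : ∑ b ∈ V, (R b : ℝ) ≤ (∑ z ∈ T, u z) / eta := by
    rw [le_div_iff₀ heta, mul_comm]
    exact hmass
  have hT0 : 0 ≤ ∑ z ∈ T, u z := Finset.sum_nonneg fun z _ => hu z
  have hcard' : ∑ k ∈ s, (w k : ℝ) ≤ 8 * ∑ b ∈ V, (R b : ℝ) := by
    have : ((∑ k ∈ s, w k : ℤ) : ℝ) ≤ ((∑ b ∈ V, 8 * R b : ℤ) : ℝ) := by exact_mod_cast hcard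
    push_cast at this
    rw [Finset.mul_sum]
    exact this
  calc ∑ k ∈ s, (R k : ℝ) ≤ ∑ k ∈ s, (N0 : ℝ) * w k := by
        refine Finset.sum_le_sum fun k hk => ?_
        exact_mod_cast (hw k hk).2.2
    _ = N0 * ∑ k ∈ s, (w k : ℝ) := by rw [Finset.mul_sum]
    _ ≤ N0 * (8 * ((∑ z ∈ T, u z) / eta)) := by
        refine mul_le_mul_of_nonneg_left (hcard'.trans ?_) hNr
        exact mul_le_mul_of_nonneg_left hVR (by norm_num)
    _ ≤ 20 * N0 / eta * ∑ z ∈ T, u z := by
        have h1 : 0 ≤ N0 * (∑ z ∈ T, u z) / eta := by positivity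
        have h2 : (N0 : ℝ) * (8 * ((∑ z ∈ T, u z) / eta)) = 8 * (N0 * (∑ z ∈ T, u z) / eta) := by
          ring
        have h3 : 20 * (N0 : ℝ) / eta * ∑ z ∈ T, u z = 20 * (N0 * (∑ z ∈ T, u z) / eta) := by
          ring
        rw [h2, h3]
        linarith

end Vale.Agent.P106.U.H495
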