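import Vale.Agent.P106.U.H495.RK0
import Vale.Agent.P106.U.H624.JunS

/-!
# P106 / U / H495 : the inputs of row [K] as literal propositions (helper495)

* `LvF s z` : facts of a pure level (`u = ui s z` its a-step in the record); `PF s w y` : facts of an interval of pure levels.
* `drK s j` : representatives of the cells of the index `j`; `ThK s y` : time digits at the late level; `AK s w y` : the nominal
  position of the level `w` (late level `y`); `lbK s L w y` : label of the scale `L`.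
* inputs: **`SwP`** (levels), **`StP`** (one step), **`JuP`** (end of the chain), **`NdP`** (nestedness of the cells), `SE1`
  (`RK0.lean`).
-/

set_option autoImplicit false

namespace Vale.Agent.P106.U.H495.RK

open Finset Vale.Agent.P127 Vale.Agent.P127.Stk Vale.Agent.P127.U Vale.Agent.P106.W Vale.Agent.P106.K
open Vale.Agent.P127.U.CellD (q2 rd)
open Vale.Agent.P106.U.S3 (Run mt LDk LTh Ob lv IdK)
open Vale.Agent.P106.U.S5 hiding Cst
open Vale.Agent.P106.U.MIC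
open Vale.Agent.P106.U.H572.HStep (BfH)
open Vale.Agent.P106.U.H624 (JSt jS)
open Vale.Agent.P106.U.H785.Mtr (Mtd Lt)
open Vale.Agent.P106.U.H466 (Rep exists_rep)
open Vale.Agent.P106.H25 (XV MV AV lbH)

section

variable {η : ℝ} {x : ℕ} {σ : S5.Cst} {ε : ℝ} {ρ : Thr} {g : Gv} {m B h : ℕ}

/-- **facts of a pure level** -/
structure LvF (s : St η x σ ε ρ g m B h) (z : ℕ) : Prop where
  isA : s.R.IsA (ui s z)
  k1 : 1 ≤ ui s z
  kn : ui s z < s.R.n
  lev : s.R.C.a (ui s z) = z * s.R.m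
  lv : lv s.R (ui s z) = z
  V : z ∈ s.Vs
  X : z ∉ s.Xs
  idK : ui s z ∈ IdK s.R s.Vs s.Xs
  rf : s.bV + s.R.C.rk (ui s z) ≤ s.R.C.rf (ui s z)
  a2 : 2 * μS x m ≤ s.R.C.a (ui s z)
  jst : JSt s (jS ρ x m) (ui s z)

/-- **facts of the interval `[w, y]` of pure levels** -/
structure PF (s : St η x σ ε ρ g m B h) (w y : ℕ) : Prop where
  wy : w ≤ y
  lv : ∀ z, w ≤ z → z ≤ y → LvF s z
  up : ∀ z z', w ≤ z → z < z' → z' ≤ y → ui s z < ui s z'
  rk : ∀ z z', w ≤ z → z ≤ z' → z' ≤ y → s.R.C.rk (ui s z') = s.R.C.rk (ui s z) + (z' - z) * s.R.m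
  ao : ∀ z z', w ≤ z → z ≤ z' → z' ≤ y → ∀ ω, 0 < s.R.Q.w ω → s.F.Ao z' ω = s.F.Ao z ω
  len : ui s y ≤ ui s w + B

theorem PF.sub {s : St η x σ ε ρ g m B h} {w y w' y' : ℕ} (H : PF s w y) (h1 : w ≤ w') (h2 : w' ≤ y') (h3 : y' ≤ y) :
    PF s w' y' := by
  have e1 : ui s w ≤ ui s w' := by
    rcases h1.eq_or_lt with e | e
    · rw [e]
    · exact (H.up w w' le_rfl e (by omega)).le
  have e2 : ui s y' ≤ ui s y := by
    rcases h3.eq_or_lt with e | e
    · rw [e]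
    · exact (H.up y' y (by omega) e le_rfl).le
  have e3 := H.len
  exact ⟨h2, fun z a b => H.lv z (by omega) (by omega), fun z z' a b c => H.up z z' (by omega) b (by omega),
    fun z z' a b c => H.rk z z' (by omega) b (by omega), fun z z' a b c => H.ao z z' (by omega) b (by omega), by omega⟩

/-- representatives of the cells of the index `j` -/
noncomputable def drK (s : St η x σ ε ρ g m B h) (j : ℕ) : s.Ω → s.Ω :=
  haveI : Nonempty s.Ω := by
    by_contra hn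
    rw [not_nonempty_iff] at hn
    have h1 := s.R.Q.sum_one
    rw [Finset.univ_eq_empty, Finset.sum_empty] at h1
    exact zero_ne_one h1
  Classical.choose (exists_rep (fun ω => 0 < s.R.Q.w ω) (((M s).p1 j).cell j (s.R.m * s.R.b1)))

theorem drK_rep (s : St η x σ ε ρ g m B h) (j : ℕ) :
    Rep (fun ω => 0 < s.R.Q.w ω) (((M s).p1 j).cell j (s.R.m * s.R.b1)) (drK s j) :=
  haveI : Nonempty s.Ω := by
    by_contra hn
    rw [not_nonempty_iff] at hn
    have h1 := s.R.Q.sum_one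
    rw [Finset.univ_eq_empty, Finset.sum_empty] at h1
    exact zero_ne_one h1
  Classical.choose_spec (exists_rep (fun ω => 0 < s.R.Q.w ω) (((M s).p1 j).cell j (s.R.m * s.R.b1)))

/-- time digits at the late level `y` -/
noncomputable def ThK (s : St η x σ ε ρ g m B h) (y : ℕ) (ω : s.Ω) : ℤ := fl1 (s.R.C.a (ui s y)) (s.R.C.t ω)

/-- cell of the level `w` -/
noncomputable def MtK (s : St η x σ ε ρ g m B h) (w : ℕ) : s.Ω → Lt s.π × U.Cell.Pth.Dg := (M s).mtr (ui s w) (s.R.m * s.R.b1)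

/-- nominal position of the level `w`, late level `y` -/
noncomputable def AK (s : St η x σ ε ρ g m B h) (w y : ℕ) : s.Ω → (Lt s.π × U.Cell.Pth.Dg) × (ℤ × (Fin 4 → ℤ)) :=
  AV (M s) (s.R.m * s.R.b1) (ui s y) (drK s) (ui s w)

/-- label of the scale `L` of the level `w`, late level `y` -/
noncomputable def lbK (s : St η x σ ε ρ g m B h) (L : ℝ) (w y : ℕ) (ω : s.Ω) : ℤ × (Fin 4 → ℤ) :=
  lbH L (XV (M s) (s.R.m * s.R.b1) (ui s y) (drK s) (ui s w) ω) (MV (M s) (s.R.m * s.R.b1) (ui s y) (drK s) (ui s w) ω)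

end

/-- **[SW]** the exceptional levels (helper205) -/
def SwP : Prop :=
  Pre fun _ η x _ _ σ ε ρ => ∀ (L : ℕ) (κ : ℝ), 0 < κ → Suf σ ε fun g m B h => ∀ s : St η x σ ε ρ g m B h,
    ∃ Sw : Finset ℕ, H336.SwL s.R B s.Vs s.Xs L ⊆ Sw ∧ (m : ℝ) * Sw.card ≤ κ * h ∧
      ∀ w y, s.a 0 ≤ w → w ≤ y → y ≤ w + L → y < s.a s.N → (∀ z, w ≤ z → z ≤ y → PuK s Sw z) → PF s w y

/-- **[ST]** one diagonal step from the level `w` to the level `w + 1`, late level `y`: gain `4 m log 2`, and the chain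
(helpers 572, 25) -/
def StP : Prop :=
  Pre fun _ η x _ _ σ ε ρ => ∃ cL : ℝ, 0 ≤ cL ∧ ∀ L : ℕ, Suf σ ε fun g m B h => ∀ s : St η x σ ε ρ g m B h,
    ∀ w y, PF s w y → w + 1 + KrK x ≤ y → y ≤ w + L →
      4 * m * Real.log 2 - (23 + 3 * bK + cL + 1200 * m * H786.SC.cc1 s.R s.F (μS x m) s.o s.o' ρ.c' m
          (s.R.m * s.R.b1) (BfH s.R s.F (rK m)) (ui s (w + 1)) +
          A0K m ρ.c' * (Real.sqrt (I1z s (w + 1) y) + Real.sqrt (I2z s (w + 1) y))) ≤
        hc s.R.Q (AK s (w + 1) y) (fun ω => (AK s w y ω, (MtK s (w + 1) ω, ThK s y ω))) ∧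
      hc s.R.Q (AK s w y) (fun ω => (AK s (w + 1) y ω, ThK s y ω)) ≤ cL

/-- **[JU]** end of the chain (helper958) -/
def JuP : Prop :=
  ∃ CJ : ℕ → ℝ, (∀ x, 0 ≤ CJ x) ∧ Pre fun _ η x _ _ σ ε ρ => Suf σ ε fun g m B h => ∀ s : St η x σ ε ρ g m B h,
    ∀ w, PF s w (w + 1 + KrK x) →
      hc s.R.Q (AK s w (w + 1 + KrK x)) (fun ω => (ThK s (w + 1 + KrK x) ω, MtK s w ω)) ≤ s.mm * CJ x

/-- **[ND]** nestedness of the cells -/
def NdP : Prop :=
  Pre fun _ η x _ _ σ ε ρ => ∃ cN : ℝ, 0 ≤ cN ∧ Suf σ ε fun g m B h => ∀ s : St η x σ ε ρ g m B h,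
    ∀ w y, PF s w y → hc s.R.Q (MtK s w) (MtK s y) ≤ cN

end Vale.Agent.P106.U.H495.RK
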