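import Vale.Agent.P106.U.H495.WinR
import Vale.Agent.P106.U.H833.WinS

/-!
# P106 / U / H495 : rows [LP] and [LK] : the pure young windows in the form of `MIC.scaleOk_of` (helper495)

`R` = run (with the low margin), `f` = indices of the compressed path, `a = aN R (f ·)`, `r = RN R x (f ·)`; `lm z` = a-step of
the level `z`; `y k = f (lx N a Kr k)` = record index of the later step of a window which ends at `k`.

* `WAt` : the windows which are used; `PIn` : inputs of one window of the kind deep phi which begins at an a-step; **`rowP`**.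
* `KIn` : inputs of one window of the kind kappa (whole diagonal steps); **`rowK`**.
-/

set_option autoImplicit false

namespace Vale.Agent.P106.U.H495

open Finset Vale.Agent.P127 Vale.Agent.P127.Stk
open Vale.Agent.P106.U.Cell Vale.Agent.P106.U.S3
open Vale.Agent.P106.U.H833 (psi qc qc_nonneg tdg cNst aN RN lx lx_spec errO errO_nonneg)
open Vale.Agent.P106.U.H118 (Sdat CS mem_CS full Zw)

section

variable {Ω : Type} [Fintype Ω] {τ υ : Type} {R : Run Ω τ υ} {p : Run.Num} {K c' g' gU : ℝ} {κ α θ : Type}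

/-- **inputs of one window of the kind deep phi** `[s, k)`, late record index `y` -/
structure PIn (R : Run Ω τ υ) (f : ℕ → ℕ) (b : ℕ) (Mt : ℕ → Ω → κ) (s k y : ℕ) (A : ℕ → Ω → α) (Θ : Ω → θ)
    (cA cN cJ j1 j2 x : ℝ) : Prop where
  hΘ : Fn R.Q (tdg R.C y) Θ
  hj1 : hc R.Q (R.C.cell (f s) b) (Mt (f s)) ≤ j1 + x
  hj2 : hc R.Q (Mt (f k)) (R.C.cell (f k) b) ≤ j2
  hN : ∀ j, s ≤ j → j < k → hc R.Q (Mt (f s)) (Mt (f j + 1)) ≤ cN
  hAA : ∀ j, s ≤ j → j < k → Fn R.Q (A (f j + 1)) (A (f (j + 1))) ∧ Fn R.Q (A (f (j + 1))) (A (f j + 1))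
  hA : ∀ j, s ≤ j → j < k → hc R.Q (A (f j)) (fun ω => (A (f j + 1) ω, Θ ω)) ≤ cA
  hJ : hc R.Q (A (f k)) (fun ω => (Θ ω, Mt (f k) ω)) ≤ cJ

/-- **inputs of one window of the kind kappa** along the indices `s 0, .., s r`, late record index `y` -/
structure KIn (R : Run Ω τ υ) (f : ℕ → ℕ) (b : ℕ) (Mt : ℕ → Ω → κ) (s : ℕ → ℕ) (r y : ℕ) (A : ℕ → Ω → α) (Θ : Ω → θ)
    (cA cN cJ j1 j2 x : ℝ) : Prop where
  hΘ : Fn R.Q (tdg R.C y) Θ
  hj1 : hc R.Q (R.C.cell (f (s 0)) b) (Mt (f (s 0))) ≤ j1 + x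
  hj2 : hc R.Q (Mt (f (s r))) (R.C.cell (f (s r)) b) ≤ j2
  hN : ∀ q < r, hc R.Q (Mt (f (s 0))) (Mt (f (s (q + 1)))) ≤ cN
  hA : ∀ q < r, hc R.Q (A q) (fun ω => (A (q + 1) ω, Θ ω)) ≤ cA
  hJ : hc R.Q (A r) (fun ω => (Θ ω, Mt (f (s r)) ω)) ≤ cJ

/-- a window `[i, k)` with a late index `i1`, all of whose levels up to `a k + Lk` satisfy `Pu` -/
def WAt (N : ℕ) (a : ℕ → ℕ) (Pu : ℕ → Prop) (L1 L2 Lk Kr i k : ℕ) : Prop :=
  i < k ∧ k ≤ i + L1 ∧ (∃ i1, k ≤ i1 ∧ i1 ≤ N ∧ i1 ≤ i + L2 ∧ a k + Kr + 1 ≤ a i1) ∧ ∀ z, a i ≤ z → z ≤ a k + Lk → Pu z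

/-- counted steps of the first level -/
theorem head_CS {M n : ℕ} {g : ℕ → Prop} {a r : ℕ → ℕ} {m : ℝ} (hm : 0 ≤ m) {err : ℕ → ℝ} (herr : ∀ j, 0 ≤ err j)
    (D : Sdat n g a r) {i k : ℕ} (hk : k ≤ n) (ha : ∀ j, i ≤ j → j < k → a j = a i) :
    ∑ j ∈ CS M n g a r i k, (full m a r j - err j) ≤ 3 * m * (M + 1) := by
  classical
  have h1 : ∑ j ∈ CS M n g a r i k, (full m a r j - err j) ≤ ∑ j ∈ CS M n g a r i k, 3 * m :=
    Finset.sum_le_sum fun j hj => by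
      have h2 := mem_CS.1 hj
      have h3 := H118.full_le hm D (j := j) (by omega)
      have h4 := herr j
      linarith
  refine h1.trans ?_
  rw [Finset.sum_const, nsmul_eq_mul]
  have h2 : (CS M n g a r i k).card ≤ M + 1 := by
    refine (Finset.card_le_card (t := (CS M n g a r 0 n).filter fun j => a j = a i) fun j hj => ?_).trans
      (cs_level D (a i))
    obtain ⟨⟨j1, j2⟩, j3⟩ := mem_CS.1 hj
    rw [Finset.mem_filter]
    exact ⟨mem_CS.2 ⟨⟨Nat.zero_le _, by omega⟩, j3⟩, ha j j1 j2⟩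
  have h3 : ((CS M n g a r i k).card : ℝ) ≤ M + 1 := by exact_mod_cast h2
  nlinarith

/-- the error of a pair `(j, k)` is contained in the error of the step `j` -/
theorem errO_pair {c0 c2 m A x : ℝ} (hA : 0 ≤ A) (hx : 0 ≤ x) (hm : 0 ≤ m) {L : ℕ} {coll : ℕ → ℝ} {I1 I2 : ℕ → ℕ → ℝ}
    {X : Finset ℕ} {j k : ℕ} (h1 : j < k) (h2 : k ≤ j + L) :
    c0 + c2 * m * coll j + A * (Real.sqrt (I1 j k) + Real.sqrt (I2 j k)) ≤ errO c0 c2 m A x L coll I1 I2 X j := by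
  unfold errO
  have e1 := Finset.single_le_sum (f := fun k => Real.sqrt (I1 j k) + Real.sqrt (I2 j k)) (s := Ioc j (j + L))
    (fun y _ => by positivity) (Finset.mem_Ioc.2 ⟨h1, h2⟩)
  have e2 := mul_le_mul_of_nonneg_left e1 hA
  have e3 : 0 ≤ x * m * (if j ∈ X then (1 : ℝ) else 0) := by
    split_ifs
    · positivity
    · simp
  linarith

/-- at the exceptional steps the error is `x m` at least -/
theorem errO_exc {c0 c2 m A x : ℝ} (hc0 : 0 ≤ c0) (hc2 : 0 ≤ c2) (hA : 0 ≤ A) (hm : 0 ≤ m) {L : ℕ} {coll : ℕ → ℝ}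
    (hco : ∀ j, 0 ≤ coll j) {I1 I2 : ℕ → ℕ → ℝ} {X : Finset ℕ} {j : ℕ} (h : j ∈ X) :
    x * m ≤ errO c0 c2 m A x L coll I1 I2 X j := by
  unfold errO
  rw [if_pos h]
  have e1 : 0 ≤ ∑ k ∈ Ioc j (j + L), (Real.sqrt (I1 j k) + Real.sqrt (I2 j k)) :=
    Finset.sum_nonneg fun _ _ => by positivity
  have e2 := hco j
  have e3 : 0 ≤ c2 * m * coll j := by positivity
  have e4 := mul_nonneg hA e1
  linarith

/-- **row [LP]** : the pure windows of the kind deep phi, form `h02` of `MIC.scaleOk_of` -/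
theorem rowP (h : R.Ok p K c' g' gU) (hK : 1 ≤ K) {f : ℕ → ℕ} (hf : Monotone f) {N x : ℕ} (hN : f N ≤ R.n)
    {γ : ℕ → Prop} (D : Sdat N γ (fun i => aN R (f i)) (fun i => RN R x (f i))) {lm : ℕ → ℕ}
    (hl : Lvl N (fun i => aN R (f i)) lm) {L1 L2 Lk Kr KK M : ℕ} (hKr : 0 < Kr) (hKK : Kr + 1 ≤ KK)
    (hLev : ∀ i ≤ N, R.C.Lev (f i) (R.m * x)) (Mt : ℕ → Ω → κ) {Sw : Finset ℕ} {kd : ℕ → Fin 3} {c : Fin 3}
    {mm c0 c2 A0 c1 cj cA cN cJ j1 j2 : ℝ} (hmm : 0 ≤ mm) (hmR : mm ≤ R.m) (hc0 : 0 ≤ c0) (hc2 : 0 ≤ c2) (hA0 : 0 ≤ A0)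
    (hcA : 0 ≤ cA) (hcN : 0 ≤ cN) (hcJ : 0 ≤ cJ) (hj1 : 0 ≤ j1) (hj2 : 0 ≤ j2)
    (hc1 : cA + cN ≤ c1) (hcj : cJ + cNst K + j1 + j2 + 3 * mm * (M + 1) + c1 ≤ cj) {xo coll : ℕ → ℝ}
    (hxo : ∀ j, 0 ≤ xo j) (hco : ∀ j, 0 ≤ coll j) {I1 I2 : ℕ → ℕ → ℝ} {X : Finset ℕ}
    (htr : ∀ i k, i ≤ k → k ≤ N → - c1 - ∑ j ∈ Ico i k, qc R.Q R.ry (fun j => Zw R (f j)) (tdg (R.C.re f hf)) j ≤
      psi R.Q R.ry (fun j => Zw R (f j)) (fun j => (R.C.re f hf).cell j (R.m * x)) k -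
        psi R.Q R.ry (fun j => Zw R (f j)) (fun j => (R.C.re f hf).cell j (R.m * x)) i)
    (W : ∀ s k, lm (aN R (f s)) = s → WAt N (fun i => aN R (f i)) (fun z => z ∉ Sw ∧ kd z = c) L1 L2 Lk Kr s k →
      ∃ (A : ℕ → Ω → α) (Θ : Ω → θ),
        PIn R f (R.m * x) Mt s k (f (lx N (fun i => aN R (f i)) Kr k)) A Θ cA cN cJ j1 j2 (xo s) ∧
        ∀ j ∈ CS M N γ (fun i => aN R (f i)) (fun i => RN R x (f i)) s k, j ∉ X →
          full mm (fun i => aN R (f i)) (fun i => RN R x (f i)) j -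
              (c0 + c2 * R.m * coll j + A0 * (Real.sqrt (I1 j k) + Real.sqrt (I2 j k))) ≤
            hc R.Q (A (f j + 1)) (fun ω => (A (f j) ω, (Mt (f j + 1) ω, Θ ω)))) :
    ∀ i k i1, i ≤ k → k ≤ i + L1 → k ≤ i1 → i1 ≤ N → i1 ≤ i + L2 → aN R (f k) + KK ≤ aN R (f i1) →
      RN R x (f k) + KK ≤ RN R x (f i1) → (∀ z, aN R (f i) ≤ z → z ≤ aN R (f k) + Lk → z ∉ Sw ∧ kd z = c) →
      ∑ j ∈ CS M N γ (fun i => aN R (f i)) (fun i => RN R x (f i)) i k,
          (full mm (fun i => aN R (f i)) (fun i => RN R x (f i)) j - errO c0 c2 R.m A0 3 L1 coll I1 I2 X j) -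
        c1 * ((k : ℝ) - i) - cj -
        ∑ j ∈ Ico i k, (qc R.Q R.ry (fun j => Zw R (f j)) (tdg (R.C.re f hf)) j + xo j) ≤
      psi R.Q R.ry (fun j => Zw R (f j)) (fun j => (R.C.re f hf).cell j (R.m * x)) k -
        psi R.Q R.ry (fun j => Zw R (f j)) (fun j => (R.C.re f hf).cell j (R.m * x)) i := by
  classical
  intro i k i1 hik hkL hki hin hiL hak _ hpure
  set a : ℕ → ℕ := fun i => aN R (f i) with ha
  set r : ℕ → ℕ := fun i => RN R x (f i) with hr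
  set ψ : ℕ → ℝ := psi R.Q R.ry (fun j => Zw R (f j)) (fun j => (R.C.re f hf).cell j (R.m * x)) with hψ
  set qq : ℕ → ℝ := qc R.Q R.ry (fun j => Zw R (f j)) (tdg (R.C.re f hf)) with hqq
  have hmR0 : (0 : ℝ) ≤ R.m := Nat.cast_nonneg _
  have herr : ∀ j, 0 ≤ errO c0 c2 R.m A0 3 L1 coll I1 I2 X j := fun j =>
    errO_nonneg hc0 hc2 hmR0 hA0 (by norm_num) hco j
  have hkN : k ≤ N := hki.trans hin
  have hiN : i ≤ N := hik.trans hkN
  have hcn : 0 ≤ cNst K := by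
    have e1 := H833.nst_t R.Q R.C hK (fun ω hω => h.ok ω hω) (le_refl (f i)) (hLev i hiN)
    have e2 := hc_nonneg R.Q (R.C.cell (f i) (R.m * x)) (R.C.cell (f i) (R.m * x))
    linarith
  have hc10 : 0 ≤ c1 := by linarith
  have htr' : ∀ i' k', i' ≤ k' → k' ≤ N → - c1 - ∑ j ∈ Ico i' k', (qq j + xo j) ≤ ψ k' - ψ i' := by
    intro i' k' h1 h2
    have e1 := htr i' k' h1 h2
    have e2 : 0 ≤ ∑ j ∈ Ico i' k', xo j := Finset.sum_nonneg fun j _ => hxo j
    rw [Finset.sum_add_distrib]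
    linarith
  have hki' : (0 : ℝ) ≤ (k : ℝ) - i := by
    have : (i : ℝ) ≤ k := by exact_mod_cast hik
    linarith
  have hak' : a k + Kr + 1 ≤ a i1 := by
    show aN R (f k) + Kr + 1 ≤ aN R (f i1)
    omega
  have hak0 := D.am hik hkN
  have han := D.am hin le_rfl
  have h3m : 0 ≤ 3 * mm * ((M : ℝ) + 1) := by positivity
  rcases Nat.eq_or_lt_of_le hak0 with h0 | h0
  · -- no a-step
    have e1 := head_CS (M := M) hmm herr D hkN (i := i) (k := k) (fun j q1 q2 => by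
      have f1 := D.am q1 (by omega)
      have f2 := D.am q2.le hkN
      show a j = a i
      omega)
    have e2 := htr' i k hik hkN
    have e3 : 0 ≤ c1 * ((k : ℝ) - i) := mul_nonneg hc10 hki'
    linarith
  · have ha0 := D.am (Nat.zero_le i) hiN
    have hain : a i < a N := by omega
    set s := lm (a i) with hs
    have s1 : i ≤ s := hl.le D hiN hain
    have s2 : s < k := hl.lt' D hkN ha0 hain h0
    have s3 : a s = a i := hl.eq (a i) ha0 hain
    have s4 : lm (aN R (f s)) = s := by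
      show lm (a s) = s
      rw [s3]
    obtain ⟨A, Θ, W1, W2⟩ := W s k s4 ⟨s2, by omega, ⟨i1, hki, hin, by omega, hak'⟩, fun z z1 z2 => by
      refine hpure z ?_ z2
      show a i ≤ z
      have : a s ≤ z := z1
      omega⟩
    obtain ⟨q1, q2, q3, q4⟩ := lx_spec D hin hki hKr hak'
    have e0 := cs_split (M := M) (n := N) (g := γ) (a := a) (R := r)
      (fun j => full mm a r j - errO c0 c2 R.m A0 3 L1 coll I1 I2 X j) s1 s2.le
    have e1 := head_CS (M := M) hmm herr D (i := i) (k := s) (by omega) (fun j q1 q2 => by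
      have f1 := D.am q1 (by omega)
      have f2 := D.am q2.le (by omega : s ≤ N)
      show a j = a i
      omega)
    have e2 := htr' i s s1 (by omega)
    have e3 := winP_run hf h hK hN (s2.le) hkN (hLev s (by omega)) (i' := f (lx N a Kr k)) (hf q1.le) Mt W1.hΘ A
      hcJ hj1 hj2 hxo W1.hj1 W1.hj2 W1.hN W1.hAA W1.hA W1.hJ (CS M N γ a r s k)
      (fun j hj => Finset.mem_Ico.2 (mem_CS.1 hj).1)
      (fun j => full mm a r j - errO c0 c2 R.m A0 3 L1 coll I1 I2 X j) (by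
        intro j hj
        obtain ⟨⟨j1', j2'⟩, _⟩ := mem_CS.1 hj
        by_cases hX : j ∈ X
        · refine le_trans ?_ (hc_nonneg R.Q _ _)
          have f1 := H118.full_le (m := mm) hmm D (j := j) (by omega)
          have f2 := errO_exc (x := 3) (m := (R.m : ℝ)) hc0 hc2 hA0 hmR0 (L := L1) hco (I1 := I1) (I2 := I2) hX
          have f3 : 3 * mm ≤ 3 * (R.m : ℝ) := by linarith
          linarith
        · refine le_trans ?_ (W2 j hj hX)
          have f2 := errO_pair (c0 := c0) (c2 := c2) (m := (R.m : ℝ)) (A := A0) (x := 3) hA0 (by norm_num) hmR0 (L := L1)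
            (coll := coll) (I1 := I1) (I2 := I2) (X := X) j2' (show k ≤ j + L1 by omega)
          linarith)
    have e4 : (∑ j ∈ Ico i k, (qq j + xo j)) = ∑ j ∈ Ico i s, (qq j + xo j) + ∑ j ∈ Ico s k, (qq j + xo j) :=
      ico_split (fun j => qq j + xo j) s1 s2.le
    have e5 : (cA + cN) * ((k : ℝ) - s) ≤ c1 * ((k : ℝ) - i) := by
      have f1 : (i : ℝ) ≤ s := by exact_mod_cast s1
      have f2 : (s : ℝ) ≤ k := by exact_mod_cast s2.le
      have f3 : 0 ≤ cA + cN := by positivity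
      calc (cA + cN) * ((k : ℝ) - s) ≤ (cA + cN) * ((k : ℝ) - i) := mul_le_mul_of_nonneg_left (by linarith) f3
        _ ≤ c1 * ((k : ℝ) - i) := mul_le_mul_of_nonneg_right hc1 hki'
    rw [e0, e4]
    linarith

/-- **row [LK]** : the pure windows of the kind kappa, form `h1` of `MIC.scaleOk_of` -/
theorem rowK (h : R.Ok p K c' g' gU) (hK : 1 ≤ K) {f : ℕ → ℕ} (hf : Monotone f) {N x : ℕ} (hN : f N ≤ R.n)
    {γ : ℕ → Prop} (D : Sdat N γ (fun i => aN R (f i)) (fun i => RN R x (f i))) {lm : ℕ → ℕ}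
    (hl : Lvl N (fun i => aN R (f i)) lm) {L1 L2 Lk Kr KK : ℕ} (hKr : 0 < Kr) (hKK : Kr + 1 ≤ KK)
    (hLev : ∀ i ≤ N, R.C.Lev (f i) (R.m * x)) (Mt : ℕ → Ω → κ) {Sw : Finset ℕ} {kd : ℕ → Fin 3} {c : Fin 3}
    {mm c0 c2 A0 c1 cj cA cN cJ j1 j2 : ℝ} (hmm : 0 ≤ mm) (hmR : mm ≤ R.m) (hc0 : 0 ≤ c0) (hc2 : 0 ≤ c2) (hA0 : 0 ≤ A0)
    (hcJ : 0 ≤ cJ) (hj1 : 0 ≤ j1) (hj2 : 0 ≤ j2)
    (hc1 : cA + cN ≤ c1) (hcj : cJ + cNst K + j1 + j2 ≤ cj) {xo coll : ℕ → ℝ}
    (hxo : ∀ j, 0 ≤ xo j) (hco : ∀ j, 0 ≤ coll j) {I1 I2 : ℕ → ℕ → ℝ} {X : Finset ℕ}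
    (W : ∀ i k, aN R (f i) < aN R (f k) →
      WAt N (fun i => aN R (f i)) (fun z => z ∉ Sw ∧ kd z = c) L1 L2 Lk Kr i k →
      ∃ (A : ℕ → Ω → α) (Θ : Ω → θ),
        KIn R f (R.m * x) Mt (fun z => lm (aN R (f i) + z)) (aN R (f k) - 1 - aN R (f i))
          (f (lx N (fun i => aN R (f i)) Kr k)) A Θ cA cN cJ j1 j2 (xo (lm (aN R (f i)))) ∧
        ∀ z < aN R (f k) - 1 - aN R (f i), lm (aN R (f i) + z) ∉ X →
          4 * mm - (c0 + c2 * R.m * coll (lm (aN R (f i) + z)) +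
              A0 * (Real.sqrt (I1 (lm (aN R (f i) + z)) k) + Real.sqrt (I2 (lm (aN R (f i) + z)) k))) ≤
            hc R.Q (A (z + 1)) (fun ω => (A z ω, (Mt (f (lm (aN R (f i) + (z + 1)))) ω, Θ ω)))) :
    ∀ i k i1, i ≤ k → k ≤ i + L1 → k ≤ i1 → i1 ≤ N → i1 ≤ i + L2 → aN R (f k) + KK ≤ aN R (f i1) →
      RN R x (f k) + KK ≤ RN R x (f i1) → (∀ z, aN R (f i) ≤ z → z ≤ aN R (f k) + Lk → z ∉ Sw ∧ kd z = c) →
      aN R (f i) < aN R (f k) →
      ∑ z ∈ range (aN R (f k) - 1 - aN R (f i)),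
          (4 * mm - errO c0 c2 R.m A0 4 L1 coll I1 I2 X (lm (aN R (f i) + z))) -
        c1 * ((aN R (f k) - 1 - aN R (f i) : ℕ) : ℝ) - cj -
        ∑ j ∈ Ico (lm (aN R (f i))) (lm (aN R (f k) - 1)),
          (qc R.Q R.ry (fun j => Zw R (f j)) (tdg (R.C.re f hf)) j + xo j) ≤
      psi R.Q R.ry (fun j => Zw R (f j)) (fun j => (R.C.re f hf).cell j (R.m * x)) (lm (aN R (f k) - 1)) -
        psi R.Q R.ry (fun j => Zw R (f j)) (fun j => (R.C.re f hf).cell j (R.m * x)) (lm (aN R (f i))) := by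
  classical
  intro i k i1 hik hkL hki hin hiL hak _ hpure hlt
  set a : ℕ → ℕ := fun i => aN R (f i) with ha
  set r : ℕ → ℕ := fun i => RN R x (f i) with hr
  have hmR0 : (0 : ℝ) ≤ R.m := Nat.cast_nonneg _
  have hkN : k ≤ N := hki.trans hin
  have hiN : i ≤ N := hik.trans hkN
  have hak' : a k + Kr + 1 ≤ a i1 := by
    show aN R (f k) + Kr + 1 ≤ aN R (f i1)
    omega
  have h0 : a i < a k := hlt
  have han := D.am hin le_rfl
  have ha0 := D.am (Nat.zero_le i) hiN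
  have hik' : i < k := by
    rcases Nat.eq_or_lt_of_le hik with e | e
    · rw [e] at h0
      exact absurd h0 (lt_irrefl _)
    · exact e
  obtain ⟨A, Θ, W1, W2⟩ := W i k hlt ⟨hik', hkL, ⟨i1, hki, hin, hiL, hak'⟩, hpure⟩
  obtain ⟨q1, q2, q3, q4⟩ := lx_spec D hin hki hKr hak'
  have hlk : lm (a k - 1) < k := hl.lt' D hkN (by omega) (by omega) (by omega)
  have hli : i ≤ lm (a i) := hl.le D hiN (by omega)
  set rr := a k - 1 - a i with hrr
  have e0 : a i + rr = a k - 1 := by omega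
  have hmono : ∀ z z', z < z' → z' ≤ rr → lm (a i + z) < lm (a i + z') := fun z z' h1 h2 =>
    hl.mono D (by omega) (by omega) (by omega)
  have e3 := winK_run hf h hK hN (s := fun z => lm (a i + z)) (r := rr) (b := R.m * x) (i' := f (lx N a Kr k))
    (by
      show lm (a i + 0) ≤ lm (a i + rr)
      rcases Nat.eq_zero_or_pos rr with e | e
      · rw [e]
      · exact (hmono 0 rr e le_rfl).le)
    (by
      rcases Nat.eq_zero_or_pos rr with e | e
      · exact Or.inl e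
      · exact Or.inr (hmono 0 rr e le_rfl))
    (by
      show lm (a i + rr) ≤ N
      rw [e0]
      omega)
    (by
      show R.C.Lev (f (lm (a i + 0))) (R.m * x)
      refine hLev _ ?_
      rw [Nat.add_zero]
      have := hl.lt (a i) ha0 (by omega)
      omega)
    (by
      show f (lm (a i + rr)) ≤ f (lx N a Kr k)
      rw [e0]
      exact hf (by omega))
    (fun q => Mt (f (lm (a i + q)))) W1.hΘ A hcJ hj1 hj2 hxo
    (by simpa using W1.hj1) W1.hj2 (by simpa using W1.hN) W1.hA W1.hJ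
    (fun z => 4 * mm - errO c0 c2 R.m A0 4 L1 coll I1 I2 X (lm (a i + z)))
    (by
      intro z hz
      have hjk : lm (a i + z) < k := by
        have := hl.lt' (lm := lm) D (j := k) (z := a i + z) hkN (by omega) (by omega) (by omega)
        exact this
      have hij : i ≤ lm (a i + z) := by
        rcases Nat.eq_zero_or_pos z with e | e
        · rw [e, Nat.add_zero]
          exact hli
        · have := hmono 0 z e hz.le
          rw [Nat.add_zero] at this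
          omega
      by_cases hX : lm (a i + z) ∈ X
      · refine le_trans ?_ (hc_nonneg R.Q _ _)
        have f2 := errO_exc (x := 4) (m := (R.m : ℝ)) hc0 hc2 hA0 hmR0 (L := L1) hco (I1 := I1) (I2 := I2) hX
        have f3 : 4 * mm ≤ 4 * (R.m : ℝ) := by linarith
        linarith
      · refine le_trans ?_ (W2 z hz hX)
        have f2 := errO_pair (c0 := c0) (c2 := c2) (m := (R.m : ℝ)) (A := A0) (x := 4) hA0 (by norm_num) hmR0 (L := L1)
          (coll := coll) (I1 := I1) (I2 := I2) (X := X) hjk (show k ≤ lm (a i + z) + L1 by omega)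
        show 4 * mm - errO c0 c2 R.m A0 4 L1 coll I1 I2 X (lm (a i + z)) ≤ _
        have f4 : c0 + c2 * R.m * coll (lm (aN R (f i) + z)) +
              A0 * (Real.sqrt (I1 (lm (aN R (f i) + z)) k) + Real.sqrt (I2 (lm (aN R (f i) + z)) k)) ≤
            errO c0 c2 R.m A0 4 L1 coll I1 I2 X (lm (a i + z)) := f2
        linarith)
  simp only [Nat.add_zero] at e3
  rw [e0] at e3
  have e5 : (cA + cN) * ((rr : ℕ) : ℝ) ≤ c1 * ((rr : ℕ) : ℝ) := mul_le_mul_of_nonneg_right hc1 (Nat.cast_nonneg _)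
  show ∑ z ∈ range rr, (4 * mm - errO c0 c2 R.m A0 4 L1 coll I1 I2 X (lm (a i + z))) - c1 * ((rr : ℕ) : ℝ) - cj -
      ∑ j ∈ Ico (lm (a i)) (lm (a k - 1)), (qc R.Q R.ry (fun j => Zw R (f j)) (tdg (R.C.re f hf)) j + xo j) ≤ _
  linarith

end

end Vale.Agent.P106.U.H495
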