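import Vale.Agent.P106.U.H611.Props2

/-!
# P106 / U / H495 : the shared dichotomy `PDich d` (Case A or slab), exact statement (helper495, form of helper931)

Used by END7 with `d = 3` and by C1 with `d = 2`.

* `Zhd` the end (`= Sy.Zh`, `= Env.Zh`), `DhOk` the data, `DfOk` the functional (mixture, lower bound, activity), for any ray `l`
  of which `(X, Q)` is a function and any side variable `A` which is a function of `(l, t_a0)`.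
* `PDich d` : either **(A)** a conditioned law `P'` of small defect under which the end is saturated,
  `I((X, Q); Zh | A, t_a0) ≥ d (h - a0) - small`, or **(B)** the velocity is in a slab of thickness `2^-s`, `s ≥ σ H`, with covector
  and offset functions of a letter `G` which is a function of `(Zh, A, Q)` and nearly a function of `(Zh, A)`.
* `Ψ` : any second functional `≥ 0` which does not increase in mean under conditioning (entropy of a letter given another one):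
  `Ψ P' ≤ Ψ P / κ`.
-/

set_option autoImplicit false

namespace Vale.Agent.P106.U.EndA

open Finset Vale.Agent.P127 Vale.Agent.P127.Stk Vale.Agent.P127.U.CellD Vale.Agent.P127.U.Mic

/-- the end: time and position at the rounded time, to `h` digits -/
noncomputable def Zhd {d : ℕ} {Ω : Type} (X Q : Ω → Fin d → ℝ) (t : Ω → ℝ) (h : ℕ) (ω : Ω) : ℤ × (Fin d → ℤ) :=
  (fl1 h (t ω), fun k => fl1 h (X ω k + rd h (t ω) * Q ω k))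

/-- the data of the dichotomy -/
structure DhOk {d : ℕ} {Ω : Type} [Fintype Ω] {α ξ : Type} (P : Law Ω) (X Q : Ω → Fin d → ℝ) (t : Ω → ℝ)
    (A : Ω → α) (l : Ω → ξ) (a0 : ℕ) : Prop where
  Q1 : ∀ ω, 0 < P.w ω → ∀ k, |Q ω k| ≤ 1
  t0 : ∀ ω, 0 < P.w ω → 0 ≤ t ω
  t1 : ∀ ω, 0 < P.w ω → t ω ≤ 1
  ray : Fn P (fun ω => (X ω, Q ω)) l
  side : Fn P A (fun ω => (l ω, fl1 a0 (t ω)))

/-- the functional: mixture inequality, lower bound, activity (`Env.Ax` without `lab`) -/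
structure DfOk {Ω : Type} [Fintype Ω] {ξ : Type} (P0 : Law Ω) (l : Ω → ξ) (t : Ω → ℝ) (H : ℕ)
    (cN ct c1 Ka ν : ℝ) (df : Law Ω → ℝ) : Prop where
  mix : ∀ (P : Law Ω), (∀ ω, 0 < P.w ω → 0 < P0.w ω) → ∀ (ε : Type) (e : Ω → ε),
    ∑ z ∈ img e, P.pr e z * df (P.cond e z) ≤ df P + cN * Stk.hc P e (fun _ => ()) + ν
  low : ∀ (P : Law Ω), (∀ ω, 0 < P.w ω → 0 < P0.w ω) → -ν ≤ df P
  act : ∀ (P : Law Ω), (∀ ω, 0 < P.w ω → 0 < P0.w ω) → ∀ (m a0 n : ℕ), 1 ≤ m → a0 + m * n ≤ H →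
    ∑ i ∈ range n, prE P (fun ω => (2 : ℝ) ^ (-(ct * m)) <
      cq P (fun ω => fl1 (a0 + m * (i + 1)) (t ω)) (fun ω => (l ω, fl1 (a0 + m * i) (t ω)))
        (fl1 (a0 + m * (i + 1)) (t ω)) (l ω, fl1 (a0 + m * i) (t ω))) ≤
      (df P + ν + Ka * n) / (c1 * m)

/-- a second functional, `≥ 0`, not increased in mean by conditioning -/
structure PsOk {Ω : Type} [Fintype Ω] (P0 : Law Ω) (Ψ : Law Ω → ℝ) : Prop where
  nn : ∀ (P : Law Ω), (∀ ω, 0 < P.w ω → 0 < P0.w ω) → 0 ≤ Ψ P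
  mix : ∀ (P : Law Ω), (∀ ω, 0 < P.w ω → 0 < P0.w ω) → ∀ (ε : Type) (e : Ω → ε),
    ∑ z ∈ img e, P.pr e z * Ψ (P.cond e z) ≤ Ψ P

/-- **[DICH]** -/
def PDich (d : ℕ) : Prop := ∀ (cN ct c1 τ : ℝ), 0 ≤ cN → 0 < ct → 0 < c1 → 0 < τ →
  ∃ σ : ℝ, 0 < σ ∧ ∀ ρ : ℝ, 0 < ρ → ∃ κ : ℝ, 0 < κ ∧ ∃ η : ℝ, 0 < η ∧ ∀ Ka : ℝ, 0 ≤ Ka → ∃ h0 : ℕ,
  ∀ {Ω : Type} [Fintype Ω] {α ξ : Type} (P0 P : Law Ω) (X Q : Ω → Fin d → ℝ) (t : Ω → ℝ) (A : Ω → α)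
    (l : Ω → ξ) (df Ψ : Law Ω → ℝ) (ν : ℝ) (H a0 h : ℕ),
    (∀ ω, 0 < P.w ω → 0 < P0.w ω) → DhOk P X Q t A l a0 → DfOk P0 l t H cN ct c1 Ka ν df → PsOk P0 Ψ →
    h0 ≤ H → τ * H ≤ a0 → a0 ≤ h → h ≤ H → df P ≤ η * H → ν ≤ η * H →
    (∃ P' : Law Ω, (∀ ω, 0 < P'.w ω → 0 < P.w ω) ∧ df P' ≤ τ * H ∧ Ψ P' ≤ Ψ P / κ ∧
      d * ((h : ℝ) - a0) * Real.log 2 - τ * H ≤
        Stk.mi P' (fun ω => (X ω, Q ω)) (Zhd X Q t h) (fun ω => (A ω, fl1 a0 (t ω)))) ∨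
    (∃ (G : Ω → Sta d) (π : Sta d → Fin d → ℝ) (o : Sta d → ℝ) (s : ℕ), σ * H ≤ s ∧ s ≤ τ * H ∧
      Stk.Fn P G (fun ω => ((Zhd X Q t h ω, A ω), Q ω)) ∧
      Stk.hc P G (fun ω => (Zhd X Q t h ω, A ω)) ≤ ρ * H ∧ Stk.hc P G Q ≤ τ * H ∧
      ∀ ω, 0 < P.w ω → (∀ k, |π (G ω) k| ≤ 1) ∧ (∃ k, |π (G ω) k| = 1) ∧
        |∑ k, π (G ω) k * Q ω k - o (G ω)| ≤ (1 / 2 : ℝ) ^ s)

end Vale.Agent.P106.U.EndA
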