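import Vale.Agent.P106.U.H495.DichMain
import Vale.Agent.P106.U.H420.CoreFin

/-!
# P106 / U / H495 : `PDich d`, unconditional (helper495; `PCore d` : helper420, helper611, helper996)
-/

set_option autoImplicit false

namespace Vale.Agent.P106.U.H495

open Vale.Agent.P106.U.EndA

/-- **[DICH]** -/
theorem pdich (d : ℕ) (hd : 1 ≤ d) : PDich d := pdich_of d hd (H420.pCore d)

end Vale.Agent.P106.U.H495
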