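import Vale.Agent.P106.U.H495.CaseA

/-!
# P106 / U / H495 : real estimates for the dichotomy (helper495)
-/

set_option autoImplicit false

namespace Vale.Agent.P106.U.H495

open Finset

/-- the block size -/
theorem exists_m (C1 m0 : ℕ) (hC : 1 ≤ C1) : ∃ h0 : ℕ, 1 ≤ h0 ∧ ∀ H : ℕ, h0 ≤ H →
    ∃ m, m0 ≤ m ∧ 2 ^ (8 * C1 * m) ≤ H ∧ H < 2 ^ (8 * C1 * (m + 1)) := by
  refine ⟨2 ^ (8 * C1 * m0), Nat.one_le_two_pow, fun H hH => ?_⟩
  have hH0 : H ≠ 0 := by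
    have : 0 < 2 ^ (8 * C1 * m0) := by positivity
    omega
  have hc : 0 < 8 * C1 := by omega
  refine ⟨Nat.log 2 H / (8 * C1), ?_, ?_, ?_⟩
  · rw [Nat.le_div_iff_mul_le hc, mul_comm]
    exact (Nat.le_log_iff_pow_le (by norm_num) hH0).2 hH
  · refine le_trans (Nat.pow_le_pow_right (by norm_num) ?_) (Nat.pow_log_le_self 2 hH0)
    exact Nat.mul_div_le _ _
  · refine lt_of_lt_of_le (Nat.lt_pow_succ_log_self (by norm_num) H)
      (Nat.pow_le_pow_right (by norm_num) ?_)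
    have := Nat.lt_mul_div_succ (Nat.log 2 H) hc
    omega

/-- first square root -/
theorem sqrt_one {x y H n M p Cp τ m : ℝ} (hx : 1 ≤ x) (hy : 0 ≤ y) (hyH : y ^ 2 = H) (hxy : x ^ 4 ≤ y)
    (hn0 : 0 ≤ n) (hn : n ≤ H) (hM : 1 ≤ M) (hp0 : 0 ≤ p) (hp : p ≤ Cp * m) (hmx : m ≤ x) (hCp : 0 ≤ Cp)
    (hτ : 0 < τ) (hX : 16 * Cp * M / τ ≤ x) : x * Real.sqrt (n * (M * p * p)) ≤ τ / 16 * H := by
  have hx0 : 0 < x := by linarith
  have hpx : p ≤ Cp * x := hp.trans (mul_le_mul_of_nonneg_left hmx hCp)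
  have h1 : Real.sqrt (n * (M * p * p)) ≤ M * (Cp * x) * y := by
    rw [Real.sqrt_le_iff]
    refine ⟨by positivity, ?_⟩
    have hH0 : 0 ≤ H := by rw [← hyH]; positivity
    calc n * (M * p * p) ≤ H * (M * (Cp * x) * (Cp * x)) := by gcongr
      _ ≤ H * (M * (Cp * x) * (Cp * x)) * M := le_mul_of_one_le_right (by positivity) hM
      _ = (M * (Cp * x) * y) ^ 2 := by rw [← hyH]; ring
  have h2 : 16 * Cp * M ≤ x * τ := (div_le_iff₀ hτ).1 hX
  have h3 : x ^ 3 ≤ y := by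
    refine le_trans ?_ hxy
    exact pow_le_pow_right₀ hx (by norm_num)
  calc x * Real.sqrt (n * (M * p * p)) ≤ x * (M * (Cp * x) * y) := by gcongr
    _ = (16 * Cp * M) * (x ^ 2 * y) / 16 := by ring
    _ ≤ (x * τ) * (x ^ 2 * y) / 16 := by gcongr
    _ = τ / 16 * (x ^ 3 * y) := by ring
    _ ≤ τ / 16 * (y * y) := by gcongr
    _ = τ / 16 * H := by rw [← hyH]; ring

/-- second square root -/
theorem sqrt_two {x y H n M p Cp τ m θ s b : ℝ} (hx : 1 ≤ x) (hy : 0 ≤ y) (hyH : y ^ 2 = H)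
    (hxy : x ^ 4 ≤ y) (hn0 : 0 ≤ n) (hnm : n * m ≤ H) (hM : 1 ≤ M) (hp0 : 0 ≤ p) (hp : p ≤ Cp * m)
    (hm : 0 < m) (hCp : 0 ≤ Cp) (hτ : 0 < τ) (hθ : 0 < θ) (hs : 0 < s)
    (hb : θ * s * H / (8 * m) ≤ b)
    (hX : 16 * (1 + 8 * M * Cp / (θ * s)) / τ ≤ x) : x * (n * Real.sqrt (M * p / b)) ≤ τ / 16 * H := by
  have hx0 : 0 < x := by linarith
  have hy0 : 0 < y := lt_of_lt_of_le (by positivity) hxy
  have hH0 : 0 < H := by rw [← hyH]; positivity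
  have hb0 : 0 < b := lt_of_lt_of_le (by positivity) hb
  set B := 8 * M * Cp / (θ * s) with hB
  have hB0 : 0 ≤ B := by positivity
  have h1 : Real.sqrt (M * p / b) ≤ (1 + B) * m / y := by
    rw [Real.sqrt_le_iff]
    refine ⟨by positivity, ?_⟩
    rw [div_le_iff₀ hb0]
    have e1 : M * p ≤ M * (Cp * m) := by gcongr
    have e2 : M * (Cp * m) = (B * m ^ 2 / H) * (θ * s * H / (8 * m)) := by
      rw [hB]
      field_simp
    have e3 : B * m ^ 2 / H ≤ ((1 + B) * m / y) ^ 2 := by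
      rw [div_pow, hyH, mul_pow]
      gcongr
      nlinarith
    calc M * p ≤ (B * m ^ 2 / H) * (θ * s * H / (8 * m)) := e1.trans (le_of_eq e2)
      _ ≤ ((1 + B) * m / y) ^ 2 * b := by gcongr
  have h2 : 16 * (1 + B) ≤ x * τ := (div_le_iff₀ hτ).1 hX
  have h3 : x ^ 2 ≤ y := le_trans (pow_le_pow_right₀ hx (by norm_num)) hxy
  calc x * (n * Real.sqrt (M * p / b)) ≤ x * (n * ((1 + B) * m / y)) := by gcongr
    _ = x * (1 + B) * (n * m) / y := by ring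
    _ ≤ x * (1 + B) * H / y := by gcongr
    _ = x * (16 * (1 + B)) * y / 16 := by
        rw [← hyH]
        field_simp
    _ ≤ x * (x * τ) * y / 16 := by gcongr
    _ = τ / 16 * (x ^ 2 * y) := by ring
    _ ≤ τ / 16 * (y * y) := by gcongr
    _ = τ / 16 * H := by rw [← hyH]; ring

/-- the thickness of the slab -/
theorem slab_exp {d m J : ℕ} (hd : 1 ≤ d) (hmJ : d * d ≤ m * J) :
    (d : ℝ) * (2 : ℝ) ^ (-((m * J : ℕ) : ℝ) / d) ≤ (1 / 2 : ℝ) ^ (m * J / d - d) := by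
  have hdR : (0 : ℝ) < d := by exact_mod_cast hd
  have hle : d ≤ m * J / d := by
    rw [Nat.le_div_iff_mul_le hd]
    exact hmJ
  have h1 : (2 : ℝ) ^ (-((m * J : ℕ) : ℝ) / d) ≤ (2 : ℝ) ^ (-((m * J / d : ℕ) : ℝ)) := by
    refine Real.rpow_le_rpow_of_exponent_le (by norm_num) ?_
    rw [neg_div, neg_le_neg_iff]
    exact Nat.cast_div_le
  have h2 : (d : ℝ) ≤ 2 ^ d := by exact_mod_cast Nat.lt_two_pow_self.le
  calc (d : ℝ) * (2 : ℝ) ^ (-((m * J : ℕ) : ℝ) / d) ≤ 2 ^ d * (2 : ℝ) ^ (-((m * J / d : ℕ) : ℝ)) := by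
        gcongr
    _ = (1 / 2 : ℝ) ^ (m * J / d - d) := by
        rw [Real.rpow_neg (by norm_num), Real.rpow_natCast, one_div, inv_pow]
        have e : m * J / d = (m * J / d - d) + d := by omega
        conv_lhs => rw [e, pow_add]
        field_simp

end Vale.Agent.P106.U.H495
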