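import Vale.Agent.P106.U.H495.Word
import Mathlib.LinearAlgebra.Matrix.AbsoluteValue

/-!
# P106 / U / H495 : determinants of the frames of a word, slabs, entropy of the state (helper495)

* `det_fr` : `det (fr (w J ω)) = 2 ^ (m * #(non isotropic steps) + d * p * #(isotropic steps))`.
* `exists_entry` : an entry of maximal size, `|det| ≤ d! * |A i l| ^ d`.
* `exists_slab` : the velocity is in a slab of a normalised covector which is a function of the state.
* `hc_word` : entropy of the state given the side information.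
-/

set_option autoImplicit false

namespace Vale.Agent.P106.U.H495

open Finset Vale.Agent.P127 Vale.Agent.P127.Stk Vale.Agent.P106.U.EndA

variable {d : ℕ}

theorem det_upd_none (m p : ℕ) (A : Fr d) :
    (Matrix.of (upd m p A none)).det = 2 ^ (d * p) * (Matrix.of A).det := by
  have h : Matrix.of (upd m p A none) = (2 ^ p : ℝ) • Matrix.of A := by
    ext i l
    simp [upd]
  rw [h, Matrix.det_smul, Fintype.card_fin, ← pow_mul, mul_comm p d]

theorem det_upd_some (m p : ℕ) (A : Fr d) (k : Fin d) (q : Fin d → ℤ) :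
    (Matrix.of (upd m p A (some (k, q)))).det = 2 ^ m * (Matrix.of A).det := by
  have h : Matrix.of (upd m p A (some (k, q))) =
      (Matrix.of A).updateRow k (∑ i, (2 ^ m * cv m k q i) • (Matrix.of A) i) := by
    ext i l
    by_cases hik : i = k
    · subst hik
      rw [Matrix.updateRow_self, Finset.sum_apply]
      simp only [upd, Matrix.of_apply, Function.update_self, Pi.smul_apply, smul_eq_mul]
      rw [Finset.mul_sum]
      exact Finset.sum_congr rfl fun j _ => by ring
    · rw [Matrix.updateRow_ne hik]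
      simp only [upd, Matrix.of_apply, Function.update_of_ne hik]
  rw [h, Matrix.det_updateRow_sum]
  have : cv m k q k = 1 := by simp [cv]
  rw [this, mul_one, smul_eq_mul]

section word

variable {Ω : Type} {m p : ℕ} {Q : Ω → Fin d → ℝ} {w : ℕ → Ω → Sta d}

open Classical in
/-- number of isotropic steps -/
noncomputable def nis (w : ℕ → Ω → Sta d) (J : ℕ) (ω : Ω) : ℕ := ((range J).filter fun j => iso w j ω).card

open Classical in
/-- number of the other steps -/
noncomputable def nni (w : ℕ → Ω → Sta d) (J : ℕ) (ω : Ω) : ℕ :=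
  ((range J).filter fun j => ¬ iso w j ω).card

theorem nis_add_nni (w : ℕ → Ω → Sta d) (J : ℕ) (ω : Ω) : nis w J ω + nni w J ω = J := by
  classical
  unfold nis nni
  rw [Finset.card_filter_add_card_filter_not, card_range]

theorem nis_succ (w : ℕ → Ω → Sta d) (J : ℕ) (ω : Ω) :
    (iso w J ω → nis w (J + 1) ω = nis w J ω + 1) ∧ (¬ iso w J ω → nis w (J + 1) ω = nis w J ω) := by
  classical
  unfold nis
  rw [Finset.range_add_one, Finset.filter_insert]
  constructor
  · intro h
    rw [if_pos h, Finset.card_insert_of_notMem (by simp)]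
  · intro h
    rw [if_neg h]

theorem nni_succ (w : ℕ → Ω → Sta d) (J : ℕ) (ω : Ω) :
    (iso w J ω → nni w (J + 1) ω = nni w J ω) ∧ (¬ iso w J ω → nni w (J + 1) ω = nni w J ω + 1) := by
  classical
  unfold nni
  rw [Finset.range_add_one, Finset.filter_insert]
  constructor
  · intro h
    rw [if_neg (by simpa using h)]
  · intro h
    rw [if_pos h, Finset.card_insert_of_notMem (by simp)]

theorem fr_succ (hw : IsWd m p Q w) (j : ℕ) (ω : Ω) :
    (iso w j ω → fr m p (w (j + 1) ω) = upd m p (fr m p (w j ω)) none) ∧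
    (¬ iso w j ω → ∃ k q, okc m q ∧
      fr m p (w (j + 1) ω) = upd m p (fr m p (w j ω)) (some (k, q))) := by
  obtain ⟨c, hok, e⟩ := hw.succ j ω
  have hi : iso w j ω ↔ c = none := by
    unfold iso
    rw [e]
    simp
  constructor
  · intro h
    rw [e, ← hi.1 h]
    rfl
  · intro h
    rcases c with _ | ⟨k, q⟩
    · exact absurd (hi.2 rfl) h
    · exact ⟨k, q, hok k q rfl, by rw [e]; rfl⟩

/-- **the determinant of the frame** -/
theorem det_fr (hw : IsWd m p Q w) (J : ℕ) (ω : Ω) :
    (Matrix.of (fr m p (w J ω))).det = 2 ^ (m * nni w J ω + d * p * nis w J ω) := by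
  induction J with
  | zero =>
    have h1 : nis w 0 ω = 0 := by simp [nis]
    have h2 : nni w 0 ω = 0 := by simp [nni]
    rw [h1, h2, hw.zero ω]
    have h3 : Matrix.of (fr m p ([] : Sta d)) = 1 := by
      ext i l
      simp only [fr, fr1, Matrix.of_apply, Matrix.one_apply]
    rw [h3, Matrix.det_one]
    simp
  | succ J ih =>
    by_cases h : iso w J ω
    · rw [(fr_succ hw J ω).1 h, det_upd_none, ih, (nis_succ w J ω).1 h, (nni_succ w J ω).1 h,
        ← pow_add]
      congr 1
      ring
    · obtain ⟨k, q, _, e⟩ := (fr_succ hw J ω).2 h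
      rw [e, det_upd_some, ih, (nis_succ w J ω).2 h, (nni_succ w J ω).2 h, ← pow_add]
      congr 1
      ring

/-- lower bound -/
theorem det_fr_ge (hw : IsWd m p Q w) (hmp : m ≤ d * p) (J : ℕ) (ω : Ω) :
    (2 : ℝ) ^ (m * J) ≤ (Matrix.of (fr m p (w J ω))).det := by
  rw [det_fr hw]
  refine pow_le_pow_right₀ (by norm_num) ?_
  have := nis_add_nni w J ω
  calc m * J = m * nni w J ω + m * nis w J ω := by rw [← mul_add, add_comm, this]
    _ ≤ m * nni w J ω + d * p * nis w J ω := by gcongr

end word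

/-- an entry of maximal size -/
theorem exists_entry (hd : 0 < d) (A : Fr d) :
    ∃ i l, |(Matrix.of A).det| ≤ d.factorial * |A i l| ^ d ∧ ∀ i' l', |A i' l'| ≤ |A i l| := by
  have : Nonempty (Fin d) := ⟨⟨0, hd⟩⟩
  obtain ⟨⟨i, l⟩, _, h⟩ := Finset.exists_max_image (univ : Finset (Fin d × Fin d))
    (fun x => |A x.1 x.2|) Finset.univ_nonempty
  refine ⟨i, l, ?_, fun i' l' => h (i', l') (mem_univ _)⟩
  have h1 := Matrix.det_le (A := Matrix.of A) (abv := AbsoluteValue.abs) (x := |A i l|)
    (fun i' l' => h (i', l') (mem_univ _))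
  rw [Fintype.card_fin, nsmul_eq_mul] at h1
  exact h1

/-- the normalised covector and the position of the slab of a state -/
theorem exists_slab {m p : ℕ} (hd : 0 < d) (s : Sta d) {x : Fin d → ℝ}
    {D : ℝ} (hD : 0 < D) (hdet : D ^ d * d.factorial ≤ |(Matrix.of (fr m p s)).det|) :
    ∃ (π : Fin d → ℝ) (i : Fin d) (a : ℝ), (∀ l, |π l| ≤ 1) ∧ (∃ l, π l = 1) ∧ D ≤ |a| ∧
      (∀ l, fr m p s i l = a * π l) ∧
      |∑ l, π l * x l - ((dg (fr m p s) x i : ℤ) : ℝ) / a| ≤ 1 / D := by
  obtain ⟨i, l, h1, h2⟩ := exists_entry hd (fr m p s)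
  set a := fr m p s i l with ha
  have hf : (0 : ℝ) < d.factorial := by exact_mod_cast Nat.factorial_pos d
  have h3 : D ^ d ≤ |a| ^ d := by
    have : D ^ d * d.factorial ≤ |a| ^ d * d.factorial := by
      rw [mul_comm (|a| ^ d)]
      exact hdet.trans h1
    exact le_of_mul_le_mul_right this hf
  have h4 : D ≤ |a| := le_of_pow_le_pow_left₀ hd.ne' (abs_nonneg _) h3
  have ha0 : a ≠ 0 := by
    intro h0
    rw [h0, abs_zero] at h4
    linarith
  refine ⟨fun l' => fr m p s i l' / a, i, a, ?_, ⟨l, div_self ha0⟩, h4, ?_, ?_⟩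
  · intro l'
    rw [abs_div, div_le_one (abs_pos.2 ha0)]
    exact h2 i l'
  · intro l'
    field_simp
  · have e : ∑ l', fr m p s i l' / a * x l' = ap (fr m p s) x i / a := by
      unfold ap
      rw [Finset.sum_div]
      exact Finset.sum_congr rfl fun l' _ => by ring
    rw [e, ← sub_div, abs_div]
    unfold dg
    have b1 := Int.floor_le (ap (fr m p s) x i)
    have b2 := Int.lt_floor_add_one (ap (fr m p s) x i)
    have b3 : |ap (fr m p s) x i - (⌊ap (fr m p s) x i⌋ : ℝ)| ≤ 1 := by
      rw [abs_le]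
      constructor <;> linarith
    calc _ ≤ 1 / |a| := div_le_div_of_nonneg_right b3 (abs_nonneg _)
      _ ≤ 1 / D := one_div_le_one_div_of_le hD h4

/-- **entropy of the state** -/
theorem hc_word {Ω : Type} [Fintype Ω] {ζ : Type} (P : Law Ω) (Z : Ω → ζ) {m p : ℕ}
    {Q : Ω → Fin d → ℝ} {w : ℕ → Ω → Sta d} (hw : IsWd m p Q w) (a b : ℝ)
    (h : ∀ j, hc P (w (j + 1)) (fun ω => (Z ω, w j ω)) ≤ a + b * prE P (iso w j)) (J : ℕ) :
    hc P (w J) Z ≤ J * a + b * ∑ j ∈ range J, prE P (iso w j) := by
  induction J with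
  | zero =>
    have : hc P (w 0) Z = 0 := by
      refine Stk.hc_zero P ?_
      intro ω ω' _ _ _
      rw [hw.zero, hw.zero]
    rw [this]
    simp
  | succ J ih =>
    have h1 := Stk.hc_le_add' P (w (J + 1)) (w J) Z
    have h2 : hc P (w (J + 1)) (fun ω => (w J ω, Z ω)) = hc P (w (J + 1)) (fun ω => (Z ω, w J ω)) := by
      refine Stk.hc_congr P ?_ ?_ ?_ ?_
      · intro ω ω' _ _ e
        exact congrArg Prod.fst e
      · intro ω ω' _ _ e
        exact congrArg Prod.fst e
      · intro ω ω' _ _ e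
        simp only [Prod.mk.injEq] at e ⊢
        exact ⟨e.2, e.1⟩
      · intro ω ω' _ _ e
        simp only [Prod.mk.injEq] at e ⊢
        exact ⟨e.2, e.1⟩
    rw [h2] at h1
    have h3 := h J
    rw [Finset.sum_range_succ, mul_add]
    push_cast
    linarith

end Vale.Agent.P106.U.H495
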