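import Vale.Agent.P127.Stk.LibDom

/-!
# P106 / U / H495 : greedy lists of heavy tests (helper495)

`greedy` : for an event `E` and a family of tests there is a list of at most `1 / thr` admissible tests such
that off the listed tests every admissible test has mass at most `thr * P(E)`.
-/

set_option autoImplicit false

namespace Vale.Agent.P106.U.H495

open Finset Vale.Agent.P127 Vale.Agent.P127.Stk

variable {Ω : Type} [Fintype Ω]

theorem prE_mono (P : Law Ω) {E F : Ω → Prop} (h : ∀ ω, E ω → F ω) : prE P E ≤ prE P F := by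
  classical
  unfold prE
  refine Finset.sum_le_sum_of_subset_of_nonneg ?_ fun ω _ _ => P.nn ω
  intro ω hω
  simp only [mem_filter, mem_univ, true_and] at hω ⊢
  exact h ω hω

theorem prE_congr (P : Law Ω) {E F : Ω → Prop} (h : ∀ ω, E ω ↔ F ω) : prE P E = prE P F :=
  le_antisymm (prE_mono P fun ω => (h ω).1) (prE_mono P fun ω => (h ω).2)

theorem prE_split (P : Law Ω) (E F : Ω → Prop) :
    prE P E = prE P (fun ω => E ω ∧ F ω) + prE P (fun ω => E ω ∧ ¬ F ω) := by
  classical
  unfold prE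
  rw [Finset.sum_filter, Finset.sum_filter, Finset.sum_filter, ← Finset.sum_add_distrib]
  refine Finset.sum_congr rfl fun ω _ => ?_
  by_cases hE : E ω
  · by_cases hF : F ω
    · simp [hE, hF]
    · simp [hE, hF]
  · simp [hE]

/-- greedy list -/
theorem greedy {β : Type*} (P : Law Ω) (E : Ω → Prop) (hit : β → Ω → Prop) (ok : β → Prop)
    {thr : ℝ} (ht : 0 < thr) :
    ∃ L : List β, (∀ b ∈ L, ok b) ∧ (L.length : ℝ) ≤ 1 / thr ∧
      ∀ b, ok b → prE P (fun ω => E ω ∧ (∀ b' ∈ L, ¬ hit b' ω) ∧ hit b ω) ≤ thr * prE P E := by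
  classical
  rcases (prE_nonneg P E).eq_or_lt with h0 | h0
  · refine ⟨[], by simp, by simp; positivity, fun b _ => ?_⟩
    rw [← h0, mul_zero]
    exact (prE_mono P fun ω h => h.1).trans h0.ge
  by_contra hcon
  push Not at hcon
  have key : ∀ n : ℕ, ∃ L : List β, L.length = n ∧ (∀ b ∈ L, ok b) ∧
      prE P (fun ω => E ω ∧ ∀ b' ∈ L, ¬ hit b' ω) ≤ (1 - n * thr) * prE P E := by
    intro n
    induction n with
    | zero =>
      refine ⟨[], rfl, by simp, ?_⟩
      simp only [Nat.cast_zero, zero_mul, sub_zero, one_mul]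
      exact prE_mono P fun ω h => h.1
    | succ n ih =>
      obtain ⟨L, hL, hok, hm⟩ := ih
      have h1 : 0 ≤ (1 - n * thr) * prE P E := (prE_nonneg _ _).trans hm
      have h2 : (n : ℝ) * thr ≤ 1 := by
        by_contra h3
        rw [not_le] at h3
        have : (1 - n * thr) * prE P E < 0 := mul_neg_of_neg_of_pos (by linarith) h0
        linarith
      have h3 : (L.length : ℝ) ≤ 1 / thr := by
        rw [hL, le_div_iff₀ ht]
        exact h2
      obtain ⟨b, hb, hb2⟩ := hcon L hok h3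
      refine ⟨b :: L, by simp [hL], ?_, ?_⟩
      · intro b' hb'
        rcases List.mem_cons.1 hb' with rfl | h
        · exact hb
        · exact hok b' h
      · have h4 := prE_split P (fun ω => E ω ∧ ∀ b' ∈ L, ¬ hit b' ω) (fun ω => hit b ω)
        have h5 : prE P (fun ω => (E ω ∧ ∀ b' ∈ L, ¬ hit b' ω) ∧ hit b ω) =
            prE P (fun ω => E ω ∧ (∀ b' ∈ L, ¬ hit b' ω) ∧ hit b ω) :=
          prE_congr P fun ω => by tauto
        have h6 : prE P (fun ω => (E ω ∧ ∀ b' ∈ L, ¬ hit b' ω) ∧ ¬ hit b ω) =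
            prE P (fun ω => E ω ∧ ∀ b' ∈ b :: L, ¬ hit b' ω) :=
          prE_congr P fun ω => by
            simp only [List.mem_cons, forall_eq_or_imp]
            tauto
        rw [h5, h6] at h4
        push_cast
        have h7 : (1 - (n + 1) * thr) * prE P E = (1 - n * thr) * prE P E - thr * prE P E := by
          ring
        rw [h7]
        linarith
  obtain ⟨L, hL, _, hm⟩ := key (⌊1 / thr⌋₊ + 1)
  have h1 : 0 ≤ (1 - ((⌊1 / thr⌋₊ + 1 : ℕ) : ℝ) * thr) * prE P E := (prE_nonneg _ _).trans hm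
  have h2 : 1 / thr < ((⌊1 / thr⌋₊ + 1 : ℕ) : ℝ) := by
    push_cast
    exact Nat.lt_floor_add_one _
  rw [div_lt_iff₀ ht] at h2
  have : (1 - ((⌊1 / thr⌋₊ + 1 : ℕ) : ℝ) * thr) * prE P E < 0 :=
    mul_neg_of_neg_of_pos (by linarith) h0
  linarith

end Vale.Agent.P106.U.H495
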