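import Vale.Agent.P106.U.H611.Props
import Vale.Agent.P127.U.H824.YPat
import Vale.Agent.P106.U.H495.Greedy

/-!
# P106 / U / H495 : `[GOOD]` levels of the word under a dominated law (helper495)

* `ev_le` : an event which has small conditional probability under `P` has small probability under `Q'`,
  up to the conditional relative entropy.
* `good` : most isotropic levels of the word have no heavy slab under `Q' ≤ P / p0`.
-/

set_option autoImplicit false

namespace Vale.Agent.P106.U.H495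

open Finset Vale.Agent.P127 Vale.Agent.P127.Stk Vale.Agent.P106.U.EndA

section ev

open Vale.Agent.P127.U.YPat Vale.Agent.P127.U.Nonat

variable {Ω : Type} [Fintype Ω] {T : Type*} {Q P : Law Ω}

theorem low_le (Q : Law Ω) (Y : Ω → Prop) (C : Ω → T) {ε : ℝ} (hε : 0 ≤ ε) :
    prE Q (fun ω => Y ω ∧ cp Q Y C ω < ε) ≤ ε := by
  classical
  have h1 : prE Q (fun ω => Y ω ∧ cp Q Y C ω < ε) = ∑ c ∈ img C,
      ∑ ω ∈ (univ.filter fun ω => Y ω ∧ cp Q Y C ω < ε).filter (fun ω => C ω = c), Q.w ω := by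
    unfold prE
    convert (Finset.sum_fiberwise_of_maps_to (s := univ.filter fun ω => Y ω ∧ cp Q Y C ω < ε)
      (g := C) (t := img C) (fun ω _ => mem_img.2 ⟨ω, rfl⟩) Q.w).symm
  rw [h1]
  have h2 : ∀ c ∈ img C,
      ∑ ω ∈ (univ.filter fun ω => Y ω ∧ cp Q Y C ω < ε).filter (fun ω => C ω = c), Q.w ω ≤
        ε * Q.pr C c := by
    intro c _
    rcases (Q.pr_nonneg C c).eq_or_lt with h0 | h0
    · rw [← h0, mul_zero]
      refine le_trans ?_ h0.ge
      unfold Law.pr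
      refine Finset.sum_le_sum_of_subset_of_nonneg ?_ fun ω _ _ => Q.nn ω
      intro ω hω
      simp only [mem_filter, mem_univ, true_and] at hω ⊢
      exact hω.2
    · by_cases he : ∃ ω, (Y ω ∧ cp Q Y C ω < ε) ∧ C ω = c
      · obtain ⟨ω₀, ⟨hY, hcp⟩, hC⟩ := he
        unfold cp at hcp
        rw [hC, div_lt_iff₀ h0] at hcp
        refine le_trans ?_ hcp.le
        unfold Law.pr
        refine Finset.sum_le_sum_of_subset_of_nonneg ?_ fun ω _ _ => Q.nn ω
        intro ω hω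
        simp only [mem_filter, mem_univ, true_and, Prod.mk.injEq] at hω ⊢
        exact ⟨by simp [hω.1.1, hY], hω.2⟩
      · have : (univ.filter fun ω => Y ω ∧ cp Q Y C ω < ε).filter (fun ω => C ω = c) = ∅ := by
          ext ω
          simp only [mem_filter, mem_univ, true_and, Finset.notMem_empty, iff_false]
          exact fun h => he ⟨ω, h⟩
        rw [this, Finset.sum_empty]
        exact mul_nonneg hε h0.le
  refine (Finset.sum_le_sum h2).trans ?_
  rw [← Finset.mul_sum, Q.sum_pr_image, mul_one]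

/-- an event of small conditional probability -/
theorem ev_le (hQP : ∀ ω, 0 < Q.w ω → 0 < P.w ω) (Y : Ω → Prop) (C : Ω → T) {thr ε : ℝ}
    (ht : 0 < thr) (hε : thr < ε) (h : ∀ ω, 0 < Q.w ω → Y ω → cp P Y C ω ≤ thr) :
    prE Q Y ≤ ε + (kap Q P Y C + 1) / Real.log (ε / thr) := by
  classical
  have hL : 0 < Real.log (ε / thr) := Real.log_pos (by rwa [one_lt_div ht])
  have hε0 : 0 < ε := ht.trans hε
  have h1 := ex_ratio Q P Y C
  have key : ∀ ω, 0 < Q.w ω →
      Real.log (ε / thr) * Law.ind (Y ω ∧ ε ≤ cp Q Y C ω) ≤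
      (Real.log (cp Q Y C ω) - Real.log (cp P Y C ω)) + cp P Y C ω / cp Q Y C ω := by
    intro ω hω
    set q := cp Q Y C ω with hq
    set g := cp P Y C ω with hg
    have a : 0 < g := cp_pos (P := P) Y C (hQP ω hω)
    have b : 0 < q := cp_pos (P := Q) Y C hω
    have h3 := Real.log_le_sub_one_of_pos (div_pos a b)
    rw [Real.log_div a.ne' b.ne'] at h3
    have hr : 0 ≤ g / q := (div_pos a b).le
    unfold Law.ind
    split_ifs with h4
    · have hgt : g ≤ thr := h ω hω h4.1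
      have h5 : Real.log (ε / thr) ≤ Real.log q - Real.log g := by
        rw [Real.log_div hε0.ne' ht.ne']
        have := Real.log_le_log hε0 h4.2
        have := Real.log_le_log a hgt
        linarith
      linarith
    · linarith
  have h2 := Q.ex_mono key
  rw [Q.ex_const_mul, Q.ex_add] at h2
  have h3 : Q.ex (fun ω => Law.ind (Y ω ∧ ε ≤ cp Q Y C ω)) =
      prE Q (fun ω => Y ω ∧ ε ≤ cp Q Y C ω) := by
    unfold Law.ex prE
    rw [Finset.sum_filter]
    refine Finset.sum_congr rfl fun ω _ => ?_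
    unfold Law.ind
    by_cases hh : Y ω ∧ ε ≤ cp Q Y C ω <;> simp [hh]
  rw [h3] at h2
  have h4 : prE Q (fun ω => Y ω ∧ ε ≤ cp Q Y C ω) ≤ (kap Q P Y C + 1) / Real.log (ε / thr) := by
    rw [le_div_iff₀ hL, mul_comm]
    unfold kap
    linarith
  have h5 := low_le Q Y C hε0.le
  have h6 := prE_split Q Y (fun ω => ε ≤ cp Q Y C ω)
  have h7 : prE Q (fun ω => Y ω ∧ ¬ ε ≤ cp Q Y C ω) = prE Q (fun ω => Y ω ∧ cp Q Y C ω < ε) :=
    prE_congr Q fun ω => by rw [not_le]
  linarith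

end ev

variable {d : ℕ}

/-- the new coordinate computed from the digits of an isotropic step -/
noncomputable def ncd (m p : ℕ) (k : Fin d) (q : Fin d → ℤ) (D : Fin d → ℤ) : ℝ :=
  2 ^ m * ∑ i, cv m k q i * ((D i : ℝ) / 2 ^ p)

theorem abs_cv_le {m : ℕ} {k : Fin d} {q : Fin d → ℤ} (h : okc m q) (i : Fin d) :
    |cv m k q i| ≤ 1 := by
  unfold cv
  split_ifs with h1
  · simp
  · rw [abs_div, abs_of_pos (by positivity : (0 : ℝ) < 2 ^ m), div_le_one (by positivity)]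
    have := h i
    exact_mod_cast this

theorem ap_smul (A : Fr d) (x : Fin d → ℝ) (p : ℕ) (i : Fin d) :
    ap (fun i l => 2 ^ p * A i l) x i = 2 ^ p * ap A x i := by
  unfold ap
  rw [Finset.mul_sum]
  exact Finset.sum_congr rfl fun l _ => by ring

/-- the digits determine the new coordinate up to `1` -/
theorem ncd_close {m p : ℕ} (hp : m + d ≤ p) {k : Fin d} {q : Fin d → ℤ} (h : okc m q) (A : Fr d)
    (x : Fin d → ℝ) :
    |nc m A k q x - ncd m p k q (dg (upd m p A none) x)| ≤ 1 := by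
  have hp2 : (0 : ℝ) < 2 ^ p := by positivity
  have h1 : nc m A k q x - ncd m p k q (dg (upd m p A none) x) =
      2 ^ m * ∑ i, cv m k q i * (ap A x i - ((dg (upd m p A none) x i : ℤ) : ℝ) / 2 ^ p) := by
    unfold nc ncd
    rw [← mul_sub, ← Finset.sum_sub_distrib]
    congr 1
    exact Finset.sum_congr rfl fun i _ => by ring
  rw [h1, abs_mul, abs_of_pos (by positivity : (0 : ℝ) < 2 ^ m)]
  have h2 : |∑ i, cv m k q i * (ap A x i - ((dg (upd m p A none) x i : ℤ) : ℝ) / 2 ^ p)| ≤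
      ∑ _i : Fin d, 1 / 2 ^ p := by
    refine (Finset.abs_sum_le_sum_abs _ _).trans (Finset.sum_le_sum fun i _ => ?_)
    rw [abs_mul]
    have h3 : |ap A x i - ((dg (upd m p A none) x i : ℤ) : ℝ) / 2 ^ p| ≤ 1 / 2 ^ p := by
      have h4 : dg (upd m p A none) x i = ⌊2 ^ p * ap A x i⌋ := by
        unfold dg upd
        rw [ap_smul]
      rw [h4]
      have h5 := Int.floor_le (2 ^ p * ap A x i)
      have h6 := Int.lt_floor_add_one (2 ^ p * ap A x i)
      have h7 : ap A x i - ((⌊2 ^ p * ap A x i⌋ : ℤ) : ℝ) / 2 ^ p =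
          (2 ^ p * ap A x i - ((⌊2 ^ p * ap A x i⌋ : ℤ) : ℝ)) / 2 ^ p := by
        field_simp
      rw [h7, abs_div, abs_of_pos hp2]
      refine div_le_div_of_nonneg_right ?_ hp2.le
      rw [abs_le]
      constructor <;> linarith
    calc _ ≤ 1 * (1 / 2 ^ p) := mul_le_mul (abs_cv_le h i) h3 (abs_nonneg _) (by norm_num)
      _ = _ := one_mul _
  have h3 : (d : ℝ) ≤ 2 ^ d := by exact_mod_cast Nat.lt_two_pow_self.le
  have h4 : (2 : ℝ) ^ m * 2 ^ d ≤ 2 ^ p := by
    rw [← pow_add]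
    exact pow_le_pow_right₀ (by norm_num) hp
  calc _ ≤ 2 ^ m * ∑ _i : Fin d, 1 / (2 : ℝ) ^ p := mul_le_mul_of_nonneg_left h2 (by positivity)
    _ = (2 ^ m * d) / 2 ^ p := by
      rw [Finset.sum_const, Finset.card_univ, Fintype.card_fin, nsmul_eq_mul]
      ring
    _ ≤ (2 ^ m * 2 ^ d) / 2 ^ p := by gcongr
    _ ≤ 1 := by rw [div_le_one hp2]; exact h4

variable {Ω : Type} [Fintype Ω] {ζ : Type}

/-- the fat slab is a function of the digits -/
def fat (m p : ℕ) (π : Fin d × (Fin d → ℤ) × ℤ) (s : Sta d) : Prop :=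
  ∃ D s', s = (none, D) :: s' ∧ (π.2.2 : ℝ) - 1 ≤ ncd m p π.1 π.2.1 D ∧
    ncd m p π.1 π.2.1 D ≤ π.2.2 + 2

omit [Fintype Ω] in
theorem iso_iff {m p : ℕ} {Q : Ω → Fin d → ℝ} {w : ℕ → Ω → Sta d} (hw : IsWd m p Q w) {j : ℕ}
    {ω : Ω} (h : iso w j ω) :
    w (j + 1) ω = (none, dg (upd m p (fr m p (w j ω)) none) (Q ω)) :: w j ω := by
  obtain ⟨c, _, hc⟩ := hw.succ j ω
  unfold iso at h
  rw [hc] at h
  simp only [List.head?_cons, Option.map_some, Option.some.injEq] at h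
  rw [hc, h]

theorem sl_fat {m p : ℕ} (hp : m + d ≤ p) {A : Fr d} {x : Fin d → ℝ}
    {π : Fin d × (Fin d → ℤ) × ℤ} (h : okc m π.2.1) (hs : sl m A x π) (s' : Sta d) :
    fat m p π ((none, dg (upd m p A none) x) :: s') := by
  have h1 := abs_le.1 (ncd_close hp (k := π.1) h A x)
  unfold sl at hs
  have h2 := Int.floor_le (nc m A π.1 π.2.1 x)
  have h3 := Int.lt_floor_add_one (nc m A π.1 π.2.1 x)
  rw [hs] at h2 h3
  exact ⟨_, _, rfl, by linarith [h1.2], by linarith [h1.1]⟩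

theorem fat_sl {m p : ℕ} (hp : m + d ≤ p) {A : Fr d} {x : Fin d → ℝ}
    {π : Fin d × (Fin d → ℤ) × ℤ} (h : okc m π.2.1) {s' : Sta d}
    (hs : fat m p π ((none, dg (upd m p A none) x) :: s')) :
    ∃ e ∈ Finset.Icc (-2 : ℤ) 3, sl m A x (π.1, π.2.1, π.2.2 + e) := by
  obtain ⟨D, s'', e1, e2, e3⟩ := hs
  simp only [List.cons.injEq, Prod.mk.injEq, true_and] at e1
  rw [← e1.1] at e2 e3
  have h1 := abs_le.1 (ncd_close hp (k := π.1) h A x)
  refine ⟨⌊nc m A π.1 π.2.1 x⌋ - π.2.2, ?_, ?_⟩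
  · have h2 := Int.floor_le (nc m A π.1 π.2.1 x)
    have h3 := Int.lt_floor_add_one (nc m A π.1 π.2.1 x)
    rw [Finset.mem_Icc]
    constructor
    · have : ((π.2.2 - 3 : ℤ) : ℝ) < ⌊nc m A π.1 π.2.1 x⌋ := by
        push_cast
        linarith [h1.1]
      have := Int.cast_lt.1 this
      omega
    · have : ((⌊nc m A π.1 π.2.1 x⌋ : ℤ) : ℝ) ≤ ((π.2.2 + 3 : ℤ) : ℝ) := by
        push_cast
        linarith [h1.2]
      have := Int.cast_le.1 this
      omega
  · unfold sl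
    simp

theorem prE_le_sum (P : Law Ω) {β : Type*} (s : Finset β) (E : Ω → Prop) (F : β → Ω → Prop)
    (h : ∀ ω, E ω → ∃ e ∈ s, F e ω) : prE P E ≤ ∑ e ∈ s, prE P (F e) := by
  classical
  unfold prE
  simp only [Finset.sum_filter]
  rw [Finset.sum_comm]
  refine Finset.sum_le_sum fun ω _ => ?_
  split_ifs with hE
  · obtain ⟨e, he, hF⟩ := h ω hE
    refine le_trans (le_of_eq ?_)
      (Finset.single_le_sum (f := fun e => if F e ω then P.w ω else 0) (fun e _ => ?_) he)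
    · simp [hF]
    · split_ifs
      · exact P.nn ω
      · exact le_rfl
  · exact Finset.sum_nonneg fun e _ => by
      split_ifs
      · exact P.nn ω
      · exact le_rfl

open Vale.Agent.P127.U.YPat Vale.Agent.P127.U.Nonat in
/-- **[GOOD]** -/
theorem good (P Q' : Law Ω) (p0 : ℝ) (Z : Ω → ζ)
    (Q : Ω → Fin d → ℝ) (m p : ℕ) (w : ℕ → Ω → Sta d) (thr ε : ℝ) (K : Finset ℕ) (hp : m + d ≤ p)
    (hp0 : 0 < p0) (hd : ∀ ω, p0 * Q'.w ω ≤ P.w ω) (hw : IsWd m p Q w) (hv : Hvy P Z Q m p w thr)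
    (ht : 0 < thr) (hε : 6 * thr < ε) (hK : ∀ j ∈ K, ∀ ω, 0 < Q'.w ω → iso w j ω) :
    ∃ G ⊆ K, (∀ j ∈ G, PlB Q' m (fun ω => fr m p (w j ω)) Q (fun ω => (Z ω, w j ω)) (2 * ε)) ∧
      ((K.card : ℝ) - G.card) * (ε * Real.log (ε / (6 * thr)) - 1) ≤ Real.log (1 / p0) := by
  classical
  have hQP : ∀ ω, 0 < Q'.w ω → 0 < P.w ω := fun ω h => (mul_pos hp0 h).trans_le (hd ω)
  set G := K.filter fun j => PlB Q' m (fun ω => fr m p (w j ω)) Q (fun ω => (Z ω, w j ω)) (2 * ε)
    with hG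
  set N := K.filter fun j => ¬ PlB Q' m (fun ω => fr m p (w j ω)) Q (fun ω => (Z ω, w j ω)) (2 * ε)
    with hN
  refine ⟨G, Finset.filter_subset _ _, fun j hj => (Finset.mem_filter.1 hj).2, ?_⟩
  have hcard : (N.card : ℝ) = (K.card : ℝ) - G.card := by
    have : G.card + N.card = K.card := Finset.card_filter_add_card_filter_not _
    have : ((G.card + N.card : ℕ) : ℝ) = K.card := by exact_mod_cast this
    push_cast at this
    linarith
  have hbad : ∀ j ∈ N, ∃ π : (ζ × Sta d) → Fin d × (Fin d → ℤ) × ℤ, (∀ z, okc m (π z).2.1) ∧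
      2 * ε < prE Q' (fun ω => sl m (fr m p (w j ω)) (Q ω) (π (Z ω, w j ω))) := by
    intro j hj
    have := (Finset.mem_filter.1 hj).2
    unfold PlB at this
    push Not at this
    exact this
  set F : ℕ → Ω → ζ × Sta d := fun j ω => (Z ω, w j ω) with hFdef
  set Y : ℕ → Ω → Prop := fun j ω =>
    ∃ h : j ∈ N, fat m p ((hbad j h).choose (Z ω, w j ω)) (w (j + 1) ω) with hY
  have hF : ∀ k, ∀ ω ω', F (k + 1) ω = F (k + 1) ω' → F k ω = F k ω' ∧ Y k ω = Y k ω' := by
    intro k ω ω' e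
    simp only [hFdef, Prod.mk.injEq] at e
    obtain ⟨eZ, ew⟩ := e
    obtain ⟨c, _, h1⟩ := hw.succ k ω
    obtain ⟨c', _, h2⟩ := hw.succ k ω'
    have ew' := ew
    rw [h1, h2] at ew'
    have ek : w k ω = w k ω' := (List.cons.inj ew').2
    refine ⟨by simp only [hFdef, eZ, ek], ?_⟩
    simp only [hY, eZ, ek, ew]
  -- small conditional probabilities
  have hcp : ∀ j ∈ N, ∀ ω, 0 < Q'.w ω → Y j ω → cp P (Y j) (F j) ω ≤ 6 * thr := by
    intro j hj ω hω hYω
    have hPω := hQP ω hω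
    have hok := (hbad j hj).choose_spec.1
    set π := (hbad j hj).choose (Z ω, w j ω) with hπ
    unfold cp
    rw [div_le_iff₀ (P.pr_pos (F j) hPω)]
    have h1 : P.pr (fun ω => (Y j ω, F j ω)) (Y j ω, F j ω) ≤
        ∑ e ∈ Finset.Icc (-2 : ℤ) 3, prE P (fun ω' => Z ω' = Z ω ∧ w j ω' = w j ω ∧ iso w j ω' ∧
          sl m (fr m p (w j ω)) (Q ω') (π.1, π.2.1, π.2.2 + e)) := by
      have h2 : P.pr (fun ω => (Y j ω, F j ω)) (Y j ω, F j ω) =
          prE P (fun ω' => Y j ω' ∧ Z ω' = Z ω ∧ w j ω' = w j ω) := by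
        unfold Law.pr prE
        refine Finset.sum_congr ?_ fun _ _ => rfl
        ext ω'
        simp only [mem_filter, mem_univ, true_and, Prod.mk.injEq, hFdef]
        constructor
        · rintro ⟨a, b, c⟩
          exact ⟨by rw [a]; exact hYω, b, c⟩
        · rintro ⟨a, b, c⟩
          exact ⟨propext ⟨fun _ => hYω, fun _ => a⟩, b, c⟩
      rw [h2]
      refine prE_le_sum P _ _ _ ?_
      rintro ω' ⟨⟨hj', hfat⟩, eZ, ew⟩
      obtain ⟨D, s', hs, h3, h4⟩ := hfat
      have hiso : iso w j ω' := by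
        unfold iso
        rw [hs]
        rfl
      have h5 := iso_iff hw hiso
      have h6 : fat m p ((hbad j hj).choose (Z ω', w j ω')) (w (j + 1) ω') := ⟨D, s', hs, h3, h4⟩
      rw [h5] at h6
      obtain ⟨e, he, hsl⟩ := fat_sl hp (hok _) h6
      refine ⟨e, he, eZ, ew, hiso, ?_⟩
      rw [eZ, ew] at hsl
      exact hsl
    refine h1.trans ?_
    have h7 : P.pr (F j) (F j ω) = prE P (fun ω' => Z ω' = Z ω ∧ w j ω' = w j ω) := by
      unfold Law.pr prE
      refine Finset.sum_congr ?_ fun _ _ => rfl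
      ext ω'
      simp only [mem_filter, mem_univ, true_and, Prod.mk.injEq, hFdef]
    rw [h7]
    calc _ ≤ ∑ _e ∈ Finset.Icc (-2 : ℤ) 3, thr * prE P (fun ω' => Z ω' = Z ω ∧ w j ω' = w j ω) :=
          Finset.sum_le_sum fun e _ => hv j ω hPω (π.1, π.2.1, π.2.2 + e) (hok _)
      _ = _ := by
          rw [Finset.sum_const, show (Finset.Icc (-2 : ℤ) 3).card = 6 from rfl, nsmul_eq_mul]
          push_cast
          ring
  have hL : 0 < Real.log (ε / (6 * thr)) :=
    Real.log_pos (by rwa [one_lt_div (by positivity)])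
  -- the bad levels
  have hone : ∀ j ∈ N, ε * Real.log (ε / (6 * thr)) ≤ kap Q' P (Y j) (F j) + 1 := by
    intro j hj
    have h1 := ev_le hQP (Y j) (F j) (by positivity) hε (hcp j hj)
    have h2 : prE Q' (fun ω => sl m (fr m p (w j ω)) (Q ω) ((hbad j hj).choose (Z ω, w j ω))) ≤
        prE Q' (Y j) := by
      refine prE_mono_set Q' fun ω hω hs => ?_
      have hiso := hK j (Finset.mem_filter.1 hj).1 ω hω
      refine ⟨hj, ?_⟩
      rw [iso_iff hw hiso]
      exact sl_fat hp ((hbad j hj).choose_spec.1 _) hs _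
    have h3 := (hbad j hj).choose_spec.2
    have h4 : ε < (kap Q' P (Y j) (F j) + 1) / Real.log (ε / (6 * thr)) := by linarith
    rw [lt_div_iff₀ hL] at h4
    exact h4.le
  obtain ⟨B, hB⟩ : ∃ B, ∀ j ∈ N, j < B := ⟨N.sup id + 1, fun j hj =>
    Nat.lt_succ_of_le (Finset.le_sup (f := id) hj)⟩
  have h1 := sum_kap_le (Q := Q') (P := P) hp0 hd Y F B (fun k _ ω ω' _ _ e => hF k ω ω' e)
  have h2 : ∑ k ∈ N, kap Q' P (Y k) (F k) ≤ ∑ k ∈ range B, kap Q' P (Y k) (F k) :=
    Finset.sum_le_sum_of_subset_of_nonneg (fun j hj => Finset.mem_range.2 (hB j hj))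
      fun k _ _ => kap_nonneg hQP _ _
  have h3 : ∑ _k ∈ N, ε * Real.log (ε / (6 * thr)) ≤ ∑ k ∈ N, (kap Q' P (Y k) (F k) + 1) :=
    Finset.sum_le_sum hone
  rw [Finset.sum_const, nsmul_eq_mul, Finset.sum_add_distrib, Finset.sum_const, nsmul_eq_mul,
    mul_one] at h3
  rw [← hcard]
  linarith

end Vale.Agent.P106.U.H495
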