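import Vale.Agent.P106.U.H611.Props2
import Vale.Agent.P106.U.H495.Good
import Vale.Agent.P106.U.H495.Dich

/-!
# P106 / U / H495 : the literal Props `PGood`, `PDet`, `PCov`, `PWsum` (helper495)
-/

set_option autoImplicit false

namespace Vale.Agent.P106.U.H495

open Finset Vale.Agent.P127 Vale.Agent.P127.Stk Vale.Agent.P106.U.EndA

variable {d : ℕ}

/-- **[GOOD]** -/
theorem pgood (d : ℕ) : PGood d := by
  intro Ω _ ζ P Q' p0 Z Q m p w thr ε K h1 h2 h3 h4 h5 h6 h7 h8
  exact good P Q' p0 Z Q m p w thr ε K h1 h2 h3 h4 h5 h6 h7 h8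

/-- **[DET]** -/
theorem pdet (d : ℕ) : PDet d := by
  intro Ω Q m p w hw hmp hd j ω
  exact (det_fr_ge hw (hmp.trans (Nat.le_mul_of_pos_left p hd)) j ω).trans (le_abs_self _)

/-- **[WSUM]** -/
theorem pwsum (d : ℕ) : PWsum d := by
  intro Ω _ ζ P Z Q m p w a b hw h J
  exact hc_word P Z hw a b h J

/-- the slab of a row, for all vectors -/
theorem row_slab {A : Fr d} {π : Fin d → ℝ} {i : Fin d} {a D : ℝ} (hD : 0 < D) (h : D ≤ |a|)
    (hA : ∀ l, A i l = a * π l) (x : Fin d → ℝ) :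
    |∑ l, π l * x l - ((dg A x i : ℤ) : ℝ) / a| ≤ 1 / D := by
  have ha0 : a ≠ 0 := by
    intro h0
    rw [h0, abs_zero] at h
    linarith
  have e : ∑ l', π l' * x l' = ap A x i / a := by
    unfold ap
    rw [Finset.sum_div]
    refine Finset.sum_congr rfl fun l' _ => ?_
    rw [hA]
    field_simp
  rw [e, ← sub_div, abs_div]
  unfold dg
  have b1 := Int.floor_le (ap A x i)
  have b2 := Int.lt_floor_add_one (ap A x i)
  have b3 : |ap A x i - (⌊ap A x i⌋ : ℝ)| ≤ 1 := by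
    rw [abs_le]
    constructor <;> linarith
  calc _ ≤ 1 / |a| := div_le_div_of_nonneg_right b3 (abs_nonneg _)
    _ ≤ 1 / D := one_div_le_one_div_of_le hD h

/-- **[COV]** -/
theorem pcov (d : ℕ) : PCov d := by
  classical
  intro m p J hmp hd
  have hd0 : 0 < d := hd
  set L : ℝ := (2 : ℝ) ^ (((m * J : ℕ) : ℝ) / d) with hL
  have hLpos : 0 < L := Real.rpow_pos_of_pos (by norm_num) _
  have hdR : (0 : ℝ) < d := by exact_mod_cast hd0
  have hLd : L ^ d = 2 ^ (m * J) := by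
    rw [hL, ← Real.rpow_natCast, ← Real.rpow_mul (by norm_num), div_mul_cancel₀ _ hdR.ne',
      Real.rpow_natCast]
  have hLinv : (2 : ℝ) ^ (-((m * J : ℕ) : ℝ) / d) = 1 / L := by
    rw [hL, neg_div, Real.rpow_neg (by norm_num), one_div]
  set D : ℝ := L / d with hD
  have hDpos : 0 < D := div_pos hLpos hdR
  have hfac : (d.factorial : ℝ) ≤ (d : ℝ) ^ d := by
    exact_mod_cast Nat.factorial_le_pow d
  have hDd : D ^ d * d.factorial ≤ 2 ^ (m * J) := by
    rw [hD, div_pow, hLd, div_mul_eq_mul_div, div_le_iff₀ (by positivity)]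
    exact mul_le_mul_of_nonneg_left hfac (by positivity)
  have key : ∀ s : Sta d, ∃ π : (Fin d → ℝ) × ℝ, ((∀ l, |π.1 l| ≤ 1) ∧ ∃ l, |π.1 l| = 1) ∧
      ∀ x : Fin d → ℝ, (∀ l, |x l| ≤ 1) →
        ((s = [] ∧ J = 0) ∨ ((2 : ℝ) ^ (m * J) ≤ |(Matrix.of (fr m p s)).det| ∧
          ∃ c : Cd d, ∃ s' : Sta d, s = (c, dg (fr m p s) x) :: s')) →
        |∑ l, π.1 l * x l - π.2| ≤ 1 / D := by
    intro s
    rcases s with _ | ⟨⟨c, δ⟩, s'⟩
    · refine ⟨(fun l => if l = ⟨0, hd0⟩ then 1 else 0, 0), ⟨?_, ⟨0, hd0⟩, by simp⟩, ?_⟩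
      · intro l
        show |(if l = ⟨0, hd0⟩ then (1 : ℝ) else 0)| ≤ 1
        split_ifs <;> simp
      · intro x hx h
        rcases h with ⟨_, hJ⟩ | ⟨_, c, s', e⟩
        · have e1 : ∑ l, (if l = ⟨0, hd0⟩ then (1 : ℝ) else 0) * x l = x ⟨0, hd0⟩ := by
            simp
          show |∑ l, (if l = ⟨0, hd0⟩ then (1 : ℝ) else 0) * x l - 0| ≤ 1 / D
          rw [e1, sub_zero]
          refine (hx _).trans ?_
          have hL1 : L = 1 := by rw [hL, hJ]; simp
          rw [hD, hL1, one_div_div, div_one]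
          exact_mod_cast hd
        · exact absurd e (by simp)
    · by_cases hdet : (2 : ℝ) ^ (m * J) ≤ |(Matrix.of (fr m p ((c, δ) :: s'))).det|
      · obtain ⟨π, i, a, h1, h2, h3, h4, _⟩ := exists_slab (m := m) (p := p) hd0
          ((c, δ) :: s') (x := fun _ => 0) hDpos (hDd.trans hdet)
        refine ⟨(π, (δ i : ℝ) / a), ⟨h1, ?_⟩, ?_⟩
        · obtain ⟨l, hl⟩ := h2
          exact ⟨l, by show |π l| = 1; rw [hl, abs_one]⟩
        · intro x _ h
          rcases h with ⟨e, _⟩ | ⟨_, c', s'', e⟩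
          · exact absurd e (by simp)
          · have e2 : δ = dg (fr m p ((c, δ) :: s')) x := by
              have := (List.cons.inj e).1
              exact congrArg Prod.snd this
            have := row_slab hDpos h3 h4 x
            rw [← e2] at this
            exact this
      · refine ⟨(fun l => if l = ⟨0, hd0⟩ then 1 else 0, 0), ⟨?_, ⟨0, hd0⟩, by simp⟩, ?_⟩
        · intro l
          show |(if l = ⟨0, hd0⟩ then (1 : ℝ) else 0)| ≤ 1
          split_ifs <;> simp
        · intro x _ h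
          rcases h with ⟨e, _⟩ | ⟨h, _⟩
          · exact absurd e (by simp)
          · exact absurd h hdet
  choose π h1 h2 using key
  refine ⟨π, h1, ?_⟩
  intro Ω Q w hw ω hQ
  have h3 := h2 (w J ω) (Q ω) hQ ?_
  · refine h3.trans (le_of_eq ?_)
    rw [hLinv, hD, one_div_div, mul_one_div]
  · rcases Nat.eq_zero_or_pos J with h0 | h0
    · left
      exact ⟨by rw [h0]; exact hw.zero ω, h0⟩
    · right
      refine ⟨(det_fr_ge hw (hmp.trans (Nat.le_mul_of_pos_left p hd)) J ω).trans (le_abs_self _), ?_⟩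
      obtain ⟨j, rfl⟩ : ∃ j, J = j + 1 := ⟨J - 1, by omega⟩
      obtain ⟨c, _, e⟩ := hw.succ j ω
      refine ⟨c, w j ω, ?_⟩
      have e2 : fr m p (w (j + 1) ω) = upd m p (fr m p (w j ω)) c := by
        rw [e]; rfl
      rw [e2]
      exact e

end Vale.Agent.P106.U.H495
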