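import Vale.Agent.P106.U.H611.Props
import Vale.Agent.P106.U.H495.Greedy

/-!
# P106 / U / H495 : `[WORD]` existence of the word (helper495)

`word : PWord d` with the constant `d * log 3`.
-/

set_option autoImplicit false

namespace Vale.Agent.P106.U.H495

open Finset Vale.Agent.P127 Vale.Agent.P127.Stk Vale.Agent.P106.U.EndA

variable {d : ℕ}

/-- possible integer parts of the coordinates of the velocity in the frame of a state -/
noncomputable def bs (s : Sta d) (i : Fin d) : Finset ℤ :=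
  match s with
  | [] => Finset.Icc (-1) 1
  | (_, δ) :: _ => {δ i}

theorem bs_card_le (s : Sta d) (i : Fin d) : (bs s i).card ≤ 3 := by
  unfold bs
  split
  · decide
  · simp

theorem ap_fr1 (x : Fin d → ℝ) (i : Fin d) : ap (fr1 : Fr d) x i = x i := by
  unfold ap fr1
  simp

theorem ap_upd_none (m p : ℕ) (A : Fr d) (x : Fin d → ℝ) (i : Fin d) :
    ap (upd m p A none) x i = 2 ^ p * ap A x i := by
  unfold ap upd
  rw [Finset.mul_sum]
  exact Finset.sum_congr rfl fun l _ => by ring

theorem ap_upd_self (m p : ℕ) (A : Fr d) (k : Fin d) (q : Fin d → ℤ) (x : Fin d → ℝ) :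
    ap (upd m p A (some (k, q))) x k = nc m A k q x := by
  unfold ap upd nc ap
  simp only [Function.update_self]
  simp only [Finset.mul_sum, Finset.sum_mul]
  rw [Finset.sum_comm]
  exact Finset.sum_congr rfl fun i _ => Finset.sum_congr rfl fun l _ => by ring

theorem ap_upd_ne (m p : ℕ) (A : Fr d) {k i : Fin d} (h : i ≠ k) (q : Fin d → ℤ) (x : Fin d → ℝ) :
    ap (upd m p A (some (k, q))) x i = ap A x i := by
  unfold ap upd
  simp only [Function.update_of_ne h]

/-- the admissible isotropic successors -/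
noncomputable def aiso (p : ℕ) (s : Sta d) : Finset (Sta d) :=
  (Fintype.piFinset fun i => (bs s i).biUnion fun b =>
    Finset.Ico (2 ^ p * b) (2 ^ p * b + 2 ^ p)).image fun δ => (none, δ) :: s

/-- the admissible successors at a listed slab -/
noncomputable def ahvy (L : List (Fin d × (Fin d → ℤ) × ℤ)) (s : Sta d) : Finset (Sta d) :=
  L.toFinset.biUnion fun π => (Fintype.piFinset fun i =>
    if i = π.1 then {π.2.2} else bs s i).image fun δ => (some (π.1, π.2.1), δ) :: s

theorem aiso_card (p : ℕ) (s : Sta d) : (aiso p s).card ≤ (3 * 2 ^ p) ^ d := by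
  classical
  unfold aiso
  refine Finset.card_image_le.trans ?_
  rw [Fintype.card_piFinset]
  refine (Finset.prod_le_prod' (fun i _ => ?_) :
    _ ≤ ∏ _i : Fin d, 3 * 2 ^ p).trans (by simp)
  refine Finset.card_biUnion_le.trans ?_
  calc ∑ b ∈ bs s i, (Finset.Ico (2 ^ p * b) (2 ^ p * b + 2 ^ p) : Finset ℤ).card
      = ∑ _b ∈ bs s i, 2 ^ p := by
        refine Finset.sum_congr rfl fun b _ => ?_
        rw [Int.card_Ico]
        have : (2 : ℤ) ^ p * b + 2 ^ p - 2 ^ p * b = ((2 ^ p : ℕ) : ℤ) := by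
          push_cast
          ring
        rw [this, Int.toNat_natCast]
    _ = (bs s i).card * 2 ^ p := by rw [Finset.sum_const, smul_eq_mul]
    _ ≤ 3 * 2 ^ p := Nat.mul_le_mul_right _ (bs_card_le s i)

theorem ahvy_card (L : List (Fin d × (Fin d → ℤ) × ℤ)) (s : Sta d) :
    (ahvy L s).card ≤ L.length * 3 ^ d := by
  classical
  unfold ahvy
  refine Finset.card_biUnion_le.trans ?_
  calc _ ≤ ∑ _π ∈ L.toFinset, 3 ^ d := by
        refine Finset.sum_le_sum fun π _ => ?_
        refine Finset.card_image_le.trans ?_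
        rw [Fintype.card_piFinset]
        refine (Finset.prod_le_prod' (fun i _ => ?_) : _ ≤ ∏ _i : Fin d, 3).trans (by simp)
        split_ifs
        · simp
        · exact bs_card_le s i
    _ = L.toFinset.card * 3 ^ d := by rw [Finset.sum_const, smul_eq_mul]
    _ ≤ L.length * 3 ^ d := Nat.mul_le_mul_right _ (List.toFinset_card_le L)

theorem sum_ind_le {β : Type*} [DecidableEq β] (F A : Finset β) {x : ℝ} (hx : 0 ≤ x) :
    ∑ s ∈ F, (if s ∈ A then x else 0) ≤ A.card * x := by
  rw [← Finset.sum_filter (· ∈ A), Finset.sum_const, nsmul_eq_mul]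
  refine mul_le_mul_of_nonneg_right ?_ hx
  exact_mod_cast Finset.card_le_card fun s hs => (Finset.mem_filter.1 hs).2

variable {Ω : Type} [Fintype Ω] {ζ : Type}

/-- entropy of the next state -/
theorem hc_step (P : Law Ω) (Z : Ω → ζ) (wj w' : Ω → Sta d) (p : ℕ) {thr : ℝ} (ht : 0 < thr)
    (L : ζ × Sta d → List (Fin d × (Fin d → ℤ) × ℤ)) (hlen : ∀ y, ((L y).length : ℝ) ≤ 1 / thr)
    (iso' : Ω → Prop) (h1 : ∀ ω, 0 < P.w ω → iso' ω → w' ω ∈ aiso p (wj ω))
    (h2 : ∀ ω, 0 < P.w ω → ¬ iso' ω → w' ω ∈ ahvy (L (Z ω, wj ω)) (wj ω)) :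
    hc P w' (fun ω => (Z ω, wj ω)) ≤
      Real.log (1 / thr + 1) + d * Real.log 3 + d * p * Real.log 2 * prE P iso' := by
  classical
  have hT : 0 < 1 / thr + 1 := by positivity
  set N1 : ℝ := (1 / thr + 1) * (3 * 2 ^ p) ^ d with hN1
  set N2 : ℝ := (1 / thr + 1) * 3 ^ d with hN2
  have hN1p : 0 < N1 := by positivity
  have hN2p : 0 < N2 := by positivity
  set q : Sta d → ζ × Sta d → ℝ := fun s y =>
    (if s ∈ aiso p y.2 then 1 / N1 else 0) + (if s ∈ ahvy (L y) y.2 then 1 / N2 else 0) with hq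
  have hq0 : ∀ s y, 0 ≤ q s y := by
    intro s y
    simp only [hq]
    refine add_nonneg ?_ ?_ <;> split_ifs <;> positivity
  have hiso : ∀ ω, 0 < P.w ω → iso' ω → 1 / N1 ≤ q (w' ω) (Z ω, wj ω) := by
    intro ω hω hi
    simp only [hq]
    rw [if_pos (h1 ω hω hi)]
    have : (0 : ℝ) ≤ if w' ω ∈ ahvy (L (Z ω, wj ω)) (wj ω) then 1 / N2 else 0 := by
      split_ifs <;> positivity
    linarith
  have hhvy : ∀ ω, 0 < P.w ω → ¬ iso' ω → 1 / N2 ≤ q (w' ω) (Z ω, wj ω) := by
    intro ω hω hi
    simp only [hq]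
    rw [if_pos (h2 ω hω hi)]
    have : (0 : ℝ) ≤ if w' ω ∈ aiso p (wj ω) then 1 / N1 else 0 := by
      split_ifs <;> positivity
    linarith
  have hg := P.gibbs_cond w' (fun ω => (Z ω, wj ω)) q hq0 ?_ ?_
  · unfold hc
    refine hg.trans ?_
    have h3 : P.ex (fun ω => - Real.log (q (w' ω) (Z ω, wj ω))) ≤
        P.ex (fun ω => (Real.log (1 / thr + 1) + d * Real.log 3) +
          d * p * Real.log 2 * Law.ind (iso' ω)) := by
      refine P.ex_mono fun ω hω => ?_
      unfold Law.ind
      have e0 : Real.log (3 * 2 ^ p : ℝ) = Real.log 3 + p * Real.log 2 := by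
        rw [Real.log_mul (by norm_num) (by positivity), Real.log_pow]
      split_ifs with hi
      · have h4 := Real.log_le_log (by positivity) (hiso ω hω hi)
        rw [one_div, Real.log_inv, hN1, Real.log_mul hT.ne' (by positivity), Real.log_pow, e0] at h4
        linarith
      · have h4 := Real.log_le_log (by positivity) (hhvy ω hω hi)
        rw [one_div, Real.log_inv, hN2, Real.log_mul hT.ne' (by positivity), Real.log_pow] at h4
        linarith
    refine h3.trans ?_
    rw [P.ex_add, P.ex_const, P.ex_const_mul]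
    have h5 : P.ex (fun ω => Law.ind (iso' ω)) = prE P iso' := by
      unfold Law.ex prE
      rw [Finset.sum_filter]
      refine Finset.sum_congr rfl fun ω _ => ?_
      unfold Law.ind
      by_cases hh : iso' ω <;> simp [hh]
    rw [h5]
  · intro y F
    have a1 : ∑ s ∈ F, (if s ∈ aiso p y.2 then 1 / N1 else 0) ≤ 1 / (1 / thr + 1) := by
      refine (sum_ind_le F (aiso p y.2) (x := 1 / N1) (by positivity)).trans ?_
      have b1 : ((aiso p y.2).card : ℝ) ≤ (3 * 2 ^ p) ^ d := by
        exact_mod_cast aiso_card p y.2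
      calc _ ≤ (3 * 2 ^ p : ℝ) ^ d * (1 / N1) :=
            mul_le_mul_of_nonneg_right b1 (by positivity)
        _ = _ := by
            rw [hN1]
            field_simp
    have a2 : ∑ s ∈ F, (if s ∈ ahvy (L y) y.2 then 1 / N2 else 0) ≤ (1 / thr) / (1 / thr + 1) := by
      refine (sum_ind_le F (ahvy (L y) y.2) (x := 1 / N2) (by positivity)).trans ?_
      have b1 : ((ahvy (L y) y.2).card : ℝ) ≤ (1 / thr) * 3 ^ d := by
        have b2 : ((ahvy (L y) y.2).card : ℝ) ≤ (L y).length * 3 ^ d := by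
          exact_mod_cast ahvy_card (L y) y.2
        exact b2.trans (mul_le_mul_of_nonneg_right (hlen y) (by positivity))
      calc _ ≤ ((1 / thr) * 3 ^ d) * (1 / N2) :=
            mul_le_mul_of_nonneg_right b1 (by positivity)
        _ = _ := by
            rw [hN2]
            field_simp
    simp only [hq]
    rw [Finset.sum_add_distrib]
    have : 1 / (1 / thr + 1) + (1 / thr) / (1 / thr + 1) = 1 := by
      field_simp
      ring
    linarith
  · intro ω hω
    by_cases hi : iso' ω
    · exact (by positivity : 0 < 1 / N1).trans_le (hiso ω hω hi)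
    · exact (by positivity : 0 < 1 / N2).trans_le (hhvy ω hω hi)

/-- one step of the word -/
theorem step (P : Law Ω) (Z : Ω → ζ) (Q : Ω → Fin d → ℝ) (m p : ℕ) {thr : ℝ} (ht : 0 < thr)
    (wj : Ω → Sta d) :
    ∃ w' : Ω → Sta d,
      (∀ ω, ∃ c : Cd d, (∀ k q, c = some (k, q) → okc m q) ∧
        w' ω = (c, dg (upd m p (fr m p (wj ω)) c) (Q ω)) :: wj ω) ∧
      (∀ ω, ∀ π : Fin d × (Fin d → ℤ) × ℤ, okc m π.2.1 →
        prE P (fun ω' => Z ω' = Z ω ∧ wj ω' = wj ω ∧ ((w' ω').head?.map Prod.fst) = some none ∧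
          sl m (fr m p (wj ω)) (Q ω') π) ≤ thr * prE P (fun ω' => Z ω' = Z ω ∧ wj ω' = wj ω)) ∧
      ((∀ ω, 0 < P.w ω → ∀ i, ⌊ap (fr m p (wj ω)) (Q ω) i⌋ ∈ bs (wj ω) i) →
        hc P w' (fun ω => (Z ω, wj ω)) ≤ Real.log (1 / thr + 1) + d * Real.log 3 +
          d * p * Real.log 2 * prE P (fun ω => ((w' ω).head?.map Prod.fst) = some none)) ∧
      ∀ ω ω', Z ω = Z ω' → Q ω = Q ω' → wj ω = wj ω' → w' ω = w' ω' := by
  classical
  choose L hok hlen hL using fun y : ζ × Sta d =>
    greedy P (fun ω => Z ω = y.1 ∧ wj ω = y.2)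
      (fun (π : Fin d × (Fin d → ℤ) × ℤ) ω => sl m (fr m p y.2) (Q ω) π)
      (fun π => okc m π.2.1) ht
  set f : Ω → Option (Fin d × (Fin d → ℤ) × ℤ) := fun ω =>
    (L (Z ω, wj ω)).find? fun π => decide (sl m (fr m p (wj ω)) (Q ω) π) with hf
  set cd : Ω → Cd d := fun ω => (f ω).map fun π => (π.1, π.2.1) with hcd
  set w' : Ω → Sta d := fun ω => (cd ω, dg (upd m p (fr m p (wj ω)) (cd ω)) (Q ω)) :: wj ω with hw'
  have hnone : ∀ ω, cd ω = none → ∀ π ∈ L (Z ω, wj ω), ¬ sl m (fr m p (wj ω)) (Q ω) π := by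
    intro ω h π hπ
    simp only [hcd, Option.map_eq_none_iff, hf, List.find?_eq_none] at h
    simpa using h π hπ
  have hsome : ∀ ω c, cd ω = some c → ∃ π ∈ L (Z ω, wj ω), sl m (fr m p (wj ω)) (Q ω) π ∧
      c = (π.1, π.2.1) := by
    intro ω c h
    simp only [hcd, Option.map_eq_some_iff] at h
    obtain ⟨π, hπ, e⟩ := h
    refine ⟨π, List.mem_of_find?_eq_some hπ, ?_, e.symm⟩
    have := List.find?_some hπ
    simpa using this
  have hhead : ∀ ω, ((w' ω).head?.map Prod.fst) = some none ↔ cd ω = none := by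
    intro ω
    simp [hw']
  refine ⟨w', fun ω => ⟨cd ω, ?_, rfl⟩, ?_, ?_, ?_⟩
  · intro k q h
    obtain ⟨π, hπ, _, e⟩ := hsome ω _ h
    have := hok _ π hπ
    simp only [Prod.mk.injEq] at e
    rw [e.2]
    exact this
  · intro ω π hπ
    have h1 := hL (Z ω, wj ω) π hπ
    refine le_trans (prE_mono P ?_) h1
    rintro ω' ⟨e1, e2, e3, e4⟩
    have h2 := hnone ω' ((hhead ω').1 e3)
    rw [e1, e2] at h2
    exact ⟨⟨e1, e2⟩, h2, e4⟩
  · intro hbs
    refine hc_step P Z wj w' p ht L hlen _ ?_ ?_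
    · intro ω hω hi
      have h1 := (hhead ω).1 hi
      unfold aiso
      rw [Finset.mem_image]
      refine ⟨dg (upd m p (fr m p (wj ω)) none) (Q ω), ?_, ?_⟩
      · rw [Fintype.mem_piFinset]
        intro i
        rw [Finset.mem_biUnion]
        refine ⟨_, hbs ω hω i, ?_⟩
        unfold dg
        rw [ap_upd_none, Finset.mem_Ico]
        set a := ap (fr m p (wj ω)) (Q ω) i
        have b1 := Int.floor_le a
        have b2 := Int.lt_floor_add_one a
        have hp2 : (0 : ℝ) < 2 ^ p := by positivity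
        constructor
        · rw [Int.le_floor]
          push_cast
          exact mul_le_mul_of_nonneg_left b1 hp2.le
        · rw [Int.floor_lt]
          push_cast
          nlinarith
      · simp only [hw', h1]
    · intro ω hω hi
      have h1 : cd ω ≠ none := fun h => hi ((hhead ω).2 h)
      obtain ⟨c, hc⟩ := Option.ne_none_iff_exists'.1 h1
      obtain ⟨π, hπ, hsl, e⟩ := hsome ω c hc
      unfold ahvy
      rw [Finset.mem_biUnion]
      refine ⟨π, by simpa using hπ, ?_⟩
      rw [Finset.mem_image]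
      refine ⟨dg (upd m p (fr m p (wj ω)) (some (π.1, π.2.1))) (Q ω), ?_, ?_⟩
      · rw [Fintype.mem_piFinset]
        intro i
        unfold dg
        by_cases hik : i = π.1
        · rw [if_pos hik, Finset.mem_singleton, hik, ap_upd_self]
          exact hsl
        · rw [if_neg hik, ap_upd_ne _ _ _ hik]
          exact hbs ω hω i
      · simp only [hw', hc, e]
  · intro ω ω' e1 e2 e3
    have e4 : f ω = f ω' := by
      simp only [hf, e1, e2, e3]
    have e5 : cd ω = cd ω' := by
      simp only [hcd, e4]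
    simp only [hw', e5, e2, e3]

/-- **[WORD]** -/
theorem word (d : ℕ) : PWord d := by
  refine ⟨d * Real.log 3, mul_nonneg (Nat.cast_nonneg _) (Real.log_nonneg (by norm_num)), ?_⟩
  intro Ω _ ζ P Z Q m p thr hQ ht _
  choose nx h1 h2 h3 h4 using fun wj : Ω → Sta d => step P Z Q m p ht wj
  set w : ℕ → Ω → Sta d := fun j => Nat.rec (fun _ => []) (fun _ v => nx v) j with hw
  have hs : ∀ j, w (j + 1) = nx (w j) := fun j => rfl
  have hwd : IsWd m p Q w := by
    constructor
    · intro ω
      rfl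
    · intro j ω
      rw [hs]
      exact h1 (w j) ω
  have hbs : ∀ j ω, 0 < P.w ω → ∀ i, ⌊ap (fr m p (w j ω)) (Q ω) i⌋ ∈ bs (w j ω) i := by
    intro j ω hω i
    rcases j with _ | j
    · have e : w 0 ω = [] := rfl
      rw [e]
      have e2 : fr m p ([] : Sta d) = fr1 := rfl
      rw [e2, ap_fr1]
      have := abs_le.1 (hQ ω hω i)
      show ⌊Q ω i⌋ ∈ Finset.Icc (-1 : ℤ) 1
      rw [Finset.mem_Icc]
      constructor
      · rw [Int.le_floor]
        push_cast
        linarith [this.1]
      · have h5 : ⌊Q ω i⌋ < 2 := by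
          rw [Int.floor_lt]
          push_cast
          linarith [this.2]
        omega
    · obtain ⟨c, _, e⟩ := hwd.succ j ω
      rw [e]
      show ⌊ap (upd m p (fr m p (w j ω)) c) (Q ω) i⌋ ∈ ({_} : Finset ℤ)
      rw [Finset.mem_singleton]
      rfl
  have hdet : ∀ j ω ω', Z ω = Z ω' → Q ω = Q ω' → w j ω = w j ω' := by
    intro j
    induction j with
    | zero => intro ω ω' _ _; rfl
    | succ j ih =>
      intro ω ω' e1 e2
      rw [hs]
      exact h4 (w j) ω ω' e1 e2 (ih ω ω' e1 e2)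
  refine ⟨w, hwd, ?_, ?_, ?_⟩
  · intro j ω _ π hπ
    have := h2 (w j) ω π hπ
    rw [← hs] at this
    exact this
  · intro j
    exact fun ω ω' _ _ e => hdet j ω ω' (congrArg Prod.fst e) (congrArg Prod.snd e)
  · intro j
    have := h3 (w j) (hbs j)
    rw [← hs] at this
    exact this

end Vale.Agent.P106.U.H495
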