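import Vale.Agent.P106.U.H495.Sel
import Vale.Agent.P106.U.H495.Lit
import Vale.Agent.P106.U.H495.Word
import Vale.Agent.P106.U.H364.Act
import Vale.Agent.P106.U.H364.Wcr
import Vale.Agent.P106.U.H11.Pat

/-!
# P106 / U / H495 : Case A of the dichotomy with explicit parameters (helper495)
-/

set_option autoImplicit false

namespace Vale.Agent.P106.U.H495

open Finset Vale.Agent.P127 Vale.Agent.P127.Stk Vale.Agent.P127.U.CellD Vale.Agent.P127.U.Mic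
open Vale.Agent.P106.U.EndA

/-- `PCore d` with the constant `c` -/
def PCoreC (d c : ℕ) : Prop := ∀ {Ω : Type} [Fintype Ω] {α : Type} (P : Law Ω) (S : Sy d Ω α)
    (n j0 h M : ℕ) (B : Finset ℕ) (ε : ℝ), S.Nrm P → 1 ≤ S.m → c * S.m + S.κ ≤ S.p → S.m ≤ S.κ →
    1 ≤ M → S.κ + c * j0 + c ≤ S.a0 → S.lt n + (j0 + 1) * (S.p + c) ≤ h → B.Nonempty →
    (∀ j ∈ B, j < j0) → (∀ j ∈ B, ∀ ω, 0 < P.w ω → iso S.w j ω) →
    (∀ j ∈ B, PlB P S.m (S.F j) S.Q (fun ω => ((S.Zh h ω, S.A ω), S.w j ω)) ε) →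
    ∑ i ∈ range n, colp P (S.T (i + 1)) (fun ω => (S.ray ω, (S.A ω, S.w j0 ω), S.T i ω)) ≤ ε * n →
    0 ≤ ε → c * ((n + 1) * (j0 + 1)) ^ 2 ≤ (2 : ℝ) ^ S.κ →
    d * (S.m * n) * Real.log 2 - c * (n + S.m * n * ε + S.m * n / M + M * S.p) -
        (2 : ℝ) ^ (c * S.m) * (Real.sqrt (n * (M * S.p * S.p)) + n * Real.sqrt (M * S.p / B.card)) ≤
      mi P S.ray (S.Zh h) (fun ω => (S.A ω, S.T 0 ω)) +
        hc P (S.w j0) (fun ω => (S.ray ω, (S.A ω, S.T 0 ω)))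

theorem pcoreC {d : ℕ} (h : PCore d) : ∃ c : ℕ, PCoreC d c := h

/-- `PActT` with the constant `c` -/
def PActC (c : ℝ) : Prop := ∀ {Ω : Type} [Fintype Ω] {ξ ν τ : Type} (P : Law Ω) (l : Ω → ξ)
    (V : Ω → ν) (T : ℕ → Ω → τ) (n : ℕ) (thr : ℝ), (∀ i, Fn P (T i) (T (i + 1))) → 0 < thr → thr < 1 →
    ∑ i ∈ range n, colp P (T (i + 1)) (fun ω => (l ω, V ω, T i ω)) ≤
      ∑ i ∈ range n, prE P (fun ω => thr ^ 2 < cq P (T (i + 1)) (fun ω => (l ω, T i ω)) (T (i + 1) ω)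
        (l ω, T i ω)) + n * thr + (hc P V l + c * n) / Real.log (1 / thr)

theorem pactC : ∃ c : ℝ, 0 ≤ c ∧ PActC c := pActT

/-- the digits of the word -/
noncomputable def wc (d J m : ℕ) : ℝ := J * (Real.log (d + 1) + d * (m + 2) * Real.log 2)

theorem wc_nonneg (d J m : ℕ) : 0 ≤ wc d J m := by
  unfold wc
  have h1 : 0 ≤ Real.log ((d : ℝ) + 1) := Real.log_nonneg (by
    have : (0 : ℝ) ≤ d := Nat.cast_nonneg d
    linarith)
  have h2 : 0 ≤ Real.log 2 := Real.log_nonneg (by norm_num)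
  positivity

variable {d : ℕ} {Ω : Type} [Fintype Ω] {α ξ : Type}

theorem fl1_of_fl1' {s s' : ℕ} (h : s ≤ s') {x y : ℝ} (e : fl1 s' x = fl1 s' y) :
    fl1 s x = fl1 s y := by
  unfold fl1 at *
  rw [floor_pow_aux h, floor_pow_aux h y, e]

/-- activity given the ray, the side variable and the word -/
theorem act_word {cA : ℝ} (hact : PActC cA) (P : Law Ω) (S : Sy d Ω α) (l : Ω → ξ) (n J : ℕ) {ct D : ℝ}
    (hm : 1 ≤ S.m) (hct : 0 < ct) (hw : IsWd S.m S.p S.Q S.w) (hray : Fn P S.ray l)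
    (hside : Fn P S.A (fun ω => (l ω, S.T 0 ω)))
    (hD : ∑ i ∈ range n, prE P (fun ω => (2 : ℝ) ^ (-(ct * S.m)) <
      cq P (S.T (i + 1)) (fun ω => (l ω, S.T i ω)) (S.T (i + 1) ω) (l ω, S.T i ω)) ≤ D) :
    ∑ i ∈ range n, colp P (S.T (i + 1)) (fun ω => (S.ray ω, (S.A ω, S.w J ω), S.T i ω)) ≤
      D + n * (2 : ℝ) ^ (-(ct * S.m / 2)) + (wc d J S.m + cA * n) / (ct * S.m / 2 * Real.log 2) := by
  have hmR : (0 : ℝ) < S.m := by exact_mod_cast hm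
  have hx : 0 < ct * S.m / 2 := by positivity
  have hlog : Real.log (1 / (2 : ℝ) ^ (-(ct * S.m / 2))) = ct * S.m / 2 * Real.log 2 := by
    rw [one_div, Real.log_inv, Real.log_rpow (by norm_num)]
    ring
  have hsq : ((2 : ℝ) ^ (-(ct * S.m / 2))) ^ 2 = (2 : ℝ) ^ (-(ct * S.m)) := by
    rw [← Real.rpow_natCast, ← Real.rpow_mul (by norm_num)]
    congr 1
    push_cast
    ring
  have h0 : (0 : ℝ) < (2 : ℝ) ^ (-(ct * S.m / 2)) := Real.rpow_pos_of_pos (by norm_num) _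
  have h1 : (2 : ℝ) ^ (-(ct * S.m / 2)) < 1 :=
    Real.rpow_lt_one_of_one_lt_of_neg (by norm_num) (by linarith)
  have hT : ∀ i, Fn P (S.T i) (S.T (i + 1)) := by
    intro i ω ω' _ _ e
    exact fl1_of_fl1' (by unfold Sy.lt; gcongr; omega) e
  have hT0 : ∀ i, Fn P (S.T 0) (S.T i) := by
    intro i ω ω' _ _ e
    exact fl1_of_fl1' (by unfold Sy.lt; gcongr; omega) e
  have h2 := hact P l (S.w J) S.T n ((2 : ℝ) ^ (-(ct * S.m / 2))) hT h0 h1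
  rw [hlog, hsq] at h2
  have h3 : ∑ i ∈ range n, colp P (S.T (i + 1)) (fun ω => (S.ray ω, (S.A ω, S.w J ω), S.T i ω)) ≤
      ∑ i ∈ range n, colp P (S.T (i + 1)) (fun ω => (l ω, S.w J ω, S.T i ω)) := by
    refine Finset.sum_le_sum fun i _ => ?_
    refine colp_mono_cond P _ ?_
    intro ω ω' p p' e
    simp only [Prod.mk.injEq] at e ⊢
    have e0 := hT0 i ω ω' p p' e.2.2
    refine ⟨hray ω ω' p p' e.1, ⟨hside ω ω' p p' ?_, e.2.1⟩, e.2.2⟩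
    show (l ω, S.T 0 ω) = (l ω', S.T 0 ω')
    rw [e.1, e0]
  have h4 : hc P (S.w J) l ≤ wc d J S.m := by
    refine le_trans ?_ (pWcr d P S.Q S.m S.p S.w hw J)
    refine hc_mono_right P _ ?_
    intro ω ω' p p' e
    exact congrArg Prod.snd (hray ω ω' p p' e)
  have h5 : (hc P (S.w J) l + cA * n) / (ct * S.m / 2 * Real.log 2) ≤
      (wc d J S.m + cA * n) / (ct * S.m / 2 * Real.log 2) := by
    refine div_le_div_of_nonneg_right (by linarith) ?_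
    have : 0 ≤ Real.log 2 := Real.log_nonneg (by norm_num)
    positivity
  linarith

/-- **Case A** with explicit parameters -/
theorem caseA {cC : ℕ} (hcore : PCoreC d cC) {cA : ℝ} (hact : PActC cA) (Pf P : Law Ω) {p0 : ℝ}
    (hp0 : 0 < p0) (hdom : ∀ ω, p0 * P.w ω ≤ Pf.w ω) (S : Sy d Ω α) (l : Ω → ξ) (n J h M : ℕ)
    (K : Finset ℕ) {thr ε ct D b : ℝ} (hN : S.Nrm P) (hray : Fn P S.ray l)
    (hside : Fn P S.A (fun ω => (l ω, S.T 0 ω))) (hK : ∀ j ∈ K, j < J)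
    (hiso : ∀ j ∈ K, ∀ ω, 0 < P.w ω → iso S.w j ω)
    (hvy : Hvy Pf (fun ω => (S.Zh h ω, S.A ω)) S.Q S.m S.p S.w thr)
    (hm : 1 ≤ S.m) (hcp : cC * S.m + S.κ ≤ S.p) (hmd : S.m + d ≤ S.p) (hmκ : S.m ≤ S.κ) (hM : 1 ≤ M)
    (ha0 : S.κ + cC * J + cC ≤ S.a0) (hh : S.lt n + (J + 1) * (S.p + cC) ≤ h)
    (hthr : 0 < thr) (hε : 12 * thr < ε) (hct : 0 < ct)
    (hκ2 : cC * ((n + 1) * (J + 1)) ^ 2 ≤ (2 : ℝ) ^ S.κ)
    (hb : 0 < b) (hΛ : 0 < ε / 2 * Real.log (ε / 2 / (6 * thr)) - 1)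
    (hbK : b * (ε / 2 * Real.log (ε / 2 / (6 * thr)) - 1) + Real.log (1 / p0) ≤
      K.card * (ε / 2 * Real.log (ε / 2 / (6 * thr)) - 1))
    (hD : ∑ i ∈ range n, prE P (fun ω => (2 : ℝ) ^ (-(ct * S.m)) <
      cq P (S.T (i + 1)) (fun ω => (l ω, S.T i ω)) (S.T (i + 1) ω) (l ω, S.T i ω)) ≤ D)
    (hDn : D + n * (2 : ℝ) ^ (-(ct * S.m / 2)) + (wc d J S.m + cA * n) / (ct * S.m / 2 * Real.log 2) ≤
      ε * n) :
    d * (S.m * n) * Real.log 2 - cC * (n + S.m * n * ε + S.m * n / M + M * S.p) -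
        (2 : ℝ) ^ (cC * S.m) * (Real.sqrt (n * (M * S.p * S.p)) + n * Real.sqrt (M * S.p / b)) -
        wc d J S.m ≤
      mi P S.ray (S.Zh h) (fun ω => (S.A ω, S.T 0 ω)) := by
  have hε0 : 0 < ε := by linarith
  obtain ⟨G, hGK, hG1, hG2⟩ := pgood d Pf P p0 (fun ω => (S.Zh h ω, S.A ω)) S.Q S.m S.p S.w thr (ε / 2)
    K hmd hp0 hdom hN.wd hvy hthr (by linarith) hiso
  set Λ := ε / 2 * Real.log (ε / 2 / (6 * thr)) - 1 with hΛd
  have hGb : b ≤ G.card := by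
    have : b * Λ ≤ G.card * Λ := by nlinarith
    exact le_of_mul_le_mul_right this hΛ
  have hGpos : (0 : ℝ) < G.card := hb.trans_le hGb
  have hGne : G.Nonempty := Finset.card_pos.1 (by exact_mod_cast hGpos)
  have hactS := act_word hact P S l n J hm hct hN.wd hray hside hD
  have h1 := hcore P S n J h M G ε hN hm hcp hmκ hM ha0 hh hGne (fun j hj => hK j (hGK hj))
    (fun j hj => hiso j (hGK hj)) ?_ (hactS.trans hDn) hε0.le hκ2
  · have h2 : hc P (S.w J) (fun ω => (S.ray ω, (S.A ω, S.T 0 ω))) ≤ wc d J S.m := by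
      refine le_trans ?_ (pWcr d P S.Q S.m S.p S.w hN.wd J)
      refine hc_mono_right P _ ?_
      intro ω ω' _ _ e
      exact congrArg Prod.snd (congrArg Prod.fst e)
    have h3 : (2 : ℝ) ^ (cC * S.m) *
          (Real.sqrt (n * (M * S.p * S.p)) + n * Real.sqrt (M * S.p / G.card)) ≤
        (2 : ℝ) ^ (cC * S.m) * (Real.sqrt (n * (M * S.p * S.p)) + n * Real.sqrt (M * S.p / b)) := by
      gcongr
    linarith
  · intro j hj
    have := hG1 j hj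
    rw [show 2 * (ε / 2) = ε by ring] at this
    exact this

end Vale.Agent.P106.U.H495
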