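import Vale.Agent.P106.U.H495.DichFin
import Vale.Agent.P106.U.H495.Asy

/-!
# P106 / U / H495 : the dichotomy `PDich d` (helper495)
-/

set_option autoImplicit false

namespace Vale.Agent.P106.U.H495

open Finset Vale.Agent.P127 Vale.Agent.P127.Stk Vale.Agent.P127.U.CellD Vale.Agent.P127.U.Mic
open Vale.Agent.P106.U.EndA

/-- the numbers of the dichotomy -/
structure Num (d cC m κ p J n M : ℕ) (H W : ℕ) (s τ ε θ C1 Cp X0 : ℝ) : Prop where
  hd : 1 ≤ d
  hC1 : C1 = cC + 1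
  hCp : Cp = 70 * C1 + d
  hs : 0 < s
  hs1 : s ≤ 1
  hsτ : 64 * d * Cp * s ≤ τ
  hτ : 0 < τ
  hθ : 0 < θ
  hε : 0 < ε
  hετ : 16 * C1 * ε ≤ τ
  hm : 1 ≤ m
  hmX : X0 ≤ m
  hX1 : 1 ≤ X0
  hX2 : 2 + 2 * d + 2 * (d : ℝ) ^ 2 + 8 / θ ≤ X0 * s
  hX3 : 16 * C1 * M * Cp ≤ τ * X0
  hX4 : 16 * Cp * M / τ ≤ X0
  hX5 : 16 * (1 + 8 * M * Cp / (θ * s)) / τ ≤ X0
  hX6 : 16 * C1 ≤ τ * X0
  hM : 16 * C1 ≤ τ * M
  hM1 : 1 ≤ M
  hκ : κ = cC + 4 + d + 32 * (cC + 1) * (m + 1)
  hp : p = (cC + 1) * m + κ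
  hJ : J = ⌊s * H / m⌋₊
  hn : n = (W - (J + 1) * (p + cC)) / m
  hW : τ * H < d * W
  hWH : W ≤ H
  hH1 : 2 ^ (8 * (cC + 1) * m) ≤ H
  hH2 : H < 2 ^ (8 * (cC + 1) * (m + 1))

namespace Num

variable {d cC m κ p J n M H W : ℕ} {s τ ε θ C1 Cp X0 : ℝ} (N : Num d cC m κ p J n M H W s τ ε θ C1 Cp X0)

include N

theorem dR : (1 : ℝ) ≤ d := by exact_mod_cast N.hd

theorem mR : (1 : ℝ) ≤ m := by exact_mod_cast N.hm

theorem C1R : (1 : ℝ) ≤ C1 := by
  rw [N.hC1]
  have : (0 : ℝ) ≤ cC := Nat.cast_nonneg _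
  linarith

theorem C1Cp : C1 ≤ Cp := by
  rw [N.hCp]
  have := N.C1R
  have := N.dR
  linarith

theorem CpR : (1 : ℝ) ≤ Cp := N.C1R.trans N.C1Cp

theorem MR : (1 : ℝ) ≤ M := by exact_mod_cast N.hM1

/-- the number `x = 2^((cC+1) m)` -/
theorem mx : (m : ℝ) ≤ (2 : ℝ) ^ ((cC + 1) * m) := by
  have h : m ≤ 2 ^ ((cC + 1) * m) :=
    (Nat.lt_two_pow_self.le).trans (Nat.pow_le_pow_right (by norm_num)
      (Nat.le_mul_of_pos_left m (by omega)))
  exact_mod_cast h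

theorem xH : ((2 : ℝ) ^ ((cC + 1) * m)) ^ 8 ≤ H := by
  have h : (2 ^ ((cC + 1) * m)) ^ 8 ≤ H := by
    rw [← pow_mul]
    have := N.hH1
    rwa [show (cC + 1) * m * 8 = 8 * (cC + 1) * m by ring]
  exact_mod_cast h

theorem x1 : 1 ≤ (2 : ℝ) ^ ((cC + 1) * m) := N.mR.trans N.mx

theorem mX0 : (m : ℝ) * X0 ≤ H := by
  have h1 := N.mx
  have h2 := N.x1
  have h3 : (2 : ℝ) ^ ((cC + 1) * m) * (2 : ℝ) ^ ((cC + 1) * m) ≤ H := by
    refine le_trans ?_ N.xH
    rw [← pow_two]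
    exact pow_le_pow_right₀ h2 (by norm_num)
  refine le_trans ?_ h3
  have h4 := N.hX1
  exact mul_le_mul h1 (N.hmX.trans h1) (by linarith) (by linarith)

theorem Hpos : (0 : ℝ) < H := by
  have h1 := N.mX0
  have h2 := N.mR
  have h3 := N.hX1
  nlinarith

theorem HmR : (1 : ℝ) ≤ H := by
  have h1 := N.mX0
  have h2 := N.mR
  have h3 := N.hX1
  nlinarith

/-- `s H ≥ (2 + 2 d + 2 d² + 8/θ) m` -/
theorem sH : (2 + 2 * d + 2 * (d : ℝ) ^ 2 + 8 / θ) * m ≤ s * H := by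
  have h1 := N.mX0
  have h2 := N.hX2
  have h3 := N.mR
  calc (2 + 2 * d + 2 * (d : ℝ) ^ 2 + 8 / θ) * m ≤ (X0 * s) * m := by gcongr
    _ = s * (m * X0) := by ring
    _ ≤ s * H := mul_le_mul_of_nonneg_left h1 N.hs.le

theorem sH2 : 2 * (m : ℝ) ≤ s * H := by
  refine le_trans ?_ N.sH
  have h1 := N.mR
  have h2 : 0 < 8 / θ := div_pos (by norm_num) N.hθ
  have h3 := N.dR
  have h4 : (2 : ℝ) ≤ 2 + 2 * d + 2 * (d : ℝ) ^ 2 + 8 / θ := by nlinarith
  exact mul_le_mul_of_nonneg_right h4 (by linarith)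

theorem J1 : (J : ℝ) * m ≤ s * H := by
  have h1 : (J : ℝ) ≤ s * H / m := by
    rw [N.hJ]
    exact Nat.floor_le (div_nonneg (mul_nonneg N.hs.le (Nat.cast_nonneg _)) (Nat.cast_nonneg _))
  have h2 := N.mR
  calc (J : ℝ) * m ≤ s * H / m * m := by gcongr
    _ = s * H := by field_simp

theorem J2 : s * H - m < J * m := by
  have h1 : s * H / m < (J : ℝ) + 1 := by
    rw [N.hJ]
    exact Nat.lt_floor_add_one _
  have h2 : (0 : ℝ) < m := by linarith [N.mR]
  have h3 : s * H < ((J : ℝ) + 1) * m := (div_lt_iff₀ h2).1 h1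
  linarith

theorem J3 : s * H / 2 ≤ J * m := by
  have h1 := N.J2
  have h2 := N.sH2
  linarith

theorem J4 : ((J : ℝ) + 1) * m ≤ 2 * s * H := by
  have h1 := N.J1
  have h2 := N.sH2
  have h3 := N.mR
  linarith

theorem Jθ : 4 / θ ≤ J := by
  have h1 := N.J3
  have h2 := N.sH
  have h3 := N.mR
  have h4 := N.dR
  have h5 : 8 / θ * m ≤ s * H := by
    refine le_trans ?_ h2
    have : 8 / θ ≤ 2 + 2 * d + 2 * (d : ℝ) ^ 2 + 8 / θ := by nlinarith
    exact mul_le_mul_of_nonneg_right this (by linarith)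
  have h6 : 4 / θ * m ≤ J * m := by
    have : 8 / θ = 2 * (4 / θ) := by ring
    rw [this] at h5
    linarith
  exact le_of_mul_le_mul_right h6 (by linarith)

theorem Jpos : 1 ≤ J := by
  have h1 := N.J3
  have h2 := N.sH2
  have h3 := N.mR
  have h4 : (m : ℝ) * 1 ≤ m * J := by linarith
  have h5 : (1 : ℝ) ≤ J := le_of_mul_le_mul_left h4 (by linarith)
  exact_mod_cast h5

theorem pCp : (p : ℝ) ≤ Cp * m := by
  have h1 : p ≤ 69 * ((cC + 1) * m) + d * m := by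
    rw [N.hp, N.hκ]
    have h2 : cC + 1 ≤ (cC + 1) * m := Nat.le_mul_of_pos_right _ N.hm
    have h3 : d ≤ d * m := Nat.le_mul_of_pos_right _ N.hm
    have h4 : 32 * (cC + 1) * (m + 1) = 32 * ((cC + 1) * m) + 32 * (cC + 1) := by ring
    have h5 : 1 ≤ (cC + 1) * m := le_trans (by omega) h2
    rw [h4]
    omega
  have h2 : (p : ℝ) ≤ 69 * ((cC + 1) * m) + d * m := by exact_mod_cast h1
  refine h2.trans ?_
  rw [N.hCp, N.hC1]
  have : (0 : ℝ) ≤ (cC + 1) * m := by positivity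
  linarith

theorem Rle : (((J + 1) * (p + cC) : ℕ) : ℝ) ≤ 4 * Cp * s * H := by
  push_cast
  have h1 := N.pCp
  have h2 : (cC : ℝ) ≤ Cp * m := by
    have h3 := N.C1Cp
    have h4 := N.mR
    have h5 := N.hC1
    have h6 := N.CpR
    nlinarith
  have h3 := N.J4
  have h4 := N.CpR
  calc ((J : ℝ) + 1) * (p + cC) ≤ ((J : ℝ) + 1) * (2 * Cp * m) := by
        gcongr
        linarith
    _ = 2 * Cp * (((J : ℝ) + 1) * m) := by ring
    _ ≤ 2 * Cp * (2 * s * H) := by gcongr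
    _ = 4 * Cp * s * H := by ring

theorem Rτ : 4 * Cp * s * H ≤ τ * H / (16 * d) := by
  have h1 := N.hsτ
  have h2 := N.dR
  have h3 := N.Hpos
  rw [le_div_iff₀ (by positivity)]
  calc 4 * Cp * s * H * (16 * d) = (64 * d * Cp * s) * H := by ring
    _ ≤ τ * H := mul_le_mul_of_nonneg_right h1 h3.le

theorem Wd : τ * H / d < W := by
  have h2 := N.dR
  rw [div_lt_iff₀ (by linarith), mul_comm (W : ℝ)]
  exact N.hW

theorem RW : (J + 1) * (p + cC) ≤ W := by
  have h1 := N.Rle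
  have h2 := N.Rτ
  have h3 := N.Wd
  have h4 := N.dR
  have h5 := N.Hpos
  have h6 := N.hτ
  have h7 : τ * H / (16 * d) ≤ τ * H / d := by
    gcongr
    linarith
  have h8 : (((J + 1) * (p + cC) : ℕ) : ℝ) ≤ W := by linarith
  exact_mod_cast h8

theorem n1 : m * n ≤ W - (J + 1) * (p + cC) := by
  rw [N.hn]
  exact Nat.mul_div_le _ _

theorem n2 : (W : ℝ) - 8 * Cp * s * H ≤ m * n := by
  have h1 := Nat.lt_mul_div_succ (W - (J + 1) * (p + cC)) (show 0 < m by have := N.hm; omega)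
  rw [← N.hn] at h1
  have h2 : W < m * (n + 1) + (J + 1) * (p + cC) := by
    have := N.RW
    omega
  have h3 : (W : ℝ) < m * (n + 1) + (((J + 1) * (p + cC) : ℕ) : ℝ) := by exact_mod_cast h2
  have h4 := N.Rle
  have h5 := N.sH2
  have h6 := N.CpR
  have h7 := N.Hpos
  have h8 := N.hs
  have h9 : s * H ≤ Cp * (s * H) := le_mul_of_one_le_left (by positivity) h6
  have h10 := N.mR
  nlinarith

theorem n3 : (m : ℝ) * n ≤ H := by
  have h1 := N.n1
  have h2 := N.hWH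
  have h3 : m * n ≤ H := by omega
  exact_mod_cast h3

theorem n4 : τ * H / (2 * d) ≤ m * n := by
  have h1 := N.n2
  have h2 := N.Rτ
  have h3 := N.Wd
  have h4 := N.dR
  have h5 := N.Hpos
  have h6 := N.hτ
  have h7 : τ * H / (16 * d) = τ * H / d / 16 := by
    rw [div_div, mul_comm (16 : ℝ)]
  have h8 : τ * H / (2 * d) = τ * H / d / 2 := by
    rw [div_div, mul_comm (2 : ℝ)]
  rw [h7] at h2
  rw [h8]
  have h9 : 0 < τ * H / d := by positivity
  linarith

theorem nH : (n : ℝ) ≤ H := by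
  have h1 := N.n3
  have h2 := N.mR
  have h3 : (0 : ℝ) ≤ n := Nat.cast_nonneg _
  nlinarith

theorem JH : (J : ℝ) ≤ H := by
  have h1 := N.J1
  have h2 := N.mR
  have h3 : (0 : ℝ) ≤ J := Nat.cast_nonneg _
  have h4 := N.hs1
  have h5 := N.Hpos
  nlinarith

theorem wcle : wc d J m ≤ 4 * d * s * H := by
  unfold wc
  have h1 : Real.log ((d : ℝ) + 1) ≤ d := by
    have := Real.log_le_sub_one_of_pos (show (0 : ℝ) < d + 1 by have := N.dR; linarith)
    linarith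
  have h2 : Real.log 2 ≤ 1 := by
    have := Real.log_le_sub_one_of_pos (show (0 : ℝ) < 2 by norm_num)
    linarith
  have h3 := N.mR
  have h4 := N.dR
  calc (J : ℝ) * (Real.log (d + 1) + d * (m + 2) * Real.log 2)
      ≤ J * (d + d * (m + 2) * 1) := by gcongr
    _ = J * (d * (m + 3)) := by ring
    _ ≤ J * (d * (4 * m)) := by
        gcongr
        linarith
    _ = 4 * d * (J * m) := by ring
    _ ≤ 4 * d * (s * H) := by
        have := N.J1
        gcongr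
    _ = 4 * d * s * H := by ring

theorem κ2 : (cC : ℝ) * (((n : ℝ) + 1) * (J + 1)) ^ 2 ≤ (2 : ℝ) ^ κ := by
  have h1 := N.nH
  have h2 := N.JH
  have h3 := N.HmR
  have h4 : ((n : ℝ) + 1) * (J + 1) ≤ (2 * H) * (2 * H) := by
    gcongr <;> linarith
  have h5 : (cC : ℝ) ≤ 2 ^ cC := by exact_mod_cast Nat.lt_two_pow_self.le
  have h6 : (H : ℝ) ≤ 2 ^ (8 * (cC + 1) * (m + 1)) := by exact_mod_cast N.hH2.le
  calc (cC : ℝ) * (((n : ℝ) + 1) * (J + 1)) ^ 2 ≤ 2 ^ cC * ((2 * H) * (2 * H)) ^ 2 := by gcongr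
    _ = 2 ^ cC * 2 ^ 4 * (H : ℝ) ^ 4 := by ring
    _ ≤ 2 ^ cC * 2 ^ 4 * ((2 : ℝ) ^ (8 * (cC + 1) * (m + 1))) ^ 4 := by gcongr
    _ = 2 ^ (cC + 4 + 32 * (cC + 1) * (m + 1)) := by
        rw [← pow_mul, ← pow_add, ← pow_add]
        congr 1
        ring
    _ ≤ 2 ^ κ := by
        refine pow_le_pow_right₀ (by norm_num) ?_
        rw [N.hκ]
        omega

/-- **the loss in Case A** -/
theorem loss {b wcv : ℝ} (hb : b = θ * J / 4) (hw : wcv = wc d J m) :
    d * (W : ℝ) * Real.log 2 - τ * H ≤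
      d * (m * n) * Real.log 2 - cC * (n + m * n * ε + m * n / M + M * p) -
        (2 : ℝ) ^ (cC * m) * (Real.sqrt (n * (M * p * p)) + n * Real.sqrt (M * p / b)) - wcv := by
  have hH := N.Hpos
  have hd := N.dR
  have hm := N.mR
  have hM := N.MR
  have hC1 := N.C1R
  have hCp := N.CpR
  have hcC : (0 : ℝ) ≤ cC := Nat.cast_nonneg _
  have hcC1 : (cC : ℝ) ≤ C1 := by rw [N.hC1]; linarith
  have hn0 : (0 : ℝ) ≤ n := Nat.cast_nonneg _
  have hlog0 : 0 ≤ Real.log 2 := Real.log_nonneg (by norm_num)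
  have hlog1 : Real.log 2 ≤ 1 := by
    have := Real.log_le_sub_one_of_pos (show (0 : ℝ) < 2 by norm_num)
    linarith
  have hs := N.hs
  have hτ := N.hτ
  -- main term
  have a1 : d * (W : ℝ) * Real.log 2 - τ * H / 8 ≤ d * (m * n) * Real.log 2 := by
    have h1 := N.n2
    have h2 : d * ((W : ℝ) - 8 * Cp * s * H) * Real.log 2 ≤ d * (m * n) * Real.log 2 := by gcongr
    have h3 : d * (8 * Cp * s * H) * Real.log 2 ≤ τ * H / 8 := by
      calc d * (8 * Cp * s * H) * Real.log 2 ≤ d * (8 * Cp * s * H) * 1 := by gcongr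
        _ = (64 * d * Cp * s) * H / 8 := by ring
        _ ≤ τ * H / 8 := by
            have := N.hsτ
            gcongr
    linarith
  -- `c n`
  have a2 : (cC : ℝ) * n ≤ τ * H / 16 := by
    have h1 : 16 * C1 ≤ τ * m := N.hX6.trans (mul_le_mul_of_nonneg_left N.hmX hτ.le)
    calc (cC : ℝ) * n ≤ C1 * n := by gcongr
      _ = (16 * C1) * n / 16 := by ring
      _ ≤ (τ * m) * n / 16 := by gcongr
      _ = τ * (m * n) / 16 := by ring
      _ ≤ τ * H / 16 := by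
          have := N.n3
          gcongr
  have a3 : (cC : ℝ) * (m * n * ε) ≤ τ * H / 16 := by
    have hε := N.hε
    calc (cC : ℝ) * (m * n * ε) ≤ C1 * (H * ε) := by
          have := N.n3
          gcongr
      _ = (16 * C1 * ε) * H / 16 := by ring
      _ ≤ τ * H / 16 := by
          have := N.hετ
          gcongr
  have a4 : (cC : ℝ) * (m * n / M) ≤ τ * H / 16 := by
    calc (cC : ℝ) * (m * n / M) ≤ C1 * (H / M) := by
          have := N.n3
          gcongr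
      _ = (16 * C1) * H / (16 * M) := by field_simp
      _ ≤ (τ * M) * H / (16 * M) := by
          have := N.hM
          gcongr
      _ = τ * H / 16 := by field_simp
  have a5 : (cC : ℝ) * (M * p) ≤ τ * H / 16 := by
    have h1 := N.pCp
    have h2 := N.hX3
    calc (cC : ℝ) * (M * p) ≤ C1 * (M * (Cp * m)) := by gcongr
      _ = (16 * C1 * M * Cp) * m / 16 := by ring
      _ ≤ (τ * X0) * m / 16 := by gcongr
      _ = τ * (m * X0) / 16 := by ring
      _ ≤ τ * H / 16 := by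
          have := N.mX0
          gcongr
  -- square roots
  set x : ℝ := (2 : ℝ) ^ ((cC + 1) * m) with hx
  have hx1 : 1 ≤ x := N.x1
  set y := Real.sqrt H with hy
  have hy2 : y ^ 2 = H := Real.sq_sqrt hH.le
  have hxy : x ^ 4 ≤ y := by
    rw [hy]
    refine Real.le_sqrt_of_sq_le ?_
    rw [← pow_mul]
    exact N.xH
  have a6 : x * Real.sqrt (n * (M * p * p)) ≤ τ / 16 * H :=
    sqrt_one hx1 (Real.sqrt_nonneg _) hy2 hxy hn0 N.nH hM (Nat.cast_nonneg _) N.pCp N.mx (by linarith)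
      hτ (N.hX4.trans (N.hmX.trans N.mx))
  have a7 : x * (n * Real.sqrt (M * p / b)) ≤ τ / 16 * H := by
    refine sqrt_two hx1 (Real.sqrt_nonneg _) hy2 hxy hn0 ?_ hM (Nat.cast_nonneg _) N.pCp (by linarith)
      (by linarith) hτ N.hθ hs ?_ (N.hX5.trans (N.hmX.trans N.mx))
    · rw [mul_comm]
      exact N.n3
    · rw [hb, div_le_iff₀ (by linarith)]
      have h1 := N.J3
      have hθ := N.hθ
      calc θ * s * H = θ * 2 * (s * H / 2) := by ring
        _ ≤ θ * 2 * (J * m) := by gcongr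
        _ = θ * J / 4 * (8 * m) := by ring
  have a8 : (2 : ℝ) ^ (cC * m) ≤ x := by
    rw [hx]
    refine pow_le_pow_right₀ (by norm_num) ?_
    gcongr
    omega
  have a9 : (2 : ℝ) ^ (cC * m) * (Real.sqrt (n * (M * p * p)) + n * Real.sqrt (M * p / b)) ≤
      τ / 16 * H + τ / 16 * H := by
    calc (2 : ℝ) ^ (cC * m) * (Real.sqrt (n * (M * p * p)) + n * Real.sqrt (M * p / b))
        ≤ x * (Real.sqrt (n * (M * p * p)) + n * Real.sqrt (M * p / b)) := by gcongr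
      _ = x * Real.sqrt (n * (M * p * p)) + x * (n * Real.sqrt (M * p / b)) := by ring
      _ ≤ _ := add_le_add a6 a7
  have a10 : wcv ≤ τ * H / 16 := by
    rw [hw]
    refine N.wcle.trans ?_
    calc 4 * d * s * H = (64 * d * 1 * s) * H / 16 := by ring
      _ ≤ (64 * d * Cp * s) * H / 16 := by gcongr
      _ ≤ τ * H / 16 := by
          have := N.hsτ
          gcongr
  have e : (cC : ℝ) * (n + m * n * ε + m * n / M + M * p) =
      cC * n + cC * (m * n * ε) + cC * (m * n / M) + cC * (M * p) := by ring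
  rw [e]
  have hτH : 0 < τ * H := by positivity
  linarith

end Num

end Vale.Agent.P106.U.H495
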