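import Vale.Agent.P106.U.H495.CaseA

/-!
# P106 / U / H495 : the dichotomy with explicit parameters (helper495)
-/

set_option autoImplicit false

namespace Vale.Agent.P106.U.H495

open Finset Vale.Agent.P127 Vale.Agent.P127.Stk Vale.Agent.P127.U.CellD Vale.Agent.P127.U.Mic
open Vale.Agent.P106.U.EndA

/-- `PWord d` with the constant `c` -/
def PWordC (d : ℕ) (c : ℝ) : Prop := ∀ {Ω : Type} [Fintype Ω] {ζ : Type} (P : Law Ω)
    (Z : Ω → ζ) (Q : Ω → Fin d → ℝ) (m p : ℕ) (thr : ℝ),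
    (∀ ω, 0 < P.w ω → ∀ l, |Q ω l| ≤ 1) → 0 < thr → thr ≤ 1 →
    ∃ w : ℕ → Ω → Sta d, IsWd m p Q w ∧ Hvy P Z Q m p w thr ∧
      (∀ j, Fn P (w j) (fun ω => (Z ω, Q ω))) ∧
      ∀ j, hc P (w (j + 1)) (fun ω => (Z ω, w j ω)) ≤
        Real.log (1 / thr + 1) + c + d * p * Real.log 2 * prE P (iso w j)

theorem pwordC (d : ℕ) : ∃ c : ℝ, 0 ≤ c ∧ PWordC d c := word d

variable {d : ℕ} {Ω : Type} [Fintype Ω] {α ξ : Type}

theorem csupp {V : Type*} (P : Law Ω) (C : Ω → V) (z : V) {ω : Ω} (h : 0 < (P.cond C z).w ω) :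
    0 < P.w ω := by
  classical
  rcases (P.pr_nonneg C z).eq_or_lt with h0 | h0
  · have h1 : P.cond C z = P := by
      unfold Law.cond
      rw [dif_neg (by rw [← h0]; exact lt_irrefl 0)]
    rwa [h1] at h
  · rw [P.cond_w C z h0] at h
    split_ifs at h with h2
    · by_contra hcon
      have h3 : P.w ω = 0 := le_antisymm (not_lt.1 hcon) (P.nn ω)
      rw [h3, zero_div] at h
      exact lt_irrefl _ h
    · exact absurd h (lt_irrefl 0)

theorem csupp' {V : Type*} (P : Law Ω) (C : Ω → V) (z : V) (hz : 0 < P.pr C z) {ω : Ω}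
    (h : 0 < (P.cond C z).w ω) : C ω = z := by
  classical
  rw [P.cond_w C z hz] at h
  split_ifs at h with h2
  · exact h2
  · exact absurd h (lt_irrefl 0)

/-- entropy of the pattern -/
theorem hc_pat (P : Law Ω) (w : ℕ → Ω → Sta d) (J : ℕ) :
    Stk.hc P (pat w J) (fun _ => ()) ≤ J * Real.log 2 := by
  classical
  have h := Stk.hc_le_log P (pat w J) (fun _ => ()) (2 ^ J) ?_
  · refine h.trans (le_of_eq ?_)
    push_cast
    rw [Real.log_pow]
  · intro ω _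
    refine ⟨(range J).powerset, by rw [card_powerset, card_range], fun ω' _ _ => ?_⟩
    rw [mem_powerset]
    unfold pat
    exact filter_subset _ _

/-- **the dichotomy with explicit parameters** -/
theorem dich_fin {cC : ℕ} (hcore : PCoreC d cC) {cA : ℝ} (hact : PActC cA) {cW : ℝ} (hword : PWordC d cW)
    (hd : 1 ≤ d) {cN ct c1 Ka : ℝ} (P0 P : Law Ω) (X Q : Ω → Fin d → ℝ) (t : Ω → ℝ) (A : Ω → α)
    (l : Ω → ξ) (df Ψ : Law Ω → ℝ) (ν : ℝ) (H a0 h : ℕ)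
    (hsup : ∀ ω, 0 < P.w ω → 0 < P0.w ω) (hdh : DhOk P X Q t A l a0)
    (hdf : DfOk P0 l t H cN ct c1 Ka ν df) (hΨ : PsOk P0 Ψ)
    (m p κ n J M : ℕ) {thr ε θ b : ℝ} (hcN : 0 ≤ cN) (hct : 0 < ct) (hc1 : 0 < c1)
    (hm : 1 ≤ m) (hJ : 1 ≤ J) (hcp : cC * m + κ ≤ p) (hmd : m + d ≤ p) (hmκ : m ≤ κ) (hM : 1 ≤ M)
    (ha0 : κ + cC * J + cC ≤ a0) (hh : a0 + m * n + (J + 1) * (p + cC) ≤ h) (hhH : h ≤ H)
    (hthr : 0 < thr) (hthr1 : thr ≤ 1) (hε : 12 * thr < ε) (hθ : 0 < θ)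
    (hκ2 : cC * (((n : ℝ) + 1) * (J + 1)) ^ 2 ≤ (2 : ℝ) ^ κ)
    (hb : 0 < b) (hΛ : 0 < ε / 2 * Real.log (ε / 2 / (6 * thr)) - 1)
    (hbK : b * (ε / 2 * Real.log (ε / 2 / (6 * thr)) - 1) + Real.log (4 / θ * 2 ^ J) ≤
      θ / 2 * J * (ε / 2 * Real.log (ε / 2 / (6 * thr)) - 1))
    (hDn : (8 / θ * (df P + cN * (J * Real.log 2) + 2 * ν) + Ka * n) / (c1 * m) +
      n * (2 : ℝ) ^ (-(ct * m / 2)) + (wc d J m + cA * n) / (ct * m / 2 * Real.log 2) ≤ ε * n) :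
    (∃ P' : Law Ω, (∀ ω, 0 < P'.w ω → 0 < P.w ω) ∧
      df P' + ν ≤ 8 / θ * (df P + cN * (J * Real.log 2) + 2 * ν) ∧ Ψ P' ≤ 8 / θ * Ψ P ∧
      d * (m * n) * Real.log 2 - cC * (n + m * n * ε + m * n / M + M * p) -
        (2 : ℝ) ^ (cC * m) * (Real.sqrt (n * (M * p * p)) + n * Real.sqrt (M * p / b)) - wc d J m ≤
        Stk.mi P' (fun ω => (X ω, Q ω)) (Zhd X Q t h) (fun ω => (A ω, fl1 a0 (t ω)))) ∨
    (∃ (G : Ω → Sta d) (π : Sta d → Fin d → ℝ) (o : Sta d → ℝ),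
      Stk.Fn P G (fun ω => ((Zhd X Q t h ω, A ω), Q ω)) ∧
      Stk.hc P G (fun ω => (Zhd X Q t h ω, A ω)) ≤
        J * (Real.log (1 / thr + 1) + cW) + d * p * Real.log 2 * (θ * J) ∧
      Stk.hc P G Q ≤ wc d J m ∧
      ∀ ω, 0 < P.w ω → (∀ k, |π (G ω) k| ≤ 1) ∧ (∃ k, |π (G ω) k| = 1) ∧
        |∑ k, π (G ω) k * Q ω k - o (G ω)| ≤ d * (2 : ℝ) ^ (-((m * J : ℕ) : ℝ) / d)) := by
  classical
  have hlog2 : 0 ≤ Real.log 2 := Real.log_nonneg (by norm_num)
  obtain ⟨w, hwd, hvy, hfn, hstep⟩ := hword P (fun ω => (Zhd X Q t h ω, A ω)) Q m p thr hdh.Q1 hthr hthr1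
  by_cases hcase : θ * J ≤ ∑ j ∈ range J, prE P (iso w j)
  · -- many isotropic steps
    left
    have hpat := H11.ppat P w J θ hJ hθ hcase
    set e : Ω → Finset ℕ := pat w J with he
    set a1 : ℝ := df P + cN * (J * Real.log 2) + 2 * ν with ha1
    have hdomc : ∀ z, ∀ ω, 0 < (P.cond e z).w ω → 0 < P0.w ω :=
      fun z ω hω => hsup ω (csupp P e z hω)
    have hsum1 : ∑ z ∈ img e, P.pr e z * (df (P.cond e z) + ν) ≤ a1 := by
      have h1 := hdf.mix P hsup (Finset ℕ) e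
      have h2 : cN * Stk.hc P e (fun _ => ()) ≤ cN * (J * Real.log 2) :=
        mul_le_mul_of_nonneg_left (hc_pat P w J) hcN
      have h3 : ∑ z ∈ img e, P.pr e z * (df (P.cond e z) + ν) =
          ∑ z ∈ img e, P.pr e z * df (P.cond e z) + ν := by
        simp only [mul_add]
        rw [Finset.sum_add_distrib, ← Finset.sum_mul, P.sum_pr_image, one_mul]
      rw [h3, ha1]
      linarith
    have hsum2 : ∑ z ∈ img e, P.pr e z * Ψ (P.cond e z) ≤ Ψ P := hΨ.mix P hsup (Finset ℕ) e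
    obtain ⟨ω0, hω0, ⟨hg1, hg2⟩, hs1, hs2⟩ := sel2 P e _ (by positivity : 0 < θ / 4) hpat
      (fun z => df (P.cond e z) + ν) (fun z => Ψ (P.cond e z))
      (fun ω _ => by have := hdf.low (P.cond e (e ω)) (hdomc _); linarith)
      (fun ω _ => hΨ.nn (P.cond e (e ω)) (hdomc _)) hsum1 hsum2
    set z0 := e ω0 with hz0
    set P' := P.cond e z0 with hP'
    have hpr : 0 < P.pr e z0 := P.pr_pos e hω0
    have hsub : ∀ ω, 0 < P'.w ω → 0 < P.w ω := fun ω hω => csupp P e z0 hω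
    have hval : ∀ ω, 0 < P'.w ω → e ω = z0 := fun ω hω =>
      csupp' P e z0 hpr hω
    have e1 : 2 * a1 / (θ / 4) = 8 / θ * a1 := by field_simp; ring
    have e2 : 2 * Ψ P / (θ / 4) = 8 / θ * Ψ P := by field_simp; ring
    rw [e1] at hs1
    rw [e2] at hs2
    refine ⟨P', hsub, hs1, hs2, ?_⟩
    -- the system
    set S : Sy d Ω α := { X := X, Q := Q, t := t, A := A, w := w, m := m, p := p, κ := κ, a0 := a0 } with hS
    have hN : S.Nrm P' :=
      ⟨fun ω hω => hdh.Q1 ω (hsub ω hω), fun ω hω => hdh.t0 ω (hsub ω hω),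
        fun ω hω => hdh.t1 ω (hsub ω hω), hwd⟩
    have hray : Fn P' S.ray l := fun ω ω' p1 p2 e => hdh.ray ω ω' (hsub ω p1) (hsub ω' p2) e
    have hside : Fn P' S.A (fun ω => (l ω, S.T 0 ω)) := by
      intro ω ω' p1 p2 e
      exact hdh.side ω ω' (hsub ω p1) (hsub ω' p2) e
    have hdom : ∀ ω, P.pr e z0 * P'.w ω ≤ P.w ω := by
      intro ω
      rw [hP', P.cond_w e z0 hpr]
      split_ifs
      · rw [mul_div_cancel₀ _ hpr.ne']
      · rw [mul_zero]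
        exact P.nn ω
    have hK : ∀ j ∈ z0, j < J := by
      intro j hj
      rw [hz0, he] at hj
      unfold pat at hj
      exact mem_range.1 (mem_filter.1 hj).1
    have hiso : ∀ j ∈ z0, ∀ ω, 0 < P'.w ω → iso S.w j ω := by
      intro j hj ω hω
      rw [← hval ω hω, he] at hj
      unfold pat at hj
      exact (mem_filter.1 hj).2
    have hlogp : Real.log (1 / P.pr e z0) ≤ Real.log (4 / θ * 2 ^ J) := by
      refine Real.log_le_log (by positivity) ?_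
      rw [div_le_iff₀ hpr]
      have h3 : θ / 4 / 2 ^ J ≤ P.pr e z0 := hg2
      calc (1 : ℝ) = 4 / θ * 2 ^ J * (θ / 4 / 2 ^ J) := by field_simp
        _ ≤ 4 / θ * 2 ^ J * P.pr e z0 := mul_le_mul_of_nonneg_left h3 (by positivity)
    have hact' : ∑ i ∈ range n, prE P' (fun ω => (2 : ℝ) ^ (-(ct * S.m)) <
        cq P' (S.T (i + 1)) (fun ω => (l ω, S.T i ω)) (S.T (i + 1) ω) (l ω, S.T i ω)) ≤
        (8 / θ * a1 + Ka * n) / (c1 * m) := by
      have h1 := hdf.act P' (fun ω hω => hsup ω (hsub ω hω)) m a0 n hm (by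
        have : m * n ≤ m * n := le_rfl
        omega)
      refine h1.trans ?_
      refine div_le_div_of_nonneg_right ?_ (by positivity)
      linarith
    exact caseA hcore hact P P' hpr hdom S l n J h M z0 hN hray hside hK hiso hvy hm hcp hmd hmκ hM
      ha0 hh hthr hε hct hκ2 hb hΛ
      (by
        have h5 : θ / 2 * J * (ε / 2 * Real.log (ε / 2 / (6 * thr)) - 1) ≤
            (z0.card : ℝ) * (ε / 2 * Real.log (ε / 2 / (6 * thr)) - 1) :=
          mul_le_mul_of_nonneg_right hg1 hΛ.le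
        linarith) hact' hDn
  · -- the slab
    right
    push Not at hcase
    obtain ⟨π, hπ1, hπ2⟩ := pcov d m p J (by omega) hd
    refine ⟨w J, fun s => (π s).1, fun s => (π s).2, hfn J, ?_, pWcr d P Q m p w hwd J, ?_⟩
    · have h1 := hc_word P (fun ω => (Zhd X Q t h ω, A ω)) hwd (Real.log (1 / thr + 1) + cW)
        (d * p * Real.log 2) hstep J
      refine h1.trans ?_
      have h2 : (d * p * Real.log 2) * ∑ j ∈ range J, prE P (iso w j) ≤
          d * p * Real.log 2 * (θ * J) :=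
        mul_le_mul_of_nonneg_left hcase.le (by positivity)
      linarith
    · intro ω hω
      exact ⟨(hπ1 _).1, (hπ1 _).2, hπ2 Q w hwd ω (hdh.Q1 ω hω)⟩

end Vale.Agent.P106.U.H495
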