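import Vale.Agent.P106.U.H495.DichD

/-!
# P106 / U / H495 : `PDich d` from `PCore d` (helper495)
-/

set_option autoImplicit false

namespace Vale.Agent.P106.U.H495

open Finset Vale.Agent.P127 Vale.Agent.P127.Stk Vale.Agent.P127.U.CellD Vale.Agent.P127.U.Mic
open Vale.Agent.P106.U.EndA

namespace Num

variable {d cC m κ p J n M H W : ℕ} {s τ ε θ C1 Cp X0 : ℝ} (N : Num d cC m κ p J n M H W s τ ε θ C1 Cp X0)

include N

/-- the activity bound -/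
theorem actn {ct c1 Ka cA D : ℝ} (hct : 0 < ct) (hc1 : 0 < c1)
    (hD : D ≤ ε * c1 * τ / (10 * d) * H) (hKam : 5 * Ka ≤ c1 * ε * m) (h20 : 20 ≤ ct * ε * m)
    (hcAm : 20 * cA ≤ ct * ε * m) (hs160 : 160 * (d : ℝ) ^ 2 * s ≤ ε * ct * τ) :
    (D + Ka * n) / (c1 * m) + n * (2 : ℝ) ^ (-(ct * m / 2)) +
      (wc d J m + cA * n) / (ct * m / 2 * Real.log 2) ≤ ε * n := by
  have hm := N.mR
  have hm0 : (0 : ℝ) < m := by linarith
  have hd := N.dR
  have hH := N.Hpos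
  have hε := N.hε
  have hn0 : (0 : ℝ) ≤ n := Nat.cast_nonneg _
  have hn4 := N.n4
  have hτ := N.hτ
  have hl1 : (1 : ℝ) / 2 ≤ Real.log 2 := by
    have := Real.log_two_gt_d9
    linarith
  have hl0 : 0 < Real.log 2 := by linarith
  have t1 : (D + Ka * n) / (c1 * m) ≤ 2 * (ε / 5 * n) := by
    rw [div_le_iff₀ (by positivity)]
    have e1 : D ≤ ε / 5 * n * (c1 * m) := by
      calc D ≤ ε * c1 * τ / (10 * d) * H := hD
        _ = ε / 5 * c1 * (τ * H / (2 * d)) := by ring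
        _ ≤ ε / 5 * c1 * (m * n) := by gcongr
        _ = ε / 5 * n * (c1 * m) := by ring
    have e2 : Ka * n ≤ ε / 5 * n * (c1 * m) := by
      calc Ka * n = (5 * Ka) * n / 5 := by ring
        _ ≤ (c1 * ε * m) * n / 5 := by gcongr
        _ = ε / 5 * n * (c1 * m) := by ring
    linarith
  have t2 : n * (2 : ℝ) ^ (-(ct * m / 2)) ≤ ε / 5 * n := by
    have hy : 0 < ct * m / 2 := by positivity
    have h1 : ct * m / 4 ≤ (2 : ℝ) ^ (ct * m / 2) := by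
      rw [Real.rpow_def_of_pos (by norm_num)]
      have h2 := Real.add_one_le_exp (Real.log 2 * (ct * m / 2))
      have h3 : 1 / 2 * (ct * m / 2) ≤ Real.log 2 * (ct * m / 2) := by gcongr
      linarith
    have h2 : (2 : ℝ) ^ (-(ct * m / 2)) ≤ ε / 5 := by
      rw [Real.rpow_neg (by norm_num)]
      rw [inv_le_comm₀ (by positivity) (by positivity)]
      refine le_trans ?_ h1
      rw [inv_div, div_le_iff₀ hε]
      linarith
    calc n * (2 : ℝ) ^ (-(ct * m / 2)) ≤ n * (ε / 5) := by gcongr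
      _ = ε / 5 * n := by ring
  have t3 : (wc d J m + cA * n) / (ct * m / 2 * Real.log 2) ≤ 2 * (ε / 5 * n) := by
    rw [div_le_iff₀ (by positivity)]
    have e0 : ct * m / 4 ≤ ct * m / 2 * Real.log 2 := by
      calc ct * m / 4 = ct * m / 2 * (1 / 2) := by ring
        _ ≤ ct * m / 2 * Real.log 2 := by gcongr
    have e1 : wc d J m ≤ ε / 5 * n * (ct * m / 4) := by
      refine N.wcle.trans ?_
      calc 4 * d * s * H = (160 * (d : ℝ) ^ 2 * s) * (H / (40 * d)) := by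
            field_simp
            ring
        _ ≤ (ε * ct * τ) * (H / (40 * d)) := by gcongr
        _ = ε / 20 * ct * (τ * H / (2 * d)) := by
            field_simp
            ring
        _ ≤ ε / 20 * ct * (m * n) := by gcongr
        _ = ε / 5 * n * (ct * m / 4) := by ring
    have e2 : cA * n ≤ ε / 5 * n * (ct * m / 4) := by
      calc cA * n = (20 * cA) * n / 20 := by ring
        _ ≤ (ct * ε * m) * n / 20 := by gcongr
        _ = ε / 5 * n * (ct * m / 4) := by ring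
    have e3 : ε / 5 * n * (ct * m / 4) ≤ ε / 5 * n * (ct * m / 2 * Real.log 2) := by gcongr
    linarith
  linarith

end Num

/-- the constants of the dichotomy -/
structure Cst (d cC M : ℕ) (cA cW cN ct c1 Ka τ s ρ θ τ2 η thr ε C1 Cp X0 : ℝ) : Prop where
  hd : 1 ≤ d
  hC1 : C1 = cC + 1
  hCp : Cp = 70 * C1 + d
  hs : 0 < s
  hs1 : s ≤ 1
  hsτ : 64 * d * Cp * s ≤ τ
  hs160 : 160 * (d : ℝ) ^ 2 * s ≤ ε * ct * τ
  hτ : 0 < τ
  hθ : 0 < θ
  hθ1 : θ ≤ 1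
  hε : 0 < ε
  hετ : 16 * C1 * ε ≤ τ
  hcN : 0 ≤ cN
  hct : 0 < ct
  hc1 : 0 < c1
  hρ : 0 < ρ
  hθρ : 2 * d * Cp * θ ≤ ρ
  hτ20 : 0 < τ2
  hτ2a : τ2 ≤ ε * c1 * τ / (10 * d)
  hτ2b : τ2 ≤ τ / 2
  hη1 : η ≤ τ2 * θ / 48
  hη2 : η ≤ τ / 2
  hthr0 : 0 < thr
  hthr12 : 12 * thr < ε
  hthr1 : thr ≤ 1
  hΛ : ε / 2 * Real.log (ε / 2 / (6 * thr)) - 1 = 8 / θ
  hM1 : 1 ≤ M
  hMτ : 16 * C1 ≤ τ * M
  hl : 0 ≤ Real.log (1 / thr + 1) + cW
  x1 : 1 ≤ X0
  x2 : 2 + 2 * d + 2 * (d : ℝ) ^ 2 + 8 / θ ≤ X0 * s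
  x3 : 16 * C1 * M * Cp ≤ τ * X0
  x4 : 16 * Cp * M / τ ≤ X0
  x5 : 16 * (1 + 8 * M * Cp / (θ * s)) / τ ≤ X0
  x6 : 16 * C1 ≤ τ * X0
  x7 : 2 * (Real.log (1 / thr + 1) + cW) ≤ X0 * ρ
  x8 : 5 * Ka ≤ X0 * (c1 * ε)
  x9 : 20 ≤ X0 * (ct * ε)
  x10 : 20 * cA ≤ X0 * (ct * ε)
  x11 : 16 * cN ≤ X0 * (θ * τ2)

theorem log2_le_one : Real.log 2 ≤ 1 := by
  have := Real.log_le_sub_one_of_pos (show (0 : ℝ) < 2 by norm_num)
  linarith

theorem log2_nonneg : 0 ≤ Real.log 2 := Real.log_nonneg (by norm_num)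

namespace Cst

variable {d cC M : ℕ} {cA cW cN ct c1 Ka τ s ρ θ τ2 η thr ε C1 Cp X0 : ℝ}
  (K : Cst d cC M cA cW cN ct c1 Ka τ s ρ θ τ2 η thr ε C1 Cp X0)

include K

theorem num {H W m : ℕ} (hmX : X0 ≤ m) (hW : τ * H < d * W * Real.log 2) (hWH : W ≤ H)
    (hH1 : 2 ^ (8 * (cC + 1) * m) ≤ H) (hH2 : H < 2 ^ (8 * (cC + 1) * (m + 1))) :
    Num d cC m (cC + 4 + d + 32 * (cC + 1) * (m + 1))
      ((cC + 1) * m + (cC + 4 + d + 32 * (cC + 1) * (m + 1))) ⌊s * H / m⌋₊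
      ((W - (⌊s * H / m⌋₊ + 1) *
        (((cC + 1) * m + (cC + 4 + d + 32 * (cC + 1) * (m + 1))) + cC)) / m) M H W
      s τ ε θ C1 Cp X0 where
  hd := K.hd
  hC1 := K.hC1
  hCp := K.hCp
  hs := K.hs
  hs1 := K.hs1
  hsτ := K.hsτ
  hτ := K.hτ
  hθ := K.hθ
  hε := K.hε
  hετ := K.hετ
  hm := by
    have h1 := K.x1.trans hmX
    exact_mod_cast h1
  hmX := hmX
  hX1 := K.x1
  hX2 := K.x2
  hX3 := K.x3
  hX4 := K.x4
  hX5 := K.x5
  hX6 := K.x6
  hM := K.hMτ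
  hM1 := K.hM1
  hκ := rfl
  hp := rfl
  hJ := rfl
  hn := rfl
  hW := hW.trans_le (mul_le_of_le_one_right (by positivity) log2_le_one)
  hWH := hWH
  hH1 := hH1
  hH2 := hH2

/-- the defect of the conditioned law -/
theorem defect {H J m : ℕ} {D ν : ℝ} (hmX : X0 ≤ m) (hJ : (J : ℝ) * m ≤ H) (hD : D ≤ η * H)
    (hν : ν ≤ η * H) : 8 / θ * (D + cN * (J * Real.log 2) + 2 * ν) ≤ τ2 * H := by
  have hH0 : (0 : ℝ) ≤ H := Nat.cast_nonneg _
  have hθ := K.hθ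
  have hτ2 := K.hτ20
  have hcN := K.hcN
  have h1 : cN * (J * Real.log 2) ≤ τ2 * θ / 16 * H := by
    have h2 : 16 * cN ≤ m * (θ * τ2) := K.x11.trans (by gcongr)
    calc cN * (J * Real.log 2) ≤ cN * (J * 1) := by
          have := log2_le_one
          gcongr
      _ = (16 * cN) * J / 16 := by ring
      _ ≤ (m * (θ * τ2)) * J / 16 := by gcongr
      _ = τ2 * θ / 16 * (J * m) := by ring
      _ ≤ τ2 * θ / 16 * H := by gcongr
  have h2 : D + 2 * ν ≤ τ2 * θ / 16 * H := by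
    calc D + 2 * ν ≤ 3 * (η * H) := by linarith
      _ ≤ 3 * (τ2 * θ / 48 * H) := by
          have := K.hη1
          gcongr
      _ = τ2 * θ / 16 * H := by ring
  have h3 : D + cN * (J * Real.log 2) + 2 * ν ≤ τ2 * θ / 16 * H + τ2 * θ / 16 * H := by linarith
  calc 8 / θ * (D + cN * (J * Real.log 2) + 2 * ν) ≤
        8 / θ * (τ2 * θ / 16 * H + τ2 * θ / 16 * H) :=
          mul_le_mul_of_nonneg_left h3 (by positivity)
    _ = τ2 * H := by
          field_simp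
          ring

/-- the weight of the pattern -/
theorem logp {J : ℕ} (hJ : 4 / θ ≤ J) :
    θ * J / 4 * (ε / 2 * Real.log (ε / 2 / (6 * thr)) - 1) + Real.log (4 / θ * 2 ^ J) ≤
      θ / 2 * J * (ε / 2 * Real.log (ε / 2 / (6 * thr)) - 1) := by
  have hθ := K.hθ
  rw [K.hΛ]
  have h1 : Real.log (4 / θ * 2 ^ J) ≤ J + J := by
    rw [Real.log_mul (by positivity) (by positivity), Real.log_pow]
    have h2 : Real.log (4 / θ) ≤ 4 / θ := by
      have := Real.log_le_sub_one_of_pos (show (0 : ℝ) < 4 / θ by positivity)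
      linarith
    have h3 : (J : ℝ) * Real.log 2 ≤ J * 1 := by
      have := log2_le_one
      gcongr
    linarith
  have h2 : θ * J / 4 * (8 / θ) = 2 * J := by
    field_simp
    ring
  have h3 : θ / 2 * J * (8 / θ) = 4 * J := by
    field_simp
    ring
  rw [h2, h3]
  linarith

/-- the entropy of the state -/
theorem entB {H J m p : ℕ} (hmX : X0 ≤ m) (hJ : (J : ℝ) * m ≤ H) (hp : (p : ℝ) ≤ Cp * m) :
    J * (Real.log (1 / thr + 1) + cW) + d * p * Real.log 2 * (θ * J) ≤ ρ * H := by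
  have hρ := K.hρ
  have hθ := K.hθ
  have h5 : (J : ℝ) * (Real.log (1 / thr + 1) + cW) ≤ ρ / 2 * H := by
    have h6 : 2 * (Real.log (1 / thr + 1) + cW) ≤ m * ρ := K.x7.trans (by gcongr)
    calc (J : ℝ) * (Real.log (1 / thr + 1) + cW) =
          J * (2 * (Real.log (1 / thr + 1) + cW)) / 2 := by ring
      _ ≤ J * (m * ρ) / 2 := by gcongr
      _ = ρ / 2 * (J * m) := by ring
      _ ≤ ρ / 2 * H := by gcongr
  have h6 : d * p * Real.log 2 * (θ * J) ≤ ρ / 2 * H := by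
    have h7 := K.hθρ
    have h8 : 0 ≤ Cp * m := le_trans (Nat.cast_nonneg p) hp
    calc d * p * Real.log 2 * (θ * J) ≤ d * (Cp * m) * 1 * (θ * J) := by
          have := log2_le_one
          have := log2_nonneg
          gcongr
      _ = (2 * d * Cp * θ) / 2 * (J * m) := by ring
      _ ≤ ρ / 2 * H := by gcongr
  linarith

end Cst

namespace Num

variable {d cC m κ p J n M H W : ℕ} {s τ ε θ C1 Cp X0 : ℝ} (N : Num d cC m κ p J n M H W s τ ε θ C1 Cp X0)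

include N

theorem JmH : (J : ℝ) * m ≤ H := by
  have h1 := N.J1
  have h2 := N.hs1
  have h3 := N.Hpos
  nlinarith

theorem Rκ : κ + cC * J + cC ≤ (J + 1) * (p + cC) := by
  have h1 : κ ≤ p := by
    rw [N.hp]
    omega
  calc κ + cC * J + cC ≤ p + cC * (J + 1) := by
        have : cC * (J + 1) = cC * J + cC := by ring
        omega
    _ ≤ p * (J + 1) + cC * (J + 1) := by
        have : p ≤ p * (J + 1) := Nat.le_mul_of_pos_right _ (by omega)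
        omega
    _ = (J + 1) * (p + cC) := by ring

theorem Ra {a0 : ℕ} (h : τ * H ≤ a0) : (J + 1) * (p + cC) ≤ a0 := by
  have h1 := N.Rle
  have h2 := N.Rτ
  have h5 := N.Hpos
  have h6 := N.hτ
  have h7 := N.dR
  have h3 : τ * H / (16 * d) ≤ τ * H := by
    refine div_le_self (by positivity) ?_
    linarith
  have h4 : (((J + 1) * (p + cC) : ℕ) : ℝ) ≤ a0 := by linarith
  exact_mod_cast h4

theorem mκ : m ≤ κ := by
  rw [N.hκ]
  have h1 : m ≤ 32 * (cC + 1) * (m + 1) := by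
    calc m ≤ m + 1 := Nat.le_succ _
      _ ≤ 32 * (cC + 1) * (m + 1) := Nat.le_mul_of_pos_left _ (by omega)
  omega

theorem cp : cC * m + κ ≤ p := by
  rw [N.hp]
  have : cC * m ≤ (cC + 1) * m := Nat.mul_le_mul_right _ (Nat.le_succ _)
  omega

theorem md : m + d ≤ p := by
  rw [N.hp]
  have h1 : m ≤ (cC + 1) * m := Nat.le_mul_of_pos_left m (by omega)
  have h2 : d ≤ κ := by
    rw [N.hκ]
    omega
  omega

/-- the exponent of the slab: lower bound -/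
theorem sB1 : s / (2 * d) * H ≤ ((m * J / d - d : ℕ) : ℝ) := by
  have h5 := N.J2
  have h6 := N.sH
  have h7 : (m * J : ℕ) < d * (m * J / d + 1) := Nat.lt_mul_div_succ _ N.hd
  have h8 : m * J < d * ((m * J / d - d) + (d + 1)) := by
    refine h7.trans_le (Nat.mul_le_mul_left d ?_)
    omega
  have h9 : (m : ℝ) * J < d * (((m * J / d - d : ℕ) : ℝ) + (d + 1)) := by exact_mod_cast h8
  have h10 : (1 : ℝ) ≤ m := N.mR
  have hθ := N.hθ
  have hd := N.dR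
  have h11 : 0 < 8 / θ * m := by positivity
  have h12 : (2 * d + 2 * (d : ℝ) ^ 2) * 1 ≤ (2 * d + 2 * (d : ℝ) ^ 2) * m := by gcongr
  have e1 : s / (2 * d) * H = s * H / (2 * d) := by ring
  rw [e1, div_le_iff₀ (by positivity)]
  set v : ℝ := ((m * J / d - d : ℕ) : ℝ) with hv
  have e2 : v * (2 * d) = 2 * (d * (v + (d + 1))) - 2 * (d * (d + 1)) := by ring
  rw [e2]
  have e3 : (2 + 2 * d + 2 * (d : ℝ) ^ 2 + 8 / θ) * m =
      2 * m + (2 * d + 2 * (d : ℝ) ^ 2) * m + 8 / θ * m := by ring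
  rw [e3] at h6
  have e4 : 2 * ((d : ℝ) * (d + 1)) = (2 * d + 2 * (d : ℝ) ^ 2) * 1 := by ring
  rw [e4]
  have e5 : (J : ℝ) * m = m * J := mul_comm _ _
  rw [e5] at h5
  linarith

theorem sB2 : ((m * J / d - d : ℕ) : ℝ) ≤ τ * H := by
  have h5 := N.J1
  have h6 : ((m * J / d - d : ℕ) : ℝ) ≤ m * J := by
    have : m * J / d - d ≤ m * J := (Nat.sub_le _ _).trans (Nat.div_le_self _ _)
    exact_mod_cast this
  have h7 : s ≤ τ := by
    refine le_trans ?_ N.hsτ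
    have hd := N.dR
    have hCp := N.CpR
    have hs := N.hs
    have h8 : 1 ≤ 64 * d * Cp := by nlinarith
    calc s = 1 * s := (one_mul s).symm
      _ ≤ 64 * d * Cp * s := by gcongr
  calc ((m * J / d - d : ℕ) : ℝ) ≤ m * J := h6
    _ = J * m := mul_comm _ _
    _ ≤ s * H := h5
    _ ≤ τ * H := by
        have := N.Hpos
        gcongr

theorem sB3 : d * d ≤ m * J := by
  have h5 := N.J3
  have h6 := N.sH
  have h10 : (1 : ℝ) ≤ m := N.mR
  have hθ := N.hθ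
  have hd := N.dR
  have h13 : 0 < 8 / θ * m := by positivity
  have h12 : (2 * d + 2 * (d : ℝ) ^ 2) * 1 ≤ (2 * d + 2 * (d : ℝ) ^ 2) * m := by gcongr
  have e3 : (2 + 2 * d + 2 * (d : ℝ) ^ 2 + 8 / θ) * m =
      2 * m + (2 * d + 2 * (d : ℝ) ^ 2) * m + 8 / θ * m := by ring
  rw [e3] at h6
  have e5 : (J : ℝ) * m = m * J := mul_comm _ _
  rw [e5] at h5
  have h14 : (d : ℝ) * d ≤ m * J := by
    have : (d : ℝ) * d = (d : ℝ) ^ 2 := by ring
    rw [this]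
    linarith
  exact_mod_cast h14

theorem wcτ : wc d J m ≤ τ * H := by
  refine N.wcle.trans ?_
  have hd := N.dR
  have hCp := N.CpR
  have hs := N.hs
  have hH := N.Hpos
  calc 4 * d * s * H = (4 * d * 1) * s * H := by ring
    _ ≤ (64 * d * Cp) * s * H := by gcongr; norm_num
    _ ≤ τ * H := by
        have := N.hsτ
        gcongr

end Num

/-- the dichotomy on a long window -/
theorem dich_long {d cC M : ℕ} {cA cW cN ct c1 Ka τ s ρ θ τ2 η thr ε C1 Cp X0 : ℝ}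
    (K : Cst d cC M cA cW cN ct c1 Ka τ s ρ θ τ2 η thr ε C1 Cp X0)
    (hcore : PCoreC d cC) (hact : PActC cA) (hword : PWordC d cW)
    {Ω : Type} [Fintype Ω] {α ξ : Type} (P0 P : Law Ω) (X Q : Ω → Fin d → ℝ) (t : Ω → ℝ) (A : Ω → α)
    (l : Ω → ξ) (df Ψ : Law Ω → ℝ) (ν : ℝ) (H a0 h m : ℕ)
    (hsup : ∀ ω, 0 < P.w ω → 0 < P0.w ω) (hdh : DhOk P X Q t A l a0)
    (hdf : DfOk P0 l t H cN ct c1 Ka ν df) (hΨ : PsOk P0 Ψ) (hτa0 : τ * H ≤ a0) (ha0h : a0 ≤ h)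
    (hhH : h ≤ H) (hdfP : df P ≤ η * H) (hν : ν ≤ η * H)
    (hlong : τ * H < d * ((h : ℝ) - a0) * Real.log 2) (hmX : X0 ≤ m)
    (hH1 : 2 ^ (8 * (cC + 1) * m) ≤ H) (hH2 : H < 2 ^ (8 * (cC + 1) * (m + 1))) :
    (∃ P' : Law Ω, (∀ ω, 0 < P'.w ω → 0 < P.w ω) ∧ df P' ≤ τ * H ∧ Ψ P' ≤ Ψ P / (θ / 8) ∧
      d * ((h : ℝ) - a0) * Real.log 2 - τ * H ≤
        Stk.mi P' (fun ω => (X ω, Q ω)) (Zhd X Q t h) (fun ω => (A ω, fl1 a0 (t ω)))) ∨
    (∃ (G : Ω → Sta d) (π : Sta d → Fin d → ℝ) (o : Sta d → ℝ) (s' : ℕ), s / (2 * d) * H ≤ s' ∧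
      s' ≤ τ * H ∧ Stk.Fn P G (fun ω => ((Zhd X Q t h ω, A ω), Q ω)) ∧
      Stk.hc P G (fun ω => (Zhd X Q t h ω, A ω)) ≤ ρ * H ∧ Stk.hc P G Q ≤ τ * H ∧
      ∀ ω, 0 < P.w ω → (∀ k, |π (G ω) k| ≤ 1) ∧ (∃ k, |π (G ω) k| = 1) ∧
        |∑ k, π (G ω) k * Q ω k - o (G ω)| ≤ (1 / 2 : ℝ) ^ s') := by
  have hWc : ((h - a0 : ℕ) : ℝ) = (h : ℝ) - a0 := by
    rw [Nat.cast_sub ha0h]
  have N := K.num (H := H) (W := h - a0) (m := m) hmX (by rw [hWc]; exact hlong) (by omega) hH1 hH2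
  generalize hκ : cC + 4 + d + 32 * (cC + 1) * (m + 1) = κ at N
  generalize hp : (cC + 1) * m + κ = p at N
  generalize hJ : ⌊s * H / m⌋₊ = J at N
  generalize hn : ((h - a0) - (J + 1) * (p + cC)) / m = n at N
  have hθ := K.hθ
  have hτ := K.hτ
  have hH0 := N.Hpos
  have hn1 := N.n1
  have hRW := N.RW
  have ha1 := K.defect (H := H) (J := J) (m := m) (D := df P) (ν := ν) hmX N.JmH hdfP hν
  have hJ1 := N.Jpos
  have hJR : (0 : ℝ) < J := by exact_mod_cast hJ1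
  have hfin := dich_fin hcore hact hword N.hd P0 P X Q t A l df Ψ ν H a0 h hsup hdh hdf hΨ m p κ n J M
    (thr := thr) (ε := ε) (θ := θ) (b := θ * J / 4) K.hcN K.hct K.hc1 N.hm hJ1 N.cp N.md N.mκ N.hM1
    (N.Rκ.trans (N.Ra hτa0)) (by omega) hhH K.hthr0 K.hthr1 K.hthr12 hθ N.κ2 (by positivity)
    (by rw [K.hΛ]; positivity) (K.logp N.Jθ)
    (N.actn K.hct K.hc1 (ha1.trans (mul_le_mul_of_nonneg_right K.hτ2a hH0.le))
      (K.x8.trans (by
        have := K.hc1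
        have := K.hε
        calc X0 * (c1 * ε) ≤ m * (c1 * ε) := by gcongr
          _ = c1 * ε * m := by ring))
      (K.x9.trans (by
        have := K.hct
        have := K.hε
        calc X0 * (ct * ε) ≤ m * (ct * ε) := by gcongr
          _ = ct * ε * m := by ring))
      (K.x10.trans (by
        have := K.hct
        have := K.hε
        calc X0 * (ct * ε) ≤ m * (ct * ε) := by gcongr
          _ = ct * ε * m := by ring))
      K.hs160)
  rcases hfin with ⟨P', h1, h2, h3, h4⟩ | ⟨G, π, o, h1, h2, h3, h4⟩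
  · left
    refine ⟨P', h1, ?_, ?_, ?_⟩
    · have h5 := hdf.low P hsup
      have h6 : -(η * H) ≤ ν := by linarith
      have h7 : η * H ≤ τ / 2 * H := mul_le_mul_of_nonneg_right K.hη2 hH0.le
      have h8 : τ2 * H ≤ τ / 2 * H := mul_le_mul_of_nonneg_right K.hτ2b hH0.le
      linarith
    · refine h3.trans (le_of_eq ?_)
      field_simp
    · have h5 := N.loss (b := θ * J / 4) (wcv := wc d J m) rfl rfl
      rw [hWc] at h5
      exact h5.trans h4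
  · right
    exact ⟨G, π, o, m * J / d - d, N.sB1, N.sB2, h1, h2.trans (K.entB hmX N.JmH N.pCp),
      h3.trans N.wcτ, fun ω hω => ⟨(h4 ω hω).1, (h4 ω hω).2.1, (h4 ω hω).2.2.trans
        (slab_exp N.hd N.sB3)⟩⟩

theorem exists_ub (L : List ℝ) : ∃ X : ℝ, ∀ a ∈ L, a ≤ X := by
  induction L with
  | nil => exact ⟨0, by simp⟩
  | cons b L ih =>
    obtain ⟨X, hX⟩ := ih
    refine ⟨max b X, fun a ha => ?_⟩
    rcases List.mem_cons.1 ha with rfl | h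
    · exact le_max_left _ _
    · exact (hX a h).trans (le_max_right _ _)

/-- the threshold of the word -/
theorem exists_thr {θ ε : ℝ} (hθ : 0 < θ) (hε : 0 < ε) (hε1 : ε ≤ 1) :
    ∃ thr : ℝ, 0 < thr ∧ 12 * thr < ε ∧ thr ≤ 1 ∧
      ε / 2 * Real.log (ε / 2 / (6 * thr)) - 1 = 8 / θ := by
  refine ⟨ε / 12 * Real.exp (-((8 / θ + 1) * (2 / ε))), by positivity, ?_, ?_, ?_⟩
  all_goals
    have hexp1 : Real.exp (-((8 / θ + 1) * (2 / ε))) < 1 := by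
      rw [Real.exp_lt_one_iff]
      have : 0 < (8 / θ + 1) * (2 / ε) := by positivity
      linarith
    have hexp0 := Real.exp_pos (-((8 / θ + 1) * (2 / ε)))
  · nlinarith
  · nlinarith
  · have e1 : ε / 2 / (6 * (ε / 12 * Real.exp (-((8 / θ + 1) * (2 / ε))))) =
        Real.exp ((8 / θ + 1) * (2 / ε)) := by
      rw [Real.exp_neg]
      field_simp
      ring
    rw [e1, Real.log_exp]
    field_simp
    ring

/-- the first constants -/
theorem exists_cst1 {d : ℕ} (hd : 1 ≤ d) (cC : ℕ) {ct c1 τ : ℝ} (hct : 0 < ct) (hc1 : 0 < c1)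
    (hτ : 0 < τ) : ∃ C1 Cp ε s : ℝ, C1 = cC + 1 ∧ Cp = 70 * C1 + d ∧ 0 < ε ∧ ε ≤ 1 ∧
      16 * C1 * ε ≤ τ ∧ 0 < s ∧ s ≤ 1 ∧ 64 * d * Cp * s ≤ τ ∧
      160 * (d : ℝ) ^ 2 * s ≤ ε * ct * τ := by
  have hdR : (1 : ℝ) ≤ d := by exact_mod_cast hd
  obtain ⟨C1, hC1⟩ : ∃ C1 : ℝ, C1 = cC + 1 := ⟨_, rfl⟩
  obtain ⟨Cp, hCp⟩ : ∃ Cp : ℝ, Cp = 70 * C1 + d := ⟨_, rfl⟩
  have hcC0 : (0 : ℝ) ≤ cC := Nat.cast_nonneg _
  have hC1p : 1 ≤ C1 := by rw [hC1]; linarith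
  have hC10 : 0 < C1 := by linarith
  have hCp0 : 0 < Cp := by rw [hCp]; linarith
  obtain ⟨ε, hεd⟩ : ∃ ε : ℝ, ε = min 1 (τ / (16 * C1)) := ⟨_, rfl⟩
  have hε0 : 0 < ε := by rw [hεd]; exact lt_min one_pos (by positivity)
  have hε1 : ε ≤ 1 := by rw [hεd]; exact min_le_left _ _
  have hετ : 16 * C1 * ε ≤ τ := by
    have : ε ≤ τ / (16 * C1) := by rw [hεd]; exact min_le_right _ _
    rw [le_div_iff₀ (by positivity)] at this
    linarith
  obtain ⟨s, hsd⟩ : ∃ s : ℝ, s = min 1 (min (τ / (64 * d * Cp)) (ε * ct * τ / (160 * (d : ℝ) ^ 2))) :=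
    ⟨_, rfl⟩
  have hs0 : 0 < s := by
    rw [hsd]
    exact lt_min one_pos (lt_min (by positivity) (by positivity))
  have hs1 : s ≤ 1 := by rw [hsd]; exact min_le_left _ _
  have hsτ : 64 * d * Cp * s ≤ τ := by
    have : s ≤ τ / (64 * d * Cp) := by
      rw [hsd]; exact (min_le_right _ _).trans (min_le_left _ _)
    rw [le_div_iff₀ (by positivity)] at this
    linarith
  have hs160 : 160 * (d : ℝ) ^ 2 * s ≤ ε * ct * τ := by
    have : s ≤ ε * ct * τ / (160 * (d : ℝ) ^ 2) := by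
      rw [hsd]; exact (min_le_right _ _).trans (min_le_right _ _)
    rw [le_div_iff₀ (by positivity)] at this
    linarith
  exact ⟨C1, Cp, ε, s, hC1, hCp, hε0, hε1, hετ, hs0, hs1, hsτ, hs160⟩

/-- the second constants -/
theorem exists_cst2 {d : ℕ} (hd : 1 ≤ d) {Cp ε c1 τ ρ : ℝ} (hCp : 0 < Cp) (hε : 0 < ε) (hc1 : 0 < c1)
    (hτ : 0 < τ) (hρ : 0 < ρ) : ∃ θ τ2 η : ℝ, 0 < θ ∧ θ ≤ 1 ∧ 2 * d * Cp * θ ≤ ρ ∧ 0 < τ2 ∧
      τ2 ≤ ε * c1 * τ / (10 * d) ∧ τ2 ≤ τ / 2 ∧ 0 < η ∧ η ≤ τ2 * θ / 48 ∧ η ≤ τ / 2 := by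
  have hdR : (1 : ℝ) ≤ d := by exact_mod_cast hd
  obtain ⟨θ, hθd⟩ : ∃ θ : ℝ, θ = min 1 (ρ / (2 * d * Cp)) := ⟨_, rfl⟩
  have hθ0 : 0 < θ := by rw [hθd]; exact lt_min one_pos (by positivity)
  have hθ1 : θ ≤ 1 := by rw [hθd]; exact min_le_left _ _
  have hθρ : 2 * d * Cp * θ ≤ ρ := by
    have : θ ≤ ρ / (2 * d * Cp) := by rw [hθd]; exact min_le_right _ _
    rw [le_div_iff₀ (by positivity)] at this
    linarith
  obtain ⟨τ2, hτ2d⟩ : ∃ τ2 : ℝ, τ2 = min (ε * c1 * τ / (10 * d)) (τ / 2) := ⟨_, rfl⟩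
  have hτ20 : 0 < τ2 := by rw [hτ2d]; exact lt_min (by positivity) (by positivity)
  exact ⟨θ, τ2, min (τ2 * θ / 48) (τ / 2), hθ0, hθ1, hθρ, hτ20, by rw [hτ2d]; exact min_le_left _ _,
    by rw [hτ2d]; exact min_le_right _ _, lt_min (by positivity) (by positivity), min_le_left _ _,
    min_le_right _ _⟩

/-- **[DICH]** from `PCore d` -/
theorem pdich_of (d : ℕ) (hd : 1 ≤ d) (hcore : PCore d) : PDich d := by
  obtain ⟨cC, hcore⟩ := pcoreC hcore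
  obtain ⟨cA, hcA, hact⟩ := pactC
  obtain ⟨cW, hcW, hword⟩ := pwordC d
  intro cN ct c1 τ hcN hct hc1 hτ
  obtain ⟨C1, Cp, ε, s, hC1, hCp, hε0, hε1, hετ, hs0, hs1, hsτ, hs160⟩ :=
    exists_cst1 hd cC hct hc1 hτ
  have hdR : (1 : ℝ) ≤ d := by exact_mod_cast hd
  have hcC0 : (0 : ℝ) ≤ cC := Nat.cast_nonneg _
  have hC1p : 0 < C1 := by rw [hC1]; linarith
  have hCp0 : 0 < Cp := by rw [hCp]; linarith
  refine ⟨s / (2 * d), by positivity, fun ρ hρ => ?_⟩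
  obtain ⟨θ, τ2, η, hθ0, hθ1, hθρ, hτ20, hτ2a, hτ2b, hη0, hη1, hη2⟩ :=
    exists_cst2 (d := d) hd hCp0 hε0 hc1 hτ hρ
  refine ⟨θ / 8, by positivity, η, hη0, fun Ka hKa => ?_⟩
  obtain ⟨thr, hthr0, hthr12, hthr1, hΛ⟩ := exists_thr hθ0 hε0 hε1
  obtain ⟨M, hM1, hMτ⟩ : ∃ M : ℕ, 1 ≤ M ∧ 16 * C1 ≤ τ * M := by
    refine ⟨⌈16 * C1 / τ⌉₊ + 1, by omega, ?_⟩
    have h1 : 16 * C1 / τ ≤ ⌈16 * C1 / τ⌉₊ := Nat.le_ceil _
    rw [div_le_iff₀ hτ] at h1
    push_cast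
    linarith
  have hl : 0 ≤ Real.log (1 / thr + 1) + cW := by
    have : 0 ≤ Real.log (1 / thr + 1) := Real.log_nonneg (by
      have : 0 < 1 / thr := by positivity
      linarith)
    linarith
  obtain ⟨X0, hX0⟩ := exists_ub [1, (2 + 2 * d + 2 * (d : ℝ) ^ 2 + 8 / θ) / s, 16 * C1 * M * Cp / τ,
    16 * Cp * M / τ, 16 * (1 + 8 * M * Cp / (θ * s)) / τ, 16 * C1 / τ,
    2 * (Real.log (1 / thr + 1) + cW) / ρ, 5 * Ka / (c1 * ε), 20 / (ct * ε), 20 * cA / (ct * ε),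
    16 * cN / (θ * τ2)]
  have K : Cst d cC M cA cW cN ct c1 Ka τ s ρ θ τ2 η thr ε C1 Cp X0 :=
    { hd := hd
      hC1 := hC1
      hCp := hCp
      hs := hs0
      hs1 := hs1
      hsτ := hsτ
      hs160 := hs160
      hτ := hτ
      hθ := hθ0
      hθ1 := hθ1
      hε := hε0
      hετ := hετ
      hcN := hcN
      hct := hct
      hc1 := hc1
      hρ := hρ
      hθρ := hθρ
      hτ20 := hτ20
      hτ2a := hτ2a
      hτ2b := hτ2b
      hη1 := hη1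
      hη2 := hη2
      hthr0 := hthr0
      hthr12 := hthr12
      hthr1 := hthr1
      hΛ := hΛ
      hM1 := hM1
      hMτ := hMτ
      hl := hl
      x1 := hX0 _ (by simp)
      x2 := (div_le_iff₀ hs0).1 (hX0 _ (by simp))
      x3 := by
        have h1 := (div_le_iff₀ hτ).1 (hX0 (16 * C1 * M * Cp / τ) (by simp))
        linarith
      x4 := hX0 _ (by simp)
      x5 := hX0 _ (by simp)
      x6 := by
        have h1 := (div_le_iff₀ hτ).1 (hX0 (16 * C1 / τ) (by simp))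
        linarith
      x7 := (div_le_iff₀ hρ).1 (hX0 _ (by simp))
      x8 := (div_le_iff₀ (by positivity)).1 (hX0 _ (by simp))
      x9 := (div_le_iff₀ (by positivity)).1 (hX0 _ (by simp))
      x10 := (div_le_iff₀ (by positivity)).1 (hX0 _ (by simp))
      x11 := (div_le_iff₀ (by positivity)).1 (hX0 _ (by simp)) }
  obtain ⟨h0, hh01, hm⟩ := exists_m (cC + 1) (⌈X0⌉₊ + 1) (by omega)
  refine ⟨h0, ?_⟩
  intro Ω _ α ξ P0 P X Q t A l df Ψ ν H a0 h hsup hdh hdf hΨ hH hτa0 ha0h hhH hdfP hν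
  have hH0 : (0 : ℝ) ≤ H := Nat.cast_nonneg _
  by_cases hsmall : d * ((h : ℝ) - a0) * Real.log 2 ≤ τ * H
  · -- short window
    left
    refine ⟨P, fun _ h => h, ?_, ?_, ?_⟩
    · refine hdfP.trans (mul_le_mul_of_nonneg_right (hη2.trans ?_) hH0)
      linarith
    · have h1 := hΨ.nn P hsup
      rw [le_div_iff₀ (by positivity)]
      have h2 : θ / 8 ≤ 1 := by linarith
      exact mul_le_of_le_one_right h1 h2
    · have := Stk.mi_nonneg P (fun ω => (X ω, Q ω)) (Zhd X Q t h) (fun ω => (A ω, fl1 a0 (t ω)))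
      linarith
  · push Not at hsmall
    obtain ⟨m, hm0, hmH1, hmH2⟩ := hm H hH
    have hmX : X0 ≤ m := by
      have h1 : X0 ≤ ⌈X0⌉₊ := Nat.le_ceil _
      have h2 : ((⌈X0⌉₊ + 1 : ℕ) : ℝ) ≤ m := by exact_mod_cast hm0
      push_cast at h2
      linarith
    exact dich_long K hcore hact hword P0 P X Q t A l df Ψ ν H a0 h m hsup hdh hdf hΨ hτa0 ha0h hhH hdfP
      hν hsmall hmX hmH1 hmH2

end Vale.Agent.P106.U.H495
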