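import Vale.Agent.P106.U.MIC.Stage
import Vale.Agent.P106.U.H786.SC
import Vale.Agent.P106.U.H572.HStep
import Vale.Agent.P106.U.H495.RowV
import Vale.Agent.P106.U.H336.SwF

/-!
# P106 / U / H495 : literal error of row [K] (helper495)

Over `s : MIC.St`; `M s` = 785's data at the margin `μS x m`, cap `b = m b1`.

* `ui s z` : index in the record of the a-step of the level `z`; `KrK x` = distance of the late level; `pK`, `dK`, `rK` : digits.
* `I1z s w y`, `I2z s w y` : the two informations of the pair of levels `(w, y)` (`w` = level of the step, `y` = late level), the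
  terms `h1`, `h2` of helper572's `hstep`.
* `AdmK` : the admissible pairs `(j, k)` (whole a-step `j` with `a j + 2 ≤ a k`); `I1K`, `I2K`, `collK`, `XK`; **`errK`**.
* **`SE1`** : the sum of the errors (helper652).
-/

set_option autoImplicit false

namespace Vale.Agent.P106.U.H495.RK

open Finset Vale.Agent.P127 Vale.Agent.P127.Stk Vale.Agent.P127.U Vale.Agent.P106.W Vale.Agent.P106.K
open Vale.Agent.P127.U.CellD (q2 rd)
open Vale.Agent.P106.U.S3 (Run mt LDk LTh Ob lv)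
open Vale.Agent.P106.U.S5 hiding Cst
open Vale.Agent.P106.U.MIC
open Vale.Agent.P106.U.H833 (errO errO_nonneg)
open Vale.Agent.P106.U.H572.HStep (xH WH BfH)
open Vale.Agent.P106.U.H785.Mtr (Mtd Lt)

/-- distance of the late level, in blocks -/
noncomputable def KrK (x : ℕ) : ℕ := MuS x + 2

/-- digits of the direction and of the curvature in the letters, below the cap resp. the index -/
noncomputable def pK (x m : ℕ) : ℕ := 2 * μS x m

/-- digits of the curvature which decide (`r'` of `hstep`) -/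
def rK (m : ℕ) : ℕ := m + 1

/-- bound of the letters, in digits -/
def bK : ℕ := 53

/-- factor of the square roots -/
noncomputable def A0K (m : ℕ) (c' : ℝ) : ℝ := 10 * 2 ^ (4 * m + 42 * m + 6 * (rK m + 2) + 8 * bK + 97) / (c' / 2)

section

variable {η : ℝ} {x : ℕ} {σ : S5.Cst} {ε : ℝ} {ρ : Thr} {g : Gv} {m B h : ℕ}

/-- 785's data -/
noncomputable def M (s : St η x σ ε ρ g m B h) : Mtd s.Ω s.π := mt s.R s.F (μS x m) s.o s.o'

/-- index in the record of the a-step of the level `z` -/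
noncomputable def ui (s : St η x σ ε ρ g m B h) (z : ℕ) : ℕ := s.f (s.lm z)

/-- first information of the pair of levels `(w, y)` -/
noncomputable def I1z (s : St η x σ ε ρ g m B h) (w y : ℕ) : ℝ :=
  mi s.R.Q (xH s.R s.F (s.R.m * s.R.b1) (pK x m) (pK x m) (ui s w))
    ((M s).mtr (ui s y) (s.R.m * s.R.b1))
    (fun ω => (LDk ((M s).fz (ui s w) (ui s w)) (s.R.m * s.R.b1) (ui s w) ω,
      LTh ((M s).fz (ui s w) (ui s w)) (s.R.m * s.R.b1) (ui s y) ω))

/-- second information of the pair of levels `(w, y)` -/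
noncomputable def I2z (s : St η x σ ε ρ g m B h) (w y : ℕ) : ℝ :=
  mi s.R.Q (LTh ((M s).fz (ui s w) (ui s w)) (s.R.m * s.R.b1) (ui s y))
    (WH s.R s.F (μS x m) s.o s.o' B s.bV (ui s w))
    (LDk ((M s).fz (ui s w) (ui s w)) (s.R.m * s.R.b1) (ui s w))

/-- **admissible pairs** : whole a-step `j`, end `k` of a window -/
def AdmK (s : St η x σ ε ρ g m B h) (Pu : ℕ → Prop) (L1 L2 Lk j k : ℕ) : Prop :=
  s.lm (s.a j) = j ∧ j < k ∧ k ≤ j + L1 ∧ s.a j + 2 ≤ s.a k ∧
    (∃ i1, k ≤ i1 ∧ i1 ≤ s.N ∧ i1 ≤ j + L2 ∧ s.a k + (Lk + 1) ≤ s.a i1) ∧ ∀ z, s.a j ≤ z → z ≤ s.a k + Lk → Pu z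

open Classical in
/-- first information of an admissible pair -/
noncomputable def I1K (s : St η x σ ε ρ g m B h) (Pu : ℕ → Prop) (L1 L2 Lk j k : ℕ) : ℝ :=
  if AdmK s Pu L1 L2 Lk j k then I1z s (s.a j + 1) (s.a k + KrK x) else 0

open Classical in
/-- second information of an admissible pair -/
noncomputable def I2K (s : St η x σ ε ρ g m B h) (Pu : ℕ → Prop) (L1 L2 Lk j k : ℕ) : ℝ :=
  if AdmK s Pu L1 L2 Lk j k then I2z s (s.a j + 1) (s.a k + KrK x) else 0

open Classical in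
/-- whole a-steps whose next a-step is not good -/
noncomputable def XK (s : St η x σ ε ρ g m B h) : Finset ℕ :=
  (range s.N).filter fun j => s.lm (s.a j) = j ∧ s.a j + 1 < s.a s.N ∧ ¬ s.gd (s.lm (s.a j + 1))

open Classical in
/-- collisions -/
noncomputable def collK (s : St η x σ ε ρ g m B h) (Pu : ℕ → Prop) (L1 L2 Lk j : ℕ) : ℝ :=
  if (∃ k, AdmK s Pu L1 L2 Lk j k) ∧ j ∉ XK s then
    H786.SC.cc1 s.R s.F (μS x m) s.o s.o' ρ.c' m (s.R.m * s.R.b1) (BfH s.R s.F (rK m)) (ui s (s.a j + 1)) else 0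

/-- the set of the pure levels -/
def PuK (s : St η x σ ε ρ g m B h) (Sw : Finset ℕ) (z : ℕ) : Prop := z ∉ Sw ∧ s.kd z = 1

/-- **the error** -/
noncomputable def errK (s : St η x σ ε ρ g m B h) (c0 : ℝ) (Sw : Finset ℕ) (L1 L2 Lk j : ℕ) : ℝ :=
  errO c0 1200 s.R.m (A0K m ρ.c') 4 L1 (collK s (PuK s Sw) L1 L2 Lk) (I1K s (PuK s Sw) L1 L2 Lk)
    (I2K s (PuK s Sw) L1 L2 Lk) (XK s) j

end

/-- **[SE1]** the sum of the errors; `c0` any number (after `ρ`), `L` any reach -/
def SE1 : Prop :=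
  Pre fun _ η x _ _ σ ε ρ => ∀ (c0 : ℝ) (L1 L2 Lk L : ℕ), 0 ≤ c0 → 0 < L1 → 2 * KrK x ≤ Lk → Lk + L1 + 2 ≤ L →
    Suf σ ε fun g m B h => ∀ (s : St η x σ ε ρ g m B h) (Sw : Finset ℕ), H336.SwL s.R B s.Vs s.Xs L ⊆ Sw →
      ∑ j ∈ range s.N, errK s c0 Sw L1 L2 Lk j ≤ η / 400 * h

end Vale.Agent.P106.U.H495.RK
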