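import Vale.Agent.P106.U.H495.RK1
import Vale.Agent.P106.U.H812.RowT

/-!
# P106 / U / H495 : row [K] from its inputs (helper495)

* `rowK'` : `rowK` with a longer room `Kr'` in the windows.
* **`rowK_of`** : `SE1 → SwP → StP → JuP → NdP → MIC.RowK`.
-/

set_option autoImplicit false

namespace Vale.Agent.P106.U.H495

open Finset Vale.Agent.P127 Vale.Agent.P127.Stk
open Vale.Agent.P106.U.Cell Vale.Agent.P106.U.S3
open Vale.Agent.P106.U.H833 (psi qc qc_nonneg tdg cNst aN RN lx lx_spec errO errO_nonneg)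
open Vale.Agent.P106.U.H118 (Sdat CS mem_CS full Zw)

section

variable {Ω : Type} [Fintype Ω] {τ υ : Type} {R : Run Ω τ υ} {p : Run.Num} {K c' g' gU : ℝ} {κ α θ : Type}

/-- `rowK`, windows with the room `Kr'` -/
theorem rowK' (h : R.Ok p K c' g' gU) (hK : 1 ≤ K) {f : ℕ → ℕ} (hf : Monotone f) {N x : ℕ} (hN : f N ≤ R.n)
    {γ : ℕ → Prop} (D : Sdat N γ (fun i => aN R (f i)) (fun i => RN R x (f i))) {lm : ℕ → ℕ}
    (hl : Lvl N (fun i => aN R (f i)) lm) {L1 L2 Lk Kr Kr' KK : ℕ} (hKr : 0 < Kr) (hKr' : Kr ≤ Kr') (hKK : Kr' + 1 ≤ KK)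
    (hLev : ∀ i ≤ N, R.C.Lev (f i) (R.m * x)) (Mt : ℕ → Ω → κ) {Sw : Finset ℕ} {kd : ℕ → Fin 3} {c : Fin 3}
    {mm c0 c2 A0 c1 cj cA cN cJ j1 j2 : ℝ} (hmm : 0 ≤ mm) (hmR : mm ≤ R.m) (hc0 : 0 ≤ c0) (hc2 : 0 ≤ c2) (hA0 : 0 ≤ A0)
    (hcJ : 0 ≤ cJ) (hj1 : 0 ≤ j1) (hj2 : 0 ≤ j2)
    (hc1 : cA + cN ≤ c1) (hcj : cJ + cNst K + j1 + j2 ≤ cj) {xo coll : ℕ → ℝ}
    (hxo : ∀ j, 0 ≤ xo j) (hco : ∀ j, 0 ≤ coll j) {I1 I2 : ℕ → ℕ → ℝ} {X : Finset ℕ}
    (W : ∀ i k, aN R (f i) < aN R (f k) →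
      WAt N (fun i => aN R (f i)) (fun z => z ∉ Sw ∧ kd z = c) L1 L2 Lk Kr' i k →
      ∃ (A : ℕ → Ω → α) (Θ : Ω → θ),
        KIn R f (R.m * x) Mt (fun z => lm (aN R (f i) + z)) (aN R (f k) - 1 - aN R (f i))
          (f (lx N (fun i => aN R (f i)) Kr k)) A Θ cA cN cJ j1 j2 (xo (lm (aN R (f i)))) ∧
        ∀ z < aN R (f k) - 1 - aN R (f i), lm (aN R (f i) + z) ∉ X →
          4 * mm - (c0 + c2 * R.m * coll (lm (aN R (f i) + z)) +
              A0 * (Real.sqrt (I1 (lm (aN R (f i) + z)) k) + Real.sqrt (I2 (lm (aN R (f i) + z)) k))) ≤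
            hc R.Q (A (z + 1)) (fun ω => (A z ω, (Mt (f (lm (aN R (f i) + (z + 1)))) ω, Θ ω)))) :
    ∀ i k i1, i ≤ k → k ≤ i + L1 → k ≤ i1 → i1 ≤ N → i1 ≤ i + L2 → aN R (f k) + KK ≤ aN R (f i1) →
      RN R x (f k) + KK ≤ RN R x (f i1) → (∀ z, aN R (f i) ≤ z → z ≤ aN R (f k) + Lk → z ∉ Sw ∧ kd z = c) →
      aN R (f i) < aN R (f k) →
      ∑ z ∈ range (aN R (f k) - 1 - aN R (f i)),
          (4 * mm - errO c0 c2 R.m A0 4 L1 coll I1 I2 X (lm (aN R (f i) + z))) -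
        c1 * ((aN R (f k) - 1 - aN R (f i) : ℕ) : ℝ) - cj -
        ∑ j ∈ Ico (lm (aN R (f i))) (lm (aN R (f k) - 1)),
          (qc R.Q R.ry (fun j => Zw R (f j)) (tdg (R.C.re f hf)) j + xo j) ≤
      psi R.Q R.ry (fun j => Zw R (f j)) (fun j => (R.C.re f hf).cell j (R.m * x)) (lm (aN R (f k) - 1)) -
        psi R.Q R.ry (fun j => Zw R (f j)) (fun j => (R.C.re f hf).cell j (R.m * x)) (lm (aN R (f i))) := by
  classical
  intro i k i1 hik hkL hki hin hiL hak _ hpure hlt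
  set a : ℕ → ℕ := fun i => aN R (f i) with ha
  set r : ℕ → ℕ := fun i => RN R x (f i) with hr
  have hmR0 : (0 : ℝ) ≤ R.m := Nat.cast_nonneg _
  have hkN : k ≤ N := hki.trans hin
  have hiN : i ≤ N := hik.trans hkN
  have hak1 : a k + Kr' + 1 ≤ a i1 := by
    show aN R (f k) + Kr' + 1 ≤ aN R (f i1)
    omega
  have hak' : a k + Kr + 1 ≤ a i1 := by omega
  have h0 : a i < a k := hlt
  have han := D.am hin le_rfl
  have ha0 := D.am (Nat.zero_le i) hiN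
  have hik' : i < k := by
    rcases Nat.eq_or_lt_of_le hik with e | e
    · rw [e] at h0
      exact absurd h0 (lt_irrefl _)
    · exact e
  obtain ⟨A, Θ, W1, W2⟩ := W i k hlt ⟨hik', hkL, ⟨i1, hki, hin, hiL, hak1⟩, hpure⟩
  obtain ⟨q1, q2, q3, q4⟩ := lx_spec D hin hki hKr hak'
  have hlk : lm (a k - 1) < k := hl.lt' D hkN (by omega) (by omega) (by omega)
  have hli : i ≤ lm (a i) := hl.le D hiN (by omega)
  set rr := a k - 1 - a i with hrr
  have e0 : a i + rr = a k - 1 := by omega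
  have hmono : ∀ z z', z < z' → z' ≤ rr → lm (a i + z) < lm (a i + z') := fun z z' h1 h2 =>
    hl.mono D (by omega) (by omega) (by omega)
  have e3 := winK_run hf h hK hN (s := fun z => lm (a i + z)) (r := rr) (b := R.m * x) (i' := f (lx N a Kr k))
    (by
      show lm (a i + 0) ≤ lm (a i + rr)
      rcases Nat.eq_zero_or_pos rr with e | e
      · rw [e]
      · exact (hmono 0 rr e le_rfl).le)
    (by
      rcases Nat.eq_zero_or_pos rr with e | e
      · exact Or.inl e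
      · exact Or.inr (hmono 0 rr e le_rfl))
    (by
      show lm (a i + rr) ≤ N
      rw [e0]
      omega)
    (by
      show R.C.Lev (f (lm (a i + 0))) (R.m * x)
      refine hLev _ ?_
      rw [Nat.add_zero]
      have := hl.lt (a i) ha0 (by omega)
      omega)
    (by
      show f (lm (a i + rr)) ≤ f (lx N a Kr k)
      rw [e0]
      exact hf (by omega))
    (fun q => Mt (f (lm (a i + q)))) W1.hΘ A hcJ hj1 hj2 hxo
    (by simpa using W1.hj1) W1.hj2 (by simpa using W1.hN) W1.hA W1.hJ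
    (fun z => 4 * mm - errO c0 c2 R.m A0 4 L1 coll I1 I2 X (lm (a i + z)))
    (by
      intro z hz
      have hjk : lm (a i + z) < k := by
        have := hl.lt' (lm := lm) D (j := k) (z := a i + z) hkN (by omega) (by omega) (by omega)
        exact this
      have hij : i ≤ lm (a i + z) := by
        rcases Nat.eq_zero_or_pos z with e | e
        · rw [e, Nat.add_zero]
          exact hli
        · have := hmono 0 z e hz.le
          rw [Nat.add_zero] at this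
          omega
      by_cases hX : lm (a i + z) ∈ X
      · refine le_trans ?_ (hc_nonneg R.Q _ _)
        have f2 := errO_exc (x := 4) (m := (R.m : ℝ)) hc0 hc2 hA0 hmR0 (L := L1) hco (I1 := I1) (I2 := I2) hX
        have f3 : 4 * mm ≤ 4 * (R.m : ℝ) := by linarith
        linarith
      · refine le_trans ?_ (W2 z hz hX)
        have f2 := errO_pair (c0 := c0) (c2 := c2) (m := (R.m : ℝ)) (A := A0) (x := 4) hA0 (by norm_num) hmR0 (L := L1)
          (coll := coll) (I1 := I1) (I2 := I2) (X := X) hjk (show k ≤ lm (a i + z) + L1 by omega)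
        show 4 * mm - errO c0 c2 R.m A0 4 L1 coll I1 I2 X (lm (a i + z)) ≤ _
        have f4 : c0 + c2 * R.m * coll (lm (aN R (f i) + z)) +
              A0 * (Real.sqrt (I1 (lm (aN R (f i) + z)) k) + Real.sqrt (I2 (lm (aN R (f i) + z)) k)) ≤
            errO c0 c2 R.m A0 4 L1 coll I1 I2 X (lm (a i + z)) := f2
        linarith)
  simp only [Nat.add_zero] at e3
  rw [e0] at e3
  have e5 : (cA + cN) * ((rr : ℕ) : ℝ) ≤ c1 * ((rr : ℕ) : ℝ) := mul_le_mul_of_nonneg_right hc1 (Nat.cast_nonneg _)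
  show ∑ z ∈ range rr, (4 * mm - errO c0 c2 R.m A0 4 L1 coll I1 I2 X (lm (a i + z))) - c1 * ((rr : ℕ) : ℝ) - cj -
      ∑ j ∈ Ico (lm (a i)) (lm (a k - 1)), (qc R.Q R.ry (fun j => Zw R (f j)) (tdg (R.C.re f hf)) j + xo j) ≤ _
  linarith


end

namespace RK

open Finset Vale.Agent.P127 Vale.Agent.P127.Stk Vale.Agent.P127.U Vale.Agent.P106.W Vale.Agent.P106.K
open Vale.Agent.P106.U.S5 hiding Cst
open Vale.Agent.P106.U.MIC
open Vale.Agent.P106.U.H101 (lc low)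
open Vale.Agent.P106.U.H624 (JSt jS CJu CJu_nonneg jS_le)
open Vale.Agent.P106.U.H572.HStep (BfH)

variable {η : ℝ} {x : ℕ} {σ : S5.Cst} {ε : ℝ} {ρ : Thr} {g : Gv} {m B h : ℕ}

/-- numbers of the assembly -/
structure RN0 (ρ : Thr) (x L : ℕ) (m B : ℕ) : Prop where
  m1 : 1 ≤ m
  μB : μS x m ≤ B
  LB : L ≤ B
  cn : cNst ρ.K ≤ m * Real.log 2

theorem ev_RN0 (ρ : Thr) (x L : ℕ) : H652.Ev3 fun m B _ => RN0 ρ x L m B := by
  have h1 : H652.Ev3 fun m _ _ => 1 ≤ m := H652.Ev3.of_m (H652.ev_nat 1)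
  have h2 : H652.Ev3 fun m B _ => μS x m ≤ B := H652.Ev3.of_B' fun m => H652.ev_nat (μS x m)
  have h3 : H652.Ev3 fun _ B _ => L ≤ B := H652.Ev3.of_B' fun _ => H652.ev_nat L
  have h4 : H652.Ev3 fun m _ _ => cNst ρ.K ≤ m * Real.log 2 := by
    refine H652.Ev3.of_m ?_
    filter_upwards [H652.ev_con (cNst ρ.K) (Real.log_pos (by norm_num : (1 : ℝ) < 2))] with m h
    linarith
  exact ((h1.and h2).and (h3.and h4)).mono fun m B h H => ⟨H.1.1, H.1.2, H.2.1, H.2.2⟩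

theorem A0K_nonneg (m : ℕ) {c' : ℝ} (h : 0 ≤ c') : 0 ≤ A0K m c' := by
  unfold A0K
  positivity

/-- nonnegativity of the collisions -/
theorem cc1_nonneg {Ω : Type} [Fintype Ω] {τ υ π κ : Type} (R : S3.Run Ω τ υ) (F : S3.Pf R π) (μ : ℕ) (o : Fin 7 → ℝ)
    (o' : ℕ → ℝ) (c' : ℝ) (g b' : ℕ) (Bf : ℕ → κ → Ω → Prop) (k : ℕ) : 0 ≤ H786.SC.cc1 R F μ o o' c' g b' Bf k := by
  unfold H786.SC.cc1
  have h1 := Mic.colp_nonneg R.Q (fun ω => fl1 (R.C.a k + g) (R.C.t ω)) ((S3.mt R F μ o o').mtr k b')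
  have h2 := Mic.colp_nonneg R.Q (fun ω => fl1 (R.m * R.b1 + g) (R.C.l ω).v) ((S3.mt R F μ o o').mtr k (R.m * R.b1))
  have h3 : 0 ≤ R.Q.ex (fun ω => Law.ind (∃ x, (1 - c' / 2) * R.Q.pr ((S3.mt R F μ o o').mtr k (R.m * R.b1))
      ((S3.mt R F μ o o').mtr k (R.m * R.b1) ω) < prE R.Q (fun ω' => (S3.mt R F μ o o').mtr k (R.m * R.b1) ω' =
        (S3.mt R F μ o o').mtr k (R.m * R.b1) ω ∧ Bf k x ω'))) := by
    refine R.Q.ex_nonneg fun ω _ => ?_
    unfold Law.ind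
    split_ifs <;> norm_num
  linarith

/-- **one situation** -/
theorem winK_of (hρ : ρ.Ok) (s : St η x σ ε ρ g m B h) {L1 L2 Lk L : ℕ} (hL : L1 + Lk + 2 ≤ L) (hKL : KrK x ≤ Lk)
    (H : RN0 ρ x L m B) {Sw : Finset ℕ} {cL cN CJj : ℝ} (cL0 : 0 ≤ cL) (cJ0 : 0 ≤ CJj)
    (hPF : ∀ w y, s.a 0 ≤ w → w ≤ y → y ≤ w + L → y < s.a s.N → (∀ z, w ≤ z → z ≤ y → PuK s Sw z) → PF s w y)
    (hSt : ∀ w y, PF s w y → w + 1 + KrK x ≤ y → y ≤ w + L →
      4 * m * Real.log 2 - (23 + 3 * bK + cL + 1200 * m * H786.SC.cc1 s.R s.F (μS x m) s.o s.o' ρ.c' m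
          (s.R.m * s.R.b1) (BfH s.R s.F (rK m)) (ui s (w + 1)) +
          A0K m ρ.c' * (Real.sqrt (I1z s (w + 1) y) + Real.sqrt (I2z s (w + 1) y))) ≤
        hc s.R.Q (AK s (w + 1) y) (fun ω => (AK s w y ω, (MtK s (w + 1) ω, ThK s y ω))) ∧
      hc s.R.Q (AK s w y) (fun ω => (AK s (w + 1) y ω, ThK s y ω)) ≤ cL)
    (hJu : ∀ w, PF s w (w + 1 + KrK x) →
      hc s.R.Q (AK s w (w + 1 + KrK x)) (fun ω => (ThK s (w + 1 + KrK x) ω, MtK s w ω)) ≤ s.mm * CJj)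
    (hNd : ∀ w y, PF s w y → hc s.R.Q (MtK s w) (MtK s y) ≤ cN) :
    s.WinK L1 L2 Lk (cL + cN) (s.mm * (CJj + 2 * CJu x + 1)) (errK s (23 + 3 * bK + cL) Sw L1 L2 Lk) Sw := by
  classical
  have hP := s.run.ok.pth
  have hm : s.R.m = m := s.run.hm
  have hmB : m * B = s.R.m * B := by rw [hm]
  have hμ : μS x m ≤ s.R.C.μ := by
    rw [s.run.hμ]
    exact H.μB.trans (Nat.le_mul_of_pos_left B H.m1)
  have hb1 : 8 * B ≤ s.R.b1 := s.run.cap.low.le
  have hbb : 8 * μS x m ≤ bc s.R := by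
    have h3 : s.R.b1 ≤ s.R.m * s.R.b1 := Nat.le_mul_of_pos_left _ hP.m1
    have := H.μB
    show _ ≤ s.R.m * s.R.b1
    omega
  have hr0 : 8 * μS x m ≤ s.R.r0 := by
    have h1 := s.run.rm
    have h2 : B ≤ m * B := Nat.le_mul_of_pos_left B H.m1
    have := H.μB
    rw [s.run.hr0]
    omega
  have D := H812.st_sdat s
  have hl : Lvl s.N s.a s.lm := H812.lvl D
  have hlog : 0 < Real.log 2 := Real.log_pos (by norm_num)
  have hlog1 : Real.log 2 ≤ 1 := by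
    have := Real.log_two_lt_d9
    linarith
  have hmm : 0 ≤ s.mm := mul_nonneg (Nat.cast_nonneg _) hlog.le
  have hmR : s.mm ≤ (s.Rl.m : ℝ) := by
    show (s.R.m : ℝ) * Real.log 2 ≤ (s.R.m : ℝ)
    have : (0 : ℝ) ≤ s.R.m := Nat.cast_nonneg _
    nlinarith
  have hjS : jS ρ x m ≤ s.mm * CJu x := by
    have := jS_le hρ (x := x) H.m1
    show _ ≤ (s.R.m : ℝ) * Real.log 2 * CJu x
    rw [hm]
    exact this
  have hcn : cNst ρ.K ≤ s.mm := by
    show _ ≤ (s.R.m : ℝ) * Real.log 2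
    rw [hm]
    exact H.cn
  have hCJu := CJu_nonneg x
  have hA0 : 0 ≤ A0K m ρ.c' := A0K_nonneg m hρ.c'0.le
  have hco : ∀ j, 0 ≤ collK s (PuK s Sw) L1 L2 Lk j := fun j => by
    unfold collK
    split_ifs
    · exact cc1_nonneg _ _ _ _ _ _ _ _ _ _
    · exact le_rfl
  have hbK : (0 : ℝ) ≤ (bK : ℝ) := Nat.cast_nonneg _
  have W : ∀ i k, s.a i < s.a k → WAt s.N s.a (fun z => z ∉ Sw ∧ s.kd z = 1) L1 L2 Lk Lk i k →
      ∃ (A : ℕ → s.Ω → (H785.Mtr.Lt s.π × U.Cell.Pth.Dg) × (ℤ × (Fin 4 → ℤ))) (Θ : s.Ω → ℤ),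
        KIn s.Rl s.f (s.R.m * s.R.b1) (fun u => (M s).mtr u (s.R.m * s.R.b1)) (fun z => s.lm (s.a i + z))
          (s.a k - 1 - s.a i) (s.f (H833.lx s.N s.a (KrK x) k)) A Θ cL cN (s.mm * CJj) (s.mm * CJu x) (s.mm * CJu x) 0 ∧
        ∀ z < s.a k - 1 - s.a i, s.lm (s.a i + z) ∉ XK s →
          4 * s.mm - ((23 + 3 * bK + cL) + 1200 * s.R.m * collK s (PuK s Sw) L1 L2 Lk (s.lm (s.a i + z)) +
              A0K m ρ.c' * (Real.sqrt (I1K s (PuK s Sw) L1 L2 Lk (s.lm (s.a i + z)) k) +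
                Real.sqrt (I2K s (PuK s Sw) L1 L2 Lk (s.lm (s.a i + z)) k))) ≤
            hc s.R.Q (A (z + 1)) (fun ω => (A z ω, (MtK s (s.a i + (z + 1)) ω, Θ ω))) := by
    intro i k hlt hW
    obtain ⟨hik, hkL, ⟨i1, hki, hin, hiL, hak⟩, hpure⟩ := hW
    have hkN : k ≤ s.N := hki.trans hin
    have hiN : i ≤ s.N := by omega
    have h0i := D.am (Nat.zero_le i) hiN
    have hki1 := D.am hki hin
    have hi1N := D.am hin le_rfl
    have hal := D.al hik.le hkN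
    have hPu : ∀ z, s.a i ≤ z → z ≤ s.a k + Lk → PuK s Sw z := hpure
    have P := hPF (s.a i) (s.a k + KrK x) h0i (by omega) (by omega) (by omega) fun z z1 z2 => hPu z z1 (by omega)
    refine ⟨fun q => AK s (s.a i + q) (s.a k + KrK x), ThK s (s.a k + KrK x), ?_, ?_⟩
    · refine ⟨?_, ?_, ?_, ?_, ?_, ?_⟩
      · intro ω ω' _ _ e
        exact e
      · have J := (P.lv (s.a i + 0) (by omega) (by omega)).jst.cm
        exact (J.trans hjS).trans (le_of_eq (add_zero _).symm)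
      · have J := (P.lv (s.a i + (s.a k - 1 - s.a i)) (by omega) (by omega)).jst.mc
        exact J.trans hjS
      · intro q hq
        exact hNd (s.a i + 0) (s.a i + (q + 1)) (P.sub (by omega) (by omega) (by omega))
      · intro q hq
        have := (hSt (s.a i + q) (s.a k + KrK x) (P.sub (by omega) (by omega) le_rfl) (by omega) (by omega)).2
        exact this
      · obtain ⟨w, hw⟩ : ∃ w, w = s.a i + (s.a k - 1 - s.a i) := ⟨_, rfl⟩
        have hy : s.a k + KrK x = w + 1 + KrK x := by omega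
        have J := hJu w (by rw [← hy]; exact P.sub (by omega) (by omega) le_rfl)
        rw [← hy] at J
        show hc s.R.Q (AK s (s.a i + (s.a k - 1 - s.a i)) (s.a k + KrK x))
          (fun ω => (ThK s (s.a k + KrK x) ω, MtK s (s.a i + (s.a k - 1 - s.a i)) ω)) ≤ s.mm * CJj
        rw [← hw]
        exact J
    · intro z hz hX
      have e1 : s.a (s.lm (s.a i + z)) = s.a i + z := hl.eq (s.a i + z) (by omega) (by omega)
      have e2 : s.lm (s.a i + z) < k := hl.lt' D hkN (by omega) (by omega) (by omega)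
      have e3 : i ≤ s.lm (s.a i + z) := by
        by_contra hcon
        push Not at hcon
        have f1 := D.am (i := s.lm (s.a i + z) + 1) (j := i) (by omega) hiN
        have f2 := hl.st (s.a i + z) (by omega) (by omega)
        omega
      have hadm : AdmK s (PuK s Sw) L1 L2 Lk (s.lm (s.a i + z)) k := by
        refine ⟨by rw [e1], e2, by omega, by rw [e1]; omega, ⟨i1, hki, hin, by omega, by omega⟩, ?_⟩
        intro z' z1 z2
        rw [e1] at z1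
        exact hPu z' (by omega) z2
      have c1 : collK s (PuK s Sw) L1 L2 Lk (s.lm (s.a i + z)) =
          H786.SC.cc1 s.R s.F (μS x m) s.o s.o' ρ.c' m (s.R.m * s.R.b1) (BfH s.R s.F (rK m)) (ui s (s.a i + z + 1)) := by
        unfold collK
        rw [if_pos ⟨⟨k, hadm⟩, hX⟩, e1]
      have c2 : I1K s (PuK s Sw) L1 L2 Lk (s.lm (s.a i + z)) k = I1z s (s.a i + z + 1) (s.a k + KrK x) := by
        unfold I1K
        rw [if_pos hadm, e1]
      have c3 : I2K s (PuK s Sw) L1 L2 Lk (s.lm (s.a i + z)) k = I2z s (s.a i + z + 1) (s.a k + KrK x) := by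
        unfold I2K
        rw [if_pos hadm, e1]
      have J := (hSt (s.a i + z) (s.a k + KrK x) (P.sub (by omega) (by omega) le_rfl) (by omega) (by omega)).1
      rw [c1, c2, c3]
      refine le_trans (le_of_eq ?_) J
      have em : s.mm = m * Real.log 2 := by
        show (s.R.m : ℝ) * Real.log 2 = _
        rw [hm]
      rw [em, hm]
      ring
  intro i k i1 hik hkL hki hin hiL hak hRk hpure hlt
  have key := rowK' (R := s.Rl) (p := s.pn) (K := ρ.K) (f := s.f) (N := s.N) (x := s.R.b1) (γ := s.gd) (lm := s.lm)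
    (L1 := L1) (L2 := L2) (Lk := Lk) (Kr := KrK x) (Kr' := Lk) (KK := Lk + 1) (kd := s.kd) (c := 1) (Sw := Sw)
    (mm := s.mm) (c0 := 23 + 3 * bK + cL) (c2 := 1200) (A0 := A0K m ρ.c') (c1 := cL + cN)
    (cj := s.mm * (CJj + 2 * CJu x + 1)) (cA := cL) (cN := cN) (cJ := s.mm * CJj) (j1 := s.mm * CJu x)
    (j2 := s.mm * CJu x) (xo := fun _ => 0) (coll := collK s (PuK s Sw) L1 L2 Lk) (I1 := I1K s (PuK s Sw) L1 L2 Lk)
    (I2 := I2K s (PuK s Sw) L1 L2 Lk) (X := XK s)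
    (H101.low_ok s.o hμ s.run.ok) hρ.K1 s.hf (H812.ix_le_n _ _ _) D hl (Nat.succ_pos _) hKL le_rfl
    (fun i _ => H812.lev_ix hP s.o hbb hr0 i) (fun u => (M s).mtr u (s.R.m * s.R.b1)) hmm hmR (by positivity)
    (by norm_num) hA0 (mul_nonneg hmm cJ0) (mul_nonneg hmm hCJu) (mul_nonneg hmm hCJu) le_rfl
    (by nlinarith) (fun _ => le_rfl) hco W i k i1 hik hkL hki hin hiL hak hRk hpure hlt
  have e : ∀ j, H833.qc s.Rl.Q s.Rl.ry (fun j => H118.Zw s.Rl (s.f j)) (H833.tdg (s.Rl.C.re s.f s.hf)) j + 0 = s.qc j :=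
    fun j => add_zero _
  simp only [e] at key
  exact key

/-- **row [K] from its inputs** -/
theorem rowK_of (h1 : SE1) (h2 : SwP) (h3 : StP) (h4 : JuP) (h5 : NdP) : RowK := by
  obtain ⟨CJj, hCJj, h4⟩ := h4
  refine ⟨fun x => CJj x + 2 * CJu x + 1, fun x => ?_, ?_⟩
  · have a1 := hCJj x
    have a2 := CJu_nonneg x
    positivity
  refine ((h1.and h2).and (h3.and (h4.and h5))).mono ?_
  rintro b η x δh e3 σ ε ρ hb hη _ hδh he3 hσb hσ hε hρ ⟨⟨H1, H2⟩, ⟨cL, cL0, H3⟩, H4, ⟨cN, cN0, H5⟩⟩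
  refine ⟨2 * KrK x, fun Lk hLk L1 L2 hL1 hL12 κ hκ => ⟨cL + cN, by positivity, ?_⟩⟩
  have hbK : (0 : ℝ) ≤ (bK : ℝ) := Nat.cast_nonneg _
  set L : ℕ := L1 + Lk + 2 with hL
  have S1 := H1 (23 + 3 * bK + cL) L1 L2 Lk L (by positivity) hL1 hLk (by omega)
  have S2 := H2 L κ hκ
  have S3 := H3 L
  have S6 : Suf σ ε fun g m B h => RN0 ρ x L m B := Suf.of_ev3 fun _ _ => (ev_RN0 ρ x L).out
  refine ((S1.and S2).and ((S3.and H4).and (H5.and S6))).mono ?_
  rintro g m B h hg ⟨⟨T1, T2⟩, ⟨T3, T4⟩, T5, T6⟩ s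
  obtain ⟨Sw, w1, w2, w3⟩ := T2 s
  have hmm : 0 ≤ s.mm := mul_nonneg (Nat.cast_nonneg _) (Real.log_nonneg (by norm_num))
  have a1 := hCJj x
  have a2 := CJu_nonneg x
  refine ⟨errK s (23 + 3 * bK + cL) Sw L1 L2 Lk, Sw, s.mm * (CJj x + 2 * CJu x + 1), by positivity, le_rfl, ?_,
    T1 s Sw w1, w2, ?_⟩
  · intro j
    refine H833.errO_nonneg (by positivity) (by norm_num) (Nat.cast_nonneg _) (A0K_nonneg m hρ.c'0.le) (by norm_num)
      (fun j => ?_) j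
    unfold collK
    split_ifs
    · exact cc1_nonneg _ _ _ _ _ _ _ _ _ _
    · exact le_rfl
  · exact winK_of hρ s (L := L) (by omega) (by omega) T6 cL0 a1 w3 (T3 s) (T4 s) (T5 s)

end RK

end Vale.Agent.P106.U.H495
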