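import Vale.Agent.P106.U.H495.RK2
import Vale.Agent.P106.U.H652.SE1K
import Vale.Agent.P106.U.H205.SwP
import Vale.Agent.P106.U.H572.StP
import Vale.Agent.P106.U.H457.JuP
import Vale.Agent.P106.U.H457.NdP

/-!
# P106 / U / H495 : row [K] of one scale (helper495)
-/

set_option autoImplicit false

namespace Vale.Agent.P106.U.H495

/-- **row [K]** : the light windows of kind `1` -/
theorem rowK_st : MIC.RowK :=
  RK.rowK_of H652.SE.se1 H205.SwP.swP H572.StP.stP H457.juP H457.ndP

end Vale.Agent.P106.U.H495
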