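import Vale.Agent.P106.U.H495.Good
import Vale.Agent.P106.U.H495.DichDefs

/-!
# P106 / U / H495 : selection of one value of a letter (helper495)

`sel2` : a likely event and two functionals of the conditioned laws: one value of the letter is in the event and both functionals are
at most `2 / μ` times their means.
-/

set_option autoImplicit false

namespace Vale.Agent.P106.U.H495

open Finset Vale.Agent.P127 Vale.Agent.P127.Stk Vale.Agent.P106.U.EndA

variable {Ω : Type} [Fintype Ω] {ε : Type*}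

open Classical in
theorem mul_prE_lt (P : Law Ω) (f : Ω → ℝ) (hf : ∀ ω, 0 < P.w ω → 0 ≤ f ω) (E : Ω → Prop) (c : ℝ)
    (hE : ∀ ω, E ω → 0 < P.w ω ∧ c < f ω) (hpos : 0 < prE P E) : c * prE P E < P.ex f := by
  obtain ⟨ω0, h0⟩ : ∃ ω, E ω := by
    by_contra hno
    push Not at hno
    have : prE P E = 0 := by
      unfold prE
      refine Finset.sum_eq_zero fun ω hω => ?_
      exact absurd (Finset.mem_filter.1 hω).2 (hno ω)
    linarith
  unfold prE Law.ex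
  rw [Finset.sum_filter, Finset.mul_sum]
  refine Finset.sum_lt_sum ?_ ⟨ω0, mem_univ _, ?_⟩
  · intro ω _
    by_cases h : E ω
    · rw [if_pos h, mul_comm]
      exact mul_le_mul_of_nonneg_left (hE ω h).2.le (hE ω h).1.le
    · rw [if_neg h, mul_zero]
      rcases (P.nn ω).eq_or_lt with h1 | h1
      · rw [← h1, zero_mul]
      · exact mul_nonneg h1.le (hf ω h1)
  · rw [if_pos h0, mul_comm]
    exact mul_lt_mul_of_pos_left (hE ω0 h0).2 (hE ω0 h0).1

/-- Markov inequality -/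
theorem mass_lt (P : Law Ω) (e : Ω → ε) (f : ε → ℝ) {a μ : ℝ} (hμ : 0 < μ)
    (hf : ∀ ω, 0 < P.w ω → 0 ≤ f (e ω)) (hs : ∑ z ∈ img e, P.pr e z * f z ≤ a) :
    prE P (fun ω => 0 < P.w ω ∧ 2 * a / μ < f (e ω)) < μ / 2 := by
  rw [← P.ex_comp e f] at hs
  have ha : 0 ≤ a := (P.ex_nonneg (f := fun ω => f (e ω)) hf).trans hs
  by_contra hcon
  push Not at hcon
  have h1 := mul_prE_lt P (fun ω => f (e ω)) hf (fun ω => 0 < P.w ω ∧ 2 * a / μ < f (e ω))
    (2 * a / μ) (fun ω h => h) (by linarith)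
  have h2 : (2 * a / μ) * (μ / 2) ≤
      (2 * a / μ) * prE P (fun ω => 0 < P.w ω ∧ 2 * a / μ < f (e ω)) :=
    mul_le_mul_of_nonneg_left hcon (by positivity)
  have h3 : (2 * a / μ) * (μ / 2) = a := by
    field_simp
  linarith

/-- union bound -/
theorem prE_or_le (P : Law Ω) {G A B : Ω → Prop} (h : ∀ ω, 0 < P.w ω → G ω → A ω ∨ B ω) :
    prE P G ≤ prE P A + prE P B := by
  unfold prE
  rw [Finset.sum_filter, Finset.sum_filter, Finset.sum_filter, ← Finset.sum_add_distrib]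
  refine Finset.sum_le_sum fun ω _ => ?_
  rcases (P.nn ω).eq_or_lt with h0 | h0
  · rw [← h0]
    simp
  · by_cases hg : G ω
    · rcases h ω h0 hg with ha | hb
      · by_cases hb : B ω <;> simp [hg, ha, hb, h0.le]
      · by_cases ha : A ω <;> simp [hg, ha, hb, h0.le]
    · by_cases ha : A ω <;> by_cases hb : B ω <;> simp [hg, ha, hb, h0.le]

/-- **selection** -/
theorem sel2 (P : Law Ω) (e : Ω → ε) (G : Ω → Prop) {μ a1 a2 : ℝ} (hμ : 0 < μ) (hG : μ ≤ prE P G)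
    (f1 f2 : ε → ℝ) (hf1 : ∀ ω, 0 < P.w ω → 0 ≤ f1 (e ω)) (hf2 : ∀ ω, 0 < P.w ω → 0 ≤ f2 (e ω))
    (h1 : ∑ z ∈ img e, P.pr e z * f1 z ≤ a1) (h2 : ∑ z ∈ img e, P.pr e z * f2 z ≤ a2) :
    ∃ ω, 0 < P.w ω ∧ G ω ∧ f1 (e ω) ≤ 2 * a1 / μ ∧ f2 (e ω) ≤ 2 * a2 / μ := by
  classical
  by_contra hcon
  push Not at hcon
  have k1 := mass_lt P e f1 hμ hf1 h1
  have k2 := mass_lt P e f2 hμ hf2 h2
  have k3 : prE P G ≤ prE P (fun ω => 0 < P.w ω ∧ 2 * a1 / μ < f1 (e ω)) +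
      prE P (fun ω => 0 < P.w ω ∧ 2 * a2 / μ < f2 (e ω)) := by
    refine prE_or_le P fun ω h hg => ?_
    by_cases hx : f1 (e ω) ≤ 2 * a1 / μ
    · exact Or.inr ⟨h, hcon ω h hg hx⟩
    · exact Or.inl ⟨h, not_le.1 hx⟩
  linarith

end Vale.Agent.P106.U.H495
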