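import Vale.Agent.P106.U.H300.N2
import Vale.Agent.P106.U.H118.RiseC

/-!
# P106 / U / H495 : the nominal positions are nested up to a bounded number of choices (helper495)

* `vz_near` : `H(VZ i b | cell j b, VZ j b) ≤ 2 log (2 MK K + 3)` for `i ≤ j`.
* `cv_near` : `H(cell i b, VZ i b | cell j b, VZ j b) ≤ 11 log (2 MK K + 3)`.
-/

set_option autoImplicit false

namespace Vale.Agent.P106.U.H495

open Finset Vale.Agent.P127 Vale.Agent.P127.Stk
open Vale.Agent.P127.U.CellD (q2 rd Nb q2_pos q2_add q2_le rd_err rd_sub)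
open Vale.Agent.P106.U.Cell Vale.Agent.P106.U.Cell.Pth
open Vale.Agent.P106.U.H300 (MK le_MK)

variable {Ω τ : Type} {C : Pth Ω τ} {i j b : ℕ} {ω ω' : Ω} {K : ℝ}

/-- the `X`-position at the earlier time -/
theorem x_clo (hij : i ≤ j) (h : C.cell j b ω = C.cell j b ω') (hv : C.VZ j b ω = C.VZ j b ω') :
    |(C.l ω').X (C.s i ω) - (C.l ω).X (C.s i ω)| ≤ 2 * q2 (C.a i + b) := by
  have hT := (cell_iff.1 h).1
  have hs : C.s j ω' = C.s j ω := s_eq hT
  have h1 : |(C.l ω').X (C.s j ω) - (C.l ω).X (C.s j ω)| ≤ q2 (C.a j + b) := by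
    have := congrArg Prod.fst hv
    simp only [Pth.VZ] at this
    rw [hs] at this
    exact near_of_fl this
  have h2 : |(C.l ω').v - (C.l ω).v| ≤ q2 b := near_of_fl (cell_iff.1 h).2.1
  have h3 : |C.s i ω - C.s j ω| ≤ q2 (C.a i) := s_near C hij ω
  have e : (C.l ω').X (C.s i ω) - (C.l ω).X (C.s i ω) =
      ((C.l ω').X (C.s j ω) - (C.l ω).X (C.s j ω)) +
      (C.s i ω - C.s j ω) * ((C.l ω').v - (C.l ω).v) := by
    unfold Ray.X; ring
  have h4 := abs_mul_le h3 h2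
  rw [← q2_add] at h4
  have h5 : q2 (C.a j + b) ≤ q2 (C.a i + b) := q2_le (by have := C.ha hij; omega)
  rw [e]
  refine (abs_add_le _ _).trans ?_
  linarith

/-- the null coordinate at the earlier time -/
theorem z_clo (h1 : 1 ≤ K) (hK : C.Ok K ω) (hij : i ≤ j) (hlj : C.Lev j b)
    (h : C.cell j b ω = C.cell j b ω') (hv : C.VZ j b ω = C.VZ j b ω') :
    |C.Zs b (C.s i ω) ω' - C.Zs b (C.s i ω) ω| ≤ 12 * K ^ 2 * q2 (C.a i + 2 * b) := by
  have hc := cell_iff.1 h
  have hT := hc.1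
  have hs : C.s j ω' = C.s j ω := s_eq hT
  have hN := Nr_of_cell' h1 hK hlj h
  have g1 : |C.Zs b (C.s j ω) ω' - C.Zs b (C.s j ω) ω| ≤ q2 (C.a j + 2 * b) := by
    have := congrArg Prod.snd hv
    simp only [Pth.VZ] at this
    rw [hs] at this
    exact near_of_fl this
  have g3 : |C.s i ω - C.s j ω| ≤ q2 (C.a i) := s_near C hij ω
  have hrv : rd b (C.l ω').v = rd b (C.l ω).v := by
    unfold rd
    rw [← hc.2.1]
  have hrw : C.ro 1 (b - C.μ) (C.l ω').w = C.ro 1 (b - C.μ) (C.l ω).w := by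
    have := hc.2.2 1
    rw [va1, va1, lv1] at this
    unfold Pth.ro rd
    rw [this]
  have dv := hN.v
  have dw := hN.w
  have av : |((C.l ω').v + (C.l ω).v) / 2 - rd b (C.l ω).v| ≤ q2 b := by
    have a1 := rd_err b (C.l ω).v
    have a2 := rd_err b (C.l ω').v
    rw [hrv] at a2
    rw [abs_le] at *
    constructor <;> linarith [a1.1, a1.2, a2.1, a2.2]
  have aw : |((C.l ω').w + (C.l ω).w) / 2 - C.ro 1 (b - C.μ) (C.l ω).w| ≤ q2 (b - C.μ) := by
    have a1 := C.ro_err 1 (b - C.μ) (C.l ω).w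
    have a2 := C.ro_err 1 (b - C.μ) (C.l ω').w
    rw [hrw] at a2
    rw [abs_le] at *
    constructor <;> linarith [a1.1, a1.2, a2.1, a2.2]
  have e : C.Zs b (C.s i ω) ω' - C.Zs b (C.s i ω) ω =
      (C.Zs b (C.s j ω) ω' - C.Zs b (C.s j ω) ω) + (C.s i ω - C.s j ω) *
      (((C.l ω').v - (C.l ω).v) * (((C.l ω').v + (C.l ω).v) / 2 - rd b (C.l ω).v) +
        ((C.l ω').w - (C.l ω).w) * (((C.l ω').w + (C.l ω).w) / 2 - C.ro 1 (b - C.μ) (C.l ω).w)) := by
    unfold Pth.Zs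
    rw [hrv, hrw]
    unfold Ray.Z Ray.X Ray.N
    ring
  have m1 := abs_mul_le dv av
  have m2 := abs_mul_le dw aw
  rw [← q2_add] at m1
  have K0 : 0 ≤ K ^ 2 := by positivity
  have K2 : 1 ≤ K ^ 2 := one_le_pow₀ h1
  have m2' : 10 * K ^ 2 * q2 (b + 2 * C.μ) * q2 (b - C.μ) ≤ 10 * K ^ 2 * q2 (2 * b) := by
    rw [mul_assoc, ← q2_add]
    refine mul_le_mul_of_nonneg_left (q2_le (by omega)) (by positivity)
  have m1' : q2 (b + b) = q2 (2 * b) := by rw [two_mul]
  have m3 : |((C.l ω').v - (C.l ω).v) * (((C.l ω').v + (C.l ω).v) / 2 - rd b (C.l ω).v) +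
        ((C.l ω').w - (C.l ω).w) * (((C.l ω').w + (C.l ω).w) / 2 - C.ro 1 (b - C.μ) (C.l ω).w)| ≤
        11 * K ^ 2 * q2 (2 * b) := by
    refine (abs_add_le _ _).trans ?_
    have := q2_pos (2 * b)
    nlinarith
  have m4 := abs_mul_le g3 m3
  have m5 : q2 (C.a i) * (11 * K ^ 2 * q2 (2 * b)) = 11 * K ^ 2 * q2 (C.a i + 2 * b) := by
    rw [q2_add]; ring
  have m6 : q2 (C.a j + 2 * b) ≤ q2 (C.a i + 2 * b) := q2_le (by have := C.ha hij; omega)
  rw [e]
  refine (abs_add_le _ _).trans ?_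
  have := q2_pos (C.a i + 2 * b)
  nlinarith

variable [Fintype Ω]

/-- **the nominal positions are nested** -/
theorem vz_near (P : Law Ω) (C : Pth Ω τ) (h1 : 1 ≤ K) (hK : ∀ ω, 0 < P.w ω → C.Ok K ω)
    (hij : i ≤ j) (hlj : C.Lev j b) :
    hc P (C.VZ i b) (fun ω => (C.cell j b ω, C.VZ j b ω)) ≤ 2 * Real.log (2 * MK K + 3) := by
  classical
  have hM := le_MK K
  have K7 : (1 : ℝ) ≤ K ^ 7 := one_le_pow₀ h1
  have K27 : K ^ 2 ≤ K ^ 7 := pow_le_pow_right₀ h1 (by norm_num)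
  have e := hc_le_log P (C.VZ i b) (fun ω => (C.cell j b ω, C.VZ j b ω)) ((2 * MK K + 3) ^ 2)
    (fun ω hω => by
      set x := (C.VZ i b ω).1 with hx
      set z := (C.VZ i b ω).2 with hz
      refine ⟨(Finset.Icc (x - (MK K + 1)) (x + (MK K + 1))) ×ˢ
        (Finset.Icc (z - (MK K + 1)) (z + (MK K + 1))), ?_, fun ω' hω' e => ?_⟩
      · rw [Finset.card_product, Int.card_Icc, Int.card_Icc]
        have e1 : x + ((MK K : ℤ) + 1) + 1 - (x - (MK K + 1)) = ((2 * MK K + 3 : ℕ) : ℤ) := by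
          push_cast; ring
        have e2 : z + ((MK K : ℤ) + 1) + 1 - (z - (MK K + 1)) = ((2 * MK K + 3 : ℕ) : ℤ) := by
          push_cast; ring
        rw [e1, e2, Int.toNat_natCast, pow_two]
      · simp only [Prod.mk.injEq] at e
        have hcell : C.cell j b ω = C.cell j b ω' := e.1.symm
        have hvz : C.VZ j b ω = C.VZ j b ω' := e.2.symm
        have hsi : C.s i ω' = C.s i ω := s_eq (T_mono hij (cell_iff.1 hcell).1)
        have g1 := x_clo hij hcell hvz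
        have g2 := z_clo h1 (hK ω hω) hij hlj hcell hvz
        have q0 := q2_pos (C.a i + b)
        have q1 := q2_pos (C.a i + 2 * b)
        have g3 : |(C.l ω').X (C.s i ω) - (C.l ω).X (C.s i ω)| ≤ (MK K : ℕ) * q2 (C.a i + b) := by
          refine g1.trans (mul_le_mul_of_nonneg_right ?_ q0.le)
          linarith
        have g4 : |C.Zs b (C.s i ω) ω' - C.Zs b (C.s i ω) ω| ≤ (MK K : ℕ) * q2 (C.a i + 2 * b) := by
          refine g2.trans (mul_le_mul_of_nonneg_right ?_ q1.le)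
          linarith
        have g5 := H364.fl1_le_of_near g3
        have g6 := H364.fl1_le_of_near g4
        have f1 : (C.VZ i b ω').1 = fl1 (C.a i + b) ((C.l ω').X (C.s i ω)) := by
          unfold Pth.VZ; rw [hsi]
        have f2 : (C.VZ i b ω').2 = fl1 (C.a i + 2 * b) (C.Zs b (C.s i ω) ω') := by
          unfold Pth.VZ; rw [hsi]
        have f3 : x = fl1 (C.a i + b) ((C.l ω).X (C.s i ω)) := rfl
        have f4 : z = fl1 (C.a i + 2 * b) (C.Zs b (C.s i ω) ω) := rfl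
        rw [← f1, ← f3, abs_le] at g5
        rw [← f2, ← f4, abs_le] at g6
        rw [Finset.mem_product, Finset.mem_Icc, Finset.mem_Icc]
        refine ⟨⟨?_, ?_⟩, ?_, ?_⟩
        · linarith [g5.1]
        · linarith [g5.2]
        · linarith [g6.1]
        · linarith [g6.2])
  refine e.trans (le_of_eq ?_)
  push_cast
  rw [Real.log_pow]
  push_cast
  ring

/-- **cells and nominal positions are nested** -/
theorem cv_near (P : Law Ω) (C : Pth Ω τ) (h1 : 1 ≤ K) (hK : ∀ ω, 0 < P.w ω → C.Ok K ω)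
    (hij : i ≤ j) (hli : C.Lev i b) :
    hc P (fun ω => (C.cell i b ω, C.VZ i b ω)) (fun ω => (C.cell j b ω, C.VZ j b ω)) ≤
      11 * Real.log (2 * MK K + 3) := by
  have hlj := H300.Lev_mono C hij hli
  have e1 := vz_near P C h1 hK hij hlj
  have e2 := H300.n2 P C h1 hK hij hli
  have e3 := hc_pair P (C.cell i b) (C.VZ i b) (fun ω => (C.cell j b ω, C.VZ j b ω))
  have e4 : hc P (C.cell i b) (fun ω => (C.cell j b ω, C.VZ j b ω)) ≤
      hc P (C.cell i b) (C.cell j b) :=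
    hc_mono_right P _ fun _ _ _ _ e => congrArg Prod.fst e
  have e5 : hc P (C.VZ i b) (fun ω => (C.cell i b ω, (C.cell j b ω, C.VZ j b ω))) ≤
      hc P (C.VZ i b) (fun ω => (C.cell j b ω, C.VZ j b ω)) :=
    hc_mono_right P _ fun _ _ _ _ e => congrArg Prod.snd e
  linarith

end Vale.Agent.P106.U.H495
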