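import Vale.Agent.P106.U.H495.WinP

/-!
# P106 / U / H495 : windows of the kind kappa inside the V-runs (helper495)

* `win_K` : differences of the potential along a subsequence `f` of the compressed path, cells `Mt (ix j)`; one position `A q` and
  one cell `Mt (ix (f q))` per member of the subsequence.
* `KWin` : everything that is known about one window; `light_K` : **the windows of the kind kappa in the form of the summation**
  (`H833.mic_q`, `H118.glue_L`), weight `4 m` per diagonal step, positions at the a-steps `lm z`.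
-/

set_option autoImplicit false

namespace Vale.Agent.P106.U.H495

open Finset Vale.Agent.P127 Vale.Agent.P127.Stk Vale.Agent.P127.U.Cell
open Vale.Agent.P106.U.H833 (psi psi_sub psi_ge psi_triv qc qc_nonneg cost_sum cost_time fn_chain hc_le_near)
open Vale.Agent.P106.U.H118 (Sdat CS full)

section

variable {Ω : Type} [Fintype Ω] (P : Law Ω) {Λ κ ζ δ α θ : Type*}

/-- everything that is known about one window along `f 0, .., f r` -/
structure KWin (l : Ω → Λ) (Z : ℕ → Ω → ζ) (tm : ℕ → Ω → δ) (Mt : ℕ → Ω → κ) (f : ℕ → ℕ) (r : ℕ) (w : ℕ → ℝ)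
    (A : ℕ → Ω → α) (Θ : Ω → θ) (cA cN cJ cE : ℝ) : Prop where
  hE : hc P (Mt (f 0)) (fun ω => (l ω, Z (f 0) ω)) ≤ cE
  hτC : Fn P (tm (f r)) (Mt (f r))
  hΘ : Fn P (tm (f r)) Θ
  hN : ∀ q ≤ r, hc P (Mt (f 0)) (Mt (f q)) ≤ cN
  hA : ∀ q < r, hc P (A q) (fun ω => (A (q + 1) ω, Θ ω)) ≤ cA
  hJ : hc P (A r) (fun ω => (Θ ω, Mt (f r) ω)) ≤ cJ
  hs : ∀ q < r, w q ≤ hc P (A (q + 1)) (fun ω => (A q ω, (Mt (f (q + 1)) ω, Θ ω)))

/-- **window along a subsequence** : the cells `Mt j` at the indices of the compressed path -/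
theorem win_K {nz : ℕ} (l : Ω → Λ) {Z : ℕ → Ω → ζ} {tm : ℕ → Ω → δ} (Mt : ℕ → Ω → κ)
    (hZ : ∀ j < nz, Fn P (Z j) (Z (j + 1))) (htm : ∀ j < nz, Fn P (tm j) (tm (j + 1)))
    {f : ℕ → ℕ} {r : ℕ} (hf : f 0 ≤ f r) (hfn : f r ≤ nz) {w : ℕ → ℝ} {A : ℕ → Ω → α} {Θ : Ω → θ} {cA cN cJ cE : ℝ}
    (W : KWin P l Z tm Mt f r w A Θ cA cN cJ cE) :
    ∑ q ∈ range r, w q - (cA + cN) * r - (cJ + cN + cE) - ∑ j ∈ Ico (f 0) (f r), qc P l Z tm j ≤
      psi P l Z Mt (f r) - psi P l Z Mt (f 0) := by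
  have h0 := psi_geE P l Z Mt (tm (f r)) (fn_chain P hZ hf hfn) W.hE W.hτC
  have hcost := cost_time P l (Z := Z) (tm := tm) htm hf hfn
  have h1 := chain_pos P (fun q => Mt (f q)) Θ A (r := r) (s := w) (c := fun _ => cA) (ν := fun _ => cN)
    W.hA (fun q hq => W.hN (q + 1) hq) W.hs
  have h2 : hc P (A r) (fun ω => (Θ ω, Mt (f 0) ω)) ≤
      hc P (Mt (f r)) (fun ω => (tm (f r) ω, Mt (f 0) ω)) + cJ := by
    have f1 := hc_le_add P (A r) (Mt (f r)) (fun ω => (Θ ω, Mt (f 0) ω))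
    have f2 : hc P (A r) (fun ω => (Mt (f r) ω, (Θ ω, Mt (f 0) ω))) ≤ hc P (A r) (fun ω => (Θ ω, Mt (f r) ω)) :=
      hc_mono_right P _ fun ω ω' _ _ e => by
        simp only [Prod.mk.injEq] at e ⊢
        exact ⟨e.2.1, e.1⟩
    have f3 : hc P (Mt (f r)) (fun ω => (Θ ω, Mt (f 0) ω)) ≤ hc P (Mt (f r)) (fun ω => (tm (f r) ω, Mt (f 0) ω)) :=
      hc_mono_right P _ fun ω ω' p p' e => by
        simp only [Prod.mk.injEq] at e ⊢
        exact ⟨W.hΘ ω ω' p p' e.1, e.2⟩
    have f4 := W.hJ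
    linarith
  have h3 : ∑ q ∈ range r, (w q - cA - cN) = ∑ q ∈ range r, w q - (cA + cN) * r := by
    rw [Finset.sum_sub_distrib, Finset.sum_sub_distrib, Finset.sum_const, Finset.sum_const, Finset.card_range,
      nsmul_eq_mul, nsmul_eq_mul]
    ring
  have h5 := W.hN r le_rfl
  rw [h3] at h1
  linarith

/-- **the windows of the kind kappa in the form of the summation** : `V z` = the a-step of the level `z` is of kind kappa, `Sw`
contains the levels where a piece of kind kappa begins; `W` : the window over the a-steps `lm (a i), .., lm (a k - 1)`; `q` any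
price `≥ qc` -/
theorem light_K {nz M L1 : ℕ} {g : ℕ → Prop} {a R lm : ℕ → ℕ} {m c1 cA cN cJ cE : ℝ} (hm : 0 ≤ m) (hL1 : 1 ≤ L1)
    {err q : ℕ → ℝ} (herr : ∀ j, 0 ≤ err j) (D : Sdat nz g a R) (g0 : g 0) (hl : Lvl nz a lm) (V : ℕ → Prop)
    (Sw : Finset ℕ) (hSw : ∀ z, a 0 ≤ z → z + 1 < a nz → V (z + 1) → ¬ V z → z ∈ Sw)
    (hd : ∀ z, a 0 ≤ z → z + 1 < a nz → V z → R (lm (z + 1)) = R (lm z) + 1)
    (l : Ω → Λ) {Z : ℕ → Ω → ζ} {tm : ℕ → Ω → δ} (Mt : ℕ → Ω → κ)
    (hZ : ∀ j < nz, Fn P (Z j) (Z (j + 1))) (htm : ∀ j < nz, Fn P (tm j) (tm (j + 1)))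
    (hcA : 0 ≤ cA) (hcN : 0 ≤ cN) (hcJ : 0 ≤ cJ) (hcE : 0 ≤ cE) (hc1 : cA + cN + cE ≤ c1)
    (hq : ∀ j, qc P l Z tm j ≤ q j)
    {i k : ℕ} (hik : i ≤ k) (hk : k ≤ nz) (hkn : a k < a nz) (hVk : ∀ z, a i ≤ z → z ≤ a k → V z)
    (htr : ∀ i' k', i ≤ i' → i' ≤ k' → k' ≤ k → - c1 - ∑ j ∈ Ico i' k', q j ≤ psi P l Z Mt k' - psi P l Z Mt i')
    {A : ℕ → Ω → α} {Θ : Ω → θ}
    (W : a i < a k → KWin P l Z tm Mt (fun z => lm (a i + z)) (a k - 1 - a i) (fun z => 4 * m - err (lm (a i + z)))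
      A Θ cA cN cJ cE) :
    ∑ j ∈ CS M nz g a R i k, (full m a R j - errC M nz g a R Sw L1 m err j) - c1 * ((k : ℝ) - i) -
      ((cJ + cN + cE) + 5 * m + 2 * c1) - ∑ j ∈ Ico i k, q j ≤ psi P l Z Mt k - psi P l Z Mt i := by
  classical
  -- the trivial inequality is used on `[i, k]` only: continue the potential by constants
  set ψ : ℕ → ℝ := fun j => psi P l Z Mt (max i (min j k)) with hψ
  have hc10 : 0 ≤ c1 := by linarith
  have hq0 : ∀ j, 0 ≤ q j := fun j => (qc_nonneg P l Z tm j).trans (hq j)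
  have hψ1 : ∀ j, i ≤ j → j ≤ k → ψ j = psi P l Z Mt j := fun j h1 h2 => by
    rw [hψ]
    simp only
    rw [min_eq_left h2, max_eq_right h1]
  have htr' : ∀ i' k', i' ≤ k' → k' ≤ nz → - c1 - ∑ j ∈ Ico i' k', q j ≤ ψ k' - ψ i' := by
    intro i' k' h1 h2
    have e1 := htr (max i (min i' k)) (max i (min k' k)) (le_max_left _ _)
      (max_le_max le_rfl (min_le_min_right k h1)) (max_le hik (min_le_right _ _))
    have e2 : ∑ j ∈ Ico (max i (min i' k)) (max i (min k' k)), q j ≤ ∑ j ∈ Ico i' k', q j := by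
      refine Finset.sum_le_sum_of_subset_of_nonneg (fun j hj => ?_) fun j _ _ => hq0 j
      rw [Finset.mem_Ico] at hj ⊢
      obtain ⟨e3, e4⟩ := hj
      rw [max_le_iff] at e3
      rw [lt_max_iff] at e4
      constructor
      · rcases le_total i' k with h | h
        · rw [min_eq_left h] at e3
          exact e3.2
        · exfalso
          rw [min_eq_right h] at e3
          rcases e4 with e4 | e4
          · omega
          · have := min_le_right k' k
            omega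
      · rcases e4 with e4 | e4
        · omega
        · exact lt_of_lt_of_le e4 (min_le_left _ _)
    show - c1 - ∑ j ∈ Ico i' k', q j ≤ psi P l Z Mt (max i (min k' k)) - psi P l Z Mt (max i (min i' k))
    linarith
  have h0 := D.am (Nat.zero_le i) (hik.trans hk)
  have hak := D.am hik hk
  have key := light_V (M := M) (L1 := L1) (m := m) (c1 := c1) (cj := cJ + cN + cE) hm hc10 (by linarith) hL1 (ψ := ψ) (q := q) herr D g0 hl V Sw
    hSw hd htr' hik hk hkn hVk
    (by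
      intro h
      have W' := W h
      have hil : i ≤ lm (a i) := hl.le D (hik.trans hk) (by omega)
      have hkl : lm (a k - 1) < k := hl.lt' D hk (by omega) (by omega) (by omega)
      have hll : lm (a i) ≤ lm (a k - 1) := by
        rcases Nat.eq_or_lt_of_le (show a i ≤ a k - 1 by omega) with h1 | h1
        · rw [← h1]
        · exact (hl.mono D h0 h1 (by omega)).le
      have e0 : a i + (a k - 1 - a i) = a k - 1 := by omega
      have e1 := win_K P l Mt hZ htm (f := fun z => lm (a i + z)) (r := a k - 1 - a i)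
        (by
          show lm (a i + 0) ≤ lm (a i + (a k - 1 - a i))
          rw [e0, Nat.add_zero]
          exact hll)
        (by
          show lm (a i + (a k - 1 - a i)) ≤ nz
          rw [e0]
          omega) W'
      simp only [Nat.add_zero] at e1
      rw [e0] at e1
      rw [hψ1 _ (by omega) (by omega), hψ1 _ hil (by omega)]
      have e2 : ∑ j ∈ Ico (lm (a i)) (lm (a k - 1)), qc P l Z tm j ≤ ∑ j ∈ Ico (lm (a i)) (lm (a k - 1)), q j :=
        Finset.sum_le_sum fun j _ => hq j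
      have e3 : (cA + cN) * ((a k - 1 - a i : ℕ) : ℝ) ≤ c1 * ((a k - 1 - a i : ℕ) : ℝ) :=
        mul_le_mul_of_nonneg_right (by linarith) (Nat.cast_nonneg _)
      linarith)
  rw [hψ1 k hik le_rfl, hψ1 i le_rfl hik] at key
  exact key

end

end Vale.Agent.P106.U.H495
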