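import Vale.Agent.P106.U.H495.WndV
import Vale.Agent.P106.U.H833.Cap2

/-!
# P106 / U / H495 : windows of the kind deep phi inside the V-runs (helper495)

The unit steps `u` of the record, `ix j` = the state `j` of the compressed path; cells `Mt u`; the position `A u` is written in ONE
frame for the whole window and does not change at the skipped steps.

* `win_ix` : the window, `triv_ix` : the trivial piece.
* `PWin`, `light_P` : the windows in the form of the summation (`H833.mic_q`, `H118.glue_L`).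
-/

set_option autoImplicit false

namespace Vale.Agent.P106.U.H495

open Finset Vale.Agent.P127 Vale.Agent.P127.Stk Vale.Agent.P127.U.Cell
open Vale.Agent.P106.U.H833 (psi psi_sub psi_ge psi_triv qc qc_nonneg cost_sum cost_time fn_chain hc_le_near)
open Vale.Agent.P106.U.H118 (Sdat CS full)

section

variable {Ω : Type} [Fintype Ω] (P : Law Ω) {Λ κ ζ δ α θ : Type*}

/-- `H833.psi_ge` for a cell which is nearly a function of `(l, Z i)` -/
theorem psi_geE {Λ τT κ τt : Type*} (l : Ω → Λ) (T : ℕ → Ω → τT) (C : ℕ → Ω → κ) (τk : Ω → τt) {i k : ℕ} {cE : ℝ}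
    (hT : Fn P (T i) (T k)) (hE : hc P (C i) (fun ω => (l ω, T i ω)) ≤ cE) (hτC : Fn P τk (C k)) :
    hc P (C k) (fun ω => (τk ω, C i ω)) - hc P (C i) (C k) -
        hc P (T k) (fun ω => (τk ω, (l ω, T i ω))) - cE ≤ psi P l T C k - psi P l T C i := by
  rw [psi_sub P l T C hT]
  have h1 : hc P (C k) (C i) = hc P τk (C i) + hc P (C k) (fun ω => (τk ω, C i ω)) := by
    rw [← hc_pair P τk (C k) (C i)]
    refine hc_congr P ?_ ?_ (fun ω ω' _ _ e => e) (fun ω ω' _ _ e => e)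
    · intro ω ω' _ _ e
      simp only [Prod.mk.injEq] at e
      exact e.1.2
    · intro ω ω' p p' e
      simp only [Prod.mk.injEq] at e
      exact Prod.ext (hτC ω ω' p p' e.1) e.1
  have h2 : hc P τk (fun ω => (l ω, T i ω)) ≤ hc P τk (C i) + cE := by
    have f1 := hc_le_add P τk (C i) (fun ω => (l ω, T i ω))
    have f2 : hc P τk (fun ω => (C i ω, (l ω, T i ω))) ≤ hc P τk (C i) :=
      hc_mono_right P _ fun ω ω' _ _ e => by
        simp only [Prod.mk.injEq] at e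
        exact e.1
    linarith
  have h3 := hc_le_add P (T k) τk (fun ω => (l ω, T i ω))
  linarith

/-- **window along a subsequence** `ix` of the unit steps; `S` = the counted steps, `cE` : the first cell is nearly a function of
the ray side -/
theorem win_ix {nz : ℕ} (l : Ω → Λ) {Z : ℕ → Ω → ζ} {tm : ℕ → Ω → δ} (Mt : ℕ → Ω → κ) (ix : ℕ → ℕ)
    (hZ : ∀ j < nz, Fn P (Z j) (Z (j + 1))) (htm : ∀ j < nz, Fn P (tm j) (tm (j + 1)))
    {i k : ℕ} (hik : i ≤ k) (hk : k ≤ nz) {cA cN cJ cE : ℝ} (hE : hc P (Mt (ix i)) (fun ω => (l ω, Z i ω)) ≤ cE)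
    (hτC : Fn P (tm k) (Mt (ix k))) (Θ : Ω → θ) (hΘ : Fn P (tm k) Θ) (A : ℕ → Ω → α)
    (hN : hc P (Mt (ix i)) (Mt (ix k)) ≤ cN)
    (hN1 : ∀ j, i ≤ j → j < k → hc P (Mt (ix i)) (Mt (ix j + 1)) ≤ cN)
    (hAA : ∀ j, i ≤ j → j < k → Fn P (A (ix j + 1)) (A (ix (j + 1))) ∧ Fn P (A (ix (j + 1))) (A (ix j + 1)))
    (hA : ∀ j, i ≤ j → j < k → hc P (A (ix j)) (fun ω => (A (ix j + 1) ω, Θ ω)) ≤ cA)
    (hJ : hc P (A (ix k)) (fun ω => (Θ ω, Mt (ix k) ω)) ≤ cJ)
    (S : Finset ℕ) (hS : S ⊆ Ico i k) (w : ℕ → ℝ)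
    (hs : ∀ j ∈ S, w j ≤ hc P (A (ix j + 1)) (fun ω => (A (ix j) ω, (Mt (ix j + 1) ω, Θ ω)))) :
    ∑ j ∈ S, w j - (cA + cN) * ((k : ℝ) - i) - (cJ + cN + cE) - ∑ j ∈ Ico i k, qc P l Z tm j ≤
      psi P l Z (fun j => Mt (ix j)) k - psi P l Z (fun j => Mt (ix j)) i := by
  classical
  have h0 := psi_geE P l Z (fun j => Mt (ix j)) (tm k) (fn_chain P hZ hik hk) hE hτC
  have hcost := cost_time P l (Z := Z) (tm := tm) htm hik hk
  -- the chain of the positions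
  have h1 := chain_pos P (fun q => if q = 0 then Mt (ix i) else Mt (ix (i + (q - 1)) + 1)) Θ (fun q => A (ix (i + q)))
    (r := k - i) (s := fun q => if i + q ∈ S then max (w (i + q)) 0 else 0) (c := fun _ => cA) (ν := fun _ => cN)
    (by
      intro q hq
      refine le_trans (hc_mono_right P _ fun ω ω' p p' e => ?_) (hA (i + q) (by omega) (by omega))
      simp only [Prod.mk.injEq] at e ⊢
      exact ⟨(hAA (i + q) (by omega) (by omega)).1 ω ω' p p' e.1, e.2⟩)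
    (by
      intro q hq
      have := hN1 (i + q) (by omega) (by omega)
      simpa using this)
    (by
      intro q hq
      have e2 : (if i + q ∈ S then max (w (i + q)) 0 else 0) ≤
          hc P (A (ix (i + q) + 1)) (fun ω => (A (ix (i + q)) ω, (Mt (ix (i + q) + 1) ω, Θ ω))) := by
        have h3 := hc_nonneg P (A (ix (i + q) + 1)) (fun ω => (A (ix (i + q)) ω, (Mt (ix (i + q) + 1) ω, Θ ω)))
        split_ifs with h
        · exact max_le (hs _ h) h3
        · exact h3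
      have e3 : hc P (A (ix (i + q) + 1)) (fun ω => (A (ix (i + q)) ω, (Mt (ix (i + q) + 1) ω, Θ ω))) ≤
          hc P (A (ix (i + (q + 1)))) (fun ω => (A (ix (i + q)) ω, (Mt (ix (i + q) + 1) ω, Θ ω))) :=
        hc_mono_left P fun ω ω' p p' e => by
          simp only [Prod.mk.injEq] at e
          exact (hAA (i + q) (by omega) (by omega)).1 ω ω' p p' e.1
      simpa using e2.trans e3)
  simp only [if_true] at h1
  have h2 : hc P (A (ix (i + (k - i)))) (fun ω => (Θ ω, Mt (ix i) ω)) ≤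
      hc P (Mt (ix k)) (fun ω => (tm k ω, Mt (ix i) ω)) + cJ := by
    rw [show i + (k - i) = k by omega]
    have f1 := hc_le_add P (A (ix k)) (Mt (ix k)) (fun ω => (Θ ω, Mt (ix i) ω))
    have f2 : hc P (A (ix k)) (fun ω => (Mt (ix k) ω, (Θ ω, Mt (ix i) ω))) ≤ hc P (A (ix k)) (fun ω => (Θ ω, Mt (ix k) ω)) :=
      hc_mono_right P _ fun ω ω' _ _ e => by
        simp only [Prod.mk.injEq] at e ⊢
        exact ⟨e.2.1, e.1⟩
    have f3 : hc P (Mt (ix k)) (fun ω => (Θ ω, Mt (ix i) ω)) ≤ hc P (Mt (ix k)) (fun ω => (tm k ω, Mt (ix i) ω)) :=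
      hc_mono_right P _ fun ω ω' p p' e => by
        simp only [Prod.mk.injEq] at e ⊢
        exact ⟨hΘ ω ω' p p' e.1, e.2⟩
    linarith
  have h3 : ∑ q ∈ range (k - i), ((if i + q ∈ S then max (w (i + q)) 0 else 0) - cA - cN) =
      ∑ q ∈ range (k - i), (if i + q ∈ S then max (w (i + q)) 0 else 0) - (cA + cN) * ((k : ℝ) - i) := by
    rw [Finset.sum_sub_distrib, Finset.sum_sub_distrib, Finset.sum_const, Finset.sum_const, Finset.card_range,
      nsmul_eq_mul, nsmul_eq_mul, Nat.cast_sub hik]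
    ring
  have h4 : ∑ j ∈ S, w j ≤ ∑ q ∈ range (k - i), (if i + q ∈ S then max (w (i + q)) 0 else 0) := by
    have e1 : ∑ q ∈ range (k - i), (if i + q ∈ S then max (w (i + q)) 0 else 0) =
        ∑ j ∈ Ico i k, (if j ∈ S then max (w j) 0 else 0) := by
      rw [Finset.sum_Ico_eq_sum_range]
    rw [e1]
    calc ∑ j ∈ S, w j ≤ ∑ j ∈ S, (if j ∈ S then max (w j) 0 else 0) :=
          Finset.sum_le_sum fun j hj => by rw [if_pos hj]; exact le_max_left _ _
      _ ≤ ∑ j ∈ Ico i k, (if j ∈ S then max (w j) 0 else 0) :=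
          Finset.sum_le_sum_of_subset_of_nonneg hS fun j _ hj => by rw [if_neg hj]
  rw [h3] at h1
  linarith

/-- **trivial piece** along a subsequence -/
theorem triv_ix {nz : ℕ} (l : Ω → Λ) {Z : ℕ → Ω → ζ} {tm : ℕ → Ω → δ} (Mt : ℕ → Ω → κ) (ix : ℕ → ℕ)
    (hZ : ∀ j < nz, Fn P (Z j) (Z (j + 1))) (htm : ∀ j < nz, Fn P (tm j) (tm (j + 1)))
    {i k : ℕ} (hik : i ≤ k) (hk : k ≤ nz) {cN cE : ℝ} (hE : hc P (Mt (ix i)) (fun ω => (l ω, Z i ω)) ≤ cE)
    (hτC : Fn P (tm k) (Mt (ix k))) (hN : hc P (Mt (ix i)) (Mt (ix k)) ≤ cN) :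
    - (cN + cE) - ∑ j ∈ Ico i k, qc P l Z tm j ≤
      psi P l Z (fun j => Mt (ix j)) k - psi P l Z (fun j => Mt (ix j)) i := by
  have h := psi_geE P l Z (fun j => Mt (ix j)) (tm k) (fn_chain P hZ hik hk) hE hτC
  have h1 := hc_nonneg P ((fun j => Mt (ix j)) k) (fun ω => (tm k ω, (fun j => Mt (ix j)) i ω))
  have h2 := cost_time P l (Z := Z) (tm := tm) htm hik hk
  have h3 : hc P ((fun j => Mt (ix j)) i) ((fun j => Mt (ix j)) k) ≤ cN := hN
  linarith

/-- everything that is known about one window `[i, k)` of the compressed path; `S` = the counted steps, `w` their gains -/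
structure PWin (l : Ω → Λ) (Z : ℕ → Ω → ζ) (tm : ℕ → Ω → δ) (Mt : ℕ → Ω → κ) (ix : ℕ → ℕ) (i k : ℕ) (S : Finset ℕ)
    (w : ℕ → ℝ) (A : ℕ → Ω → α) (Θ : Ω → θ) (cA cN cJ cE : ℝ) : Prop where
  hE : hc P (Mt (ix i)) (fun ω => (l ω, Z i ω)) ≤ cE
  hτC : Fn P (tm k) (Mt (ix k))
  hΘ : Fn P (tm k) Θ
  hN : hc P (Mt (ix i)) (Mt (ix k)) ≤ cN
  hN1 : ∀ j, i ≤ j → j < k → hc P (Mt (ix i)) (Mt (ix j + 1)) ≤ cN
  hAA : ∀ j, i ≤ j → j < k → Fn P (A (ix j + 1)) (A (ix (j + 1))) ∧ Fn P (A (ix (j + 1))) (A (ix j + 1))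
  hA : ∀ j, i ≤ j → j < k → hc P (A (ix j)) (fun ω => (A (ix j + 1) ω, Θ ω)) ≤ cA
  hJ : hc P (A (ix k)) (fun ω => (Θ ω, Mt (ix k) ω)) ≤ cJ
  hs : ∀ j ∈ S, w j ≤ hc P (A (ix j + 1)) (fun ω => (A (ix j) ω, (Mt (ix j + 1) ω, Θ ω)))

/-- **the windows of the kind deep phi in the form of the summation** -/
theorem light_P {nz M : ℕ} {g : ℕ → Prop} {a R : ℕ → ℕ} {m : ℝ} {err : ℕ → ℝ} (l : Ω → Λ) {Z : ℕ → Ω → ζ}
    {tm : ℕ → Ω → δ} (Mt : ℕ → Ω → κ) (ix : ℕ → ℕ)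
    (hZ : ∀ j < nz, Fn P (Z j) (Z (j + 1))) (htm : ∀ j < nz, Fn P (tm j) (tm (j + 1)))
    {i k : ℕ} (hik : i ≤ k) (hk : k ≤ nz) {A : ℕ → Ω → α} {Θ : Ω → θ} {cA cN cJ cE : ℝ}
    (W : PWin P l Z tm Mt ix i k (CS M nz g a R i k) (fun j => full m a R j - err j) A Θ cA cN cJ cE) :
    ∑ j ∈ CS M nz g a R i k, (full m a R j - err j) - (cA + cN) * ((k : ℝ) - i) - (cJ + cN + cE) -
        ∑ j ∈ Ico i k, qc P l Z tm j ≤
      psi P l Z (fun j => Mt (ix j)) k - psi P l Z (fun j => Mt (ix j)) i :=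
  win_ix P l Mt ix hZ htm hik hk W.hE W.hτC Θ W.hΘ A W.hN W.hN1 W.hAA W.hA W.hJ _
    (fun _ hj => Finset.mem_Ico.2 (H118.mem_CS.1 hj).1) _ W.hs

/-- the N-step only where the error is small: `w` is a gain or nothing is claimed -/
theorem gain_le {β η : Type*} (X : Ω → β) (Y : Ω → η) {f e : ℝ} (hf : f ≤ e) : f - e ≤ hc P X Y := by
  have := hc_nonneg P X Y
  linarith

end

end Vale.Agent.P106.U.H495
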