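import Vale.Agent.P106.U.H495.WinK
import Vale.Agent.P106.U.H833.LigT
import Vale.Agent.P106.U.H118.HeavyRun
import Vale.Agent.P106.U.H101.Low

/-!
# P106 / U / H495 : young windows over a run (helper495)

`R` = run (with the low margin), `f` monotone (compressed path), `f N ≤ R.n`, potential of the cells `R.C.cell (f j) b` as at the
old levels; letters `Mt u` (785's `mtr`), one late letter `Θ` (function determines the time of the later step `i'`).

* `win_ixJ` : window along the compressed path, positions `A u` in one frame, junctions `j1`, `j2` at the two ends.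
* **`winP_run`** : the same over a run (kind deep phi), form of `MIC.light_all`, kinds 0 and 2; `xo` = price, `xo i` contains the
  exceptional part of the junction at `i`.
* **`winK_run`** : whole diagonal steps (kind kappa), form of `MIC.light_all`, kind 1.
-/

set_option autoImplicit false

namespace Vale.Agent.P106.U.H495

open Finset Vale.Agent.P127 Vale.Agent.P127.Stk
open Vale.Agent.P106.U.Cell Vale.Agent.P106.U.S3
open Vale.Agent.P106.U.H833 (psi psi_sub psi_ge psi_triv qc qc_nonneg cost_time fn_chain hc_le_near tdg tdg_fn tdg_T nst_t cNst)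
open Vale.Agent.P106.U.H118 (Sdat CS full Zw)

section

variable {Ω : Type} [Fintype Ω] (P : Law Ω) {Λ κ κ' ζ δ α θ : Type*}

/-- **window along the compressed path, with junctions** : `C j` the cells of the potential, `Mt u` the letters at the unit
steps, `ix j` the unit step of the state `j` -/
theorem win_ixJ {nz : ℕ} (l : Ω → Λ) {Z : ℕ → Ω → ζ} {tm : ℕ → Ω → δ} (C : ℕ → Ω → κ) (Mt : ℕ → Ω → κ') (ix : ℕ → ℕ)
    (hZ : ∀ j < nz, Fn P (Z j) (Z (j + 1))) (htm : ∀ j < nz, Fn P (tm j) (tm (j + 1)))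
    {i k : ℕ} (hik : i ≤ k) (hk : k ≤ nz) {cA cN cJ cC j1 j2 : ℝ} (hC : Fn P (C i) (fun ω => (l ω, Z i ω)))
    (hτC : Fn P (tm k) (C k)) (Θ : Ω → θ) (hΘ : Fn P (tm k) Θ) (A : ℕ → Ω → α)
    (hCC : hc P (C i) (C k) ≤ cC) (hj1 : hc P (C i) (Mt (ix i)) ≤ j1) (hj2 : hc P (Mt (ix k)) (C k) ≤ j2)
    (hN1 : ∀ j, i ≤ j → j < k → hc P (Mt (ix i)) (Mt (ix j + 1)) ≤ cN)
    (hAA : ∀ j, i ≤ j → j < k → Fn P (A (ix j + 1)) (A (ix (j + 1))) ∧ Fn P (A (ix (j + 1))) (A (ix j + 1)))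
    (hA : ∀ j, i ≤ j → j < k → hc P (A (ix j)) (fun ω => (A (ix j + 1) ω, Θ ω)) ≤ cA)
    (hJ : hc P (A (ix k)) (fun ω => (Θ ω, Mt (ix k) ω)) ≤ cJ)
    (S : Finset ℕ) (hS : S ⊆ Ico i k) (w : ℕ → ℝ)
    (hs : ∀ j ∈ S, w j ≤ hc P (A (ix j + 1)) (fun ω => (A (ix j) ω, (Mt (ix j + 1) ω, Θ ω)))) :
    ∑ j ∈ S, w j - (cA + cN) * ((k : ℝ) - i) - (cJ + cC + j1 + j2) - ∑ j ∈ Ico i k, qc P l Z tm j ≤
      psi P l Z C k - psi P l Z C i := by
  classical
  have h0 := psi_ge P l Z C (tm k) (fn_chain P hZ hik hk) hC hτC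
  have hcost := cost_time P l (Z := Z) (tm := tm) htm hik hk
  have h1 := chain_pos P (fun q => if q = 0 then Mt (ix i) else Mt (ix (i + (q - 1)) + 1)) Θ (fun q => A (ix (i + q)))
    (r := k - i) (s := fun q => if i + q ∈ S then max (w (i + q)) 0 else 0) (c := fun _ => cA) (ν := fun _ => cN)
    (by
      intro q hq
      refine le_trans (hc_mono_right P _ fun ω ω' p p' e => ?_) (hA (i + q) (by omega) (by omega))
      simp only [Prod.mk.injEq] at e ⊢
      exact ⟨(hAA (i + q) (by omega) (by omega)).1 ω ω' p p' e.1, e.2⟩)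
    (by
      intro q hq
      have := hN1 (i + q) (by omega) (by omega)
      simpa using this)
    (by
      intro q hq
      have e2 : (if i + q ∈ S then max (w (i + q)) 0 else 0) ≤
          hc P (A (ix (i + q) + 1)) (fun ω => (A (ix (i + q)) ω, (Mt (ix (i + q) + 1) ω, Θ ω))) := by
        have h3 := hc_nonneg P (A (ix (i + q) + 1)) (fun ω => (A (ix (i + q)) ω, (Mt (ix (i + q) + 1) ω, Θ ω)))
        split_ifs with h
        · exact max_le (hs _ h) h3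
        · exact h3
      have e3 : hc P (A (ix (i + q) + 1)) (fun ω => (A (ix (i + q)) ω, (Mt (ix (i + q) + 1) ω, Θ ω))) ≤
          hc P (A (ix (i + (q + 1)))) (fun ω => (A (ix (i + q)) ω, (Mt (ix (i + q) + 1) ω, Θ ω))) :=
        hc_mono_left P fun ω ω' p p' e => by
          simp only [Prod.mk.injEq] at e
          exact (hAA (i + q) (by omega) (by omega)).1 ω ω' p p' e.1
      simpa using e2.trans e3)
  simp only [if_true] at h1
  -- from the letter at the first index to the cell, from the cell at the last index to the position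
  have h2 : hc P (A (ix (i + (k - i)))) (fun ω => (Θ ω, Mt (ix i) ω)) ≤
      hc P (Mt (ix k)) (fun ω => (Θ ω, Mt (ix i) ω)) + cJ := by
    rw [show i + (k - i) = k by omega]
    have f1 := hc_le_add P (A (ix k)) (Mt (ix k)) (fun ω => (Θ ω, Mt (ix i) ω))
    have f2 : hc P (A (ix k)) (fun ω => (Mt (ix k) ω, (Θ ω, Mt (ix i) ω))) ≤ hc P (A (ix k)) (fun ω => (Θ ω, Mt (ix k) ω)) :=
      hc_mono_right P _ fun ω ω' _ _ e => by
        simp only [Prod.mk.injEq] at e ⊢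
        exact ⟨e.2.1, e.1⟩
    linarith
  have h5 : hc P (Mt (ix k)) (fun ω => (Θ ω, Mt (ix i) ω)) ≤ hc P (C k) (fun ω => (Θ ω, Mt (ix i) ω)) + j2 := by
    have f1 := hc_le_add P (Mt (ix k)) (C k) (fun ω => (Θ ω, Mt (ix i) ω))
    have f2 : hc P (Mt (ix k)) (fun ω => (C k ω, (Θ ω, Mt (ix i) ω))) ≤ hc P (Mt (ix k)) (C k) :=
      hc_mono_right P _ fun ω ω' _ _ e => by
        simp only [Prod.mk.injEq] at e
        exact e.1
    linarith
  have h6 := hc_swap P (C k) (Mt (ix i)) (C i) Θ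
  have h7 : hc P (C k) (fun ω => (Θ ω, C i ω)) ≤ hc P (C k) (fun ω => (tm k ω, C i ω)) := by
    refine hc_mono_right P _ fun ω ω' p p' e => ?_
    simp only [Prod.mk.injEq] at e ⊢
    exact ⟨hΘ ω ω' p p' e.1, e.2⟩
  have h3 : ∑ q ∈ range (k - i), ((if i + q ∈ S then max (w (i + q)) 0 else 0) - cA - cN) =
      ∑ q ∈ range (k - i), (if i + q ∈ S then max (w (i + q)) 0 else 0) - (cA + cN) * ((k : ℝ) - i) := by
    rw [Finset.sum_sub_distrib, Finset.sum_sub_distrib, Finset.sum_const, Finset.sum_const, Finset.card_range,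
      nsmul_eq_mul, nsmul_eq_mul, Nat.cast_sub hik]
    ring
  have h4 : ∑ j ∈ S, w j ≤ ∑ q ∈ range (k - i), (if i + q ∈ S then max (w (i + q)) 0 else 0) := by
    have e1 : ∑ q ∈ range (k - i), (if i + q ∈ S then max (w (i + q)) 0 else 0) =
        ∑ j ∈ Ico i k, (if j ∈ S then max (w j) 0 else 0) := by
      rw [Finset.sum_Ico_eq_sum_range]
    rw [e1]
    calc ∑ j ∈ S, w j ≤ ∑ j ∈ S, (if j ∈ S then max (w j) 0 else 0) :=
          Finset.sum_le_sum fun j hj => by rw [if_pos hj]; exact le_max_left _ _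
      _ ≤ ∑ j ∈ Ico i k, (if j ∈ S then max (w j) 0 else 0) :=
          Finset.sum_le_sum_of_subset_of_nonneg hS fun j _ hj => by rw [if_neg hj]
  rw [h3] at h1
  linarith

end

/-! ### over a run -/

section run

variable {Ω : Type} [Fintype Ω] {τ υ : Type} {R : Run Ω τ υ} {p : Run.Num} {K c' g' gU : ℝ} {κ α θ : Type*}

/-- whole letter of the ray side is nested along `f` -/
theorem Zw_fn (h : R.Ok p K c' g' gU) {f : ℕ → ℕ} (hf : Monotone f) (j : ℕ) :
    Fn R.Q (Zw R (f j)) (Zw R (f (j + 1))) := by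
  intro ω ω' h1 h2 e
  have e1 := h.Um (f j) (f (j + 1)) (hf (Nat.le_succ j)) ω ω' h1 h2 (congrArg Prod.fst e)
  have e2 := R.C.T_anti' (hf (Nat.le_succ j)) (congrArg Prod.snd e)
  exact Prod.ext e1 e2

/-- the cell is a function of the ray side -/
theorem cell_Zw (h : R.Ok p K c' g' gU) {u : ℕ} (hu : u ≤ R.n + p.J) (b : ℕ) :
    Fn R.Q (R.C.cell u b) (fun ω => (R.ry ω, Zw R u ω)) := by
  intro ω ω' h1 h2 e
  simp only [Prod.mk.injEq] at e
  obtain ⟨e1, e2⟩ := e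
  have eZ : R.Z u ω = R.Z u ω' := congrArg Prod.fst e2
  have eT : R.C.T u ω = R.C.T u ω' := congrArg Prod.snd e2
  refine H101.cell_congr ?_ eT (h.Uf u hu ω ω' h1 h2 eZ)
  rw [h.Cl, h.Cl, e1]

variable {f : ℕ → ℕ} (hf : Monotone f)

/-- the exceptional part `x` of a constant goes into the price -/
theorem into_price {i k : ℕ} (hik : i ≤ k) {S c cj x D : ℝ} {qq xo : ℕ → ℝ} (hcj : 0 ≤ cj)
    (hS0 : i = k → S ≤ 0) (hD0 : i = k → D = 0) (hxo : ∀ j, 0 ≤ xo j) (hx : x ≤ xo i)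
    (H : S - c * ((k : ℝ) - i) - (cj + x) - ∑ j ∈ Ico i k, qq j ≤ D) :
    S - c * ((k : ℝ) - i) - cj - ∑ j ∈ Ico i k, (qq j + xo j) ≤ D := by
  rcases Nat.eq_or_lt_of_le hik with e | e
  · have h1 := hS0 e
    have h2 := hD0 e
    subst e
    rw [h2, Finset.Ico_self, Finset.sum_empty, sub_self, mul_zero]
    linarith
  · rw [Finset.sum_add_distrib]
    have h1 : xo i ≤ ∑ j ∈ Ico i k, xo j :=
      Finset.single_le_sum (f := xo) (fun j _ => hxo j) (Finset.mem_Ico.2 ⟨le_rfl, e⟩)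
    linarith

/-- **window of the kind deep phi over a run**, junction at `f i` up to the price `xo i` -/
theorem winP_run (h : R.Ok p K c' g' gU) (hK : 1 ≤ K) {N b : ℕ} (hN : f N ≤ R.n) {i k i' : ℕ} (hik : i ≤ k) (hk : k ≤ N)
    (hL : R.C.Lev (f i) b) (hki : f k ≤ i') (Mt : ℕ → Ω → κ) {Θ : Ω → θ} (hΘ : Fn R.Q (tdg R.C i') Θ) (A : ℕ → Ω → α)
    {cA cN cJ j1 j2 : ℝ} (hcJ : 0 ≤ cJ) (hj10 : 0 ≤ j1) (hj20 : 0 ≤ j2) {xo : ℕ → ℝ} (hxo : ∀ j, 0 ≤ xo j)
    (hj1 : hc R.Q (R.C.cell (f i) b) (Mt (f i)) ≤ j1 + xo i) (hj2 : hc R.Q (Mt (f k)) (R.C.cell (f k) b) ≤ j2)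
    (hN1 : ∀ j, i ≤ j → j < k → hc R.Q (Mt (f i)) (Mt (f j + 1)) ≤ cN)
    (hAA : ∀ j, i ≤ j → j < k → Fn R.Q (A (f j + 1)) (A (f (j + 1))) ∧ Fn R.Q (A (f (j + 1))) (A (f j + 1)))
    (hA : ∀ j, i ≤ j → j < k → hc R.Q (A (f j)) (fun ω => (A (f j + 1) ω, Θ ω)) ≤ cA)
    (hJ : hc R.Q (A (f k)) (fun ω => (Θ ω, Mt (f k) ω)) ≤ cJ)
    (S : Finset ℕ) (hS : S ⊆ Ico i k) (w : ℕ → ℝ)
    (hs : ∀ j ∈ S, w j ≤ hc R.Q (A (f j + 1)) (fun ω => (A (f j) ω, (Mt (f j + 1) ω, Θ ω)))) :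
    ∑ j ∈ S, w j - (cA + cN) * ((k : ℝ) - i) - (cJ + cNst K + j1 + j2) -
        ∑ j ∈ Ico i k, (qc R.Q R.ry (fun j => Zw R (f j)) (tdg (R.C.re f hf)) j + xo j) ≤
      psi R.Q R.ry (fun j => Zw R (f j)) (fun j => (R.C.re f hf).cell j b) k -
        psi R.Q R.ry (fun j => Zw R (f j)) (fun j => (R.C.re f hf).cell j b) i := by
  have hcn : 0 ≤ cNst K := by
    have := nst_t R.Q R.C hK (fun ω hω => h.ok ω hω) (le_refl (f i)) hL
    have h1 := hc_nonneg R.Q (R.C.cell (f i) b) (R.C.cell (f i) b)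
    linarith
  refine into_price (x := xo i) hik (by positivity) ?_ ?_ hxo le_rfl ?_
  · intro e
    subst e
    rw [Finset.Ico_self, Finset.subset_empty] at hS
    rw [hS, Finset.sum_empty]
  · intro e
    rw [e, sub_self]
  · have key := win_ixJ R.Q (nz := N) R.ry (Z := fun j => Zw R (f j)) (tm := tdg (R.C.re f hf))
      (fun j => (R.C.re f hf).cell j b) Mt f (fun j _ => Zw_fn h hf j) (fun j _ => tdg_fn R.Q (R.C.re f hf) (Nat.le_succ j))
      hik hk (cC := cNst K) (j1 := j1 + xo i) (j2 := j2) (cell_Zw h ((hf (hik.trans hk)).trans (by omega)) b)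
      (fun ω ω' p1 p2 e => tdg_T R.Q (R.C.re f hf) k ω ω' p1 p2 (congrArg Prod.fst e)) Θ
      (fun ω ω' p1 p2 e => by
        have e1 := hΘ ω ω' p1 p2 e
        exact Vale.Agent.P127.U.CellD.fl1_fl1 (R.C.ha hki) e1)
      A
      (nst_t R.Q R.C hK (fun ω hω => h.ok ω hω) (hf hik) hL) hj1 hj2 hN1 hAA hA hJ S hS w hs
    linarith

/-- **window of the kind kappa over a run** : whole diagonal steps along the indices `s 0, .., s r` of the compressed path;
junction at `s 0` up to the price `xo (s 0)` -/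
theorem winK_run (h : R.Ok p K c' g' gU) (hK : 1 ≤ K) {N b : ℕ} (hN : f N ≤ R.n) {s : ℕ → ℕ} {r i' : ℕ}
    (hs0 : s 0 ≤ s r) (hsr : r = 0 ∨ s 0 < s r) (hsN : s r ≤ N) (hL : R.C.Lev (f (s 0)) b) (hki : f (s r) ≤ i')
    (Mt : ℕ → Ω → κ)
    {Θ : Ω → θ} (hΘ : Fn R.Q (tdg R.C i') Θ) (A : ℕ → Ω → α) {cA cN cJ j1 j2 : ℝ} (hcJ : 0 ≤ cJ)
    (hj10 : 0 ≤ j1) (hj20 : 0 ≤ j2) {xo : ℕ → ℝ} (hxo : ∀ j, 0 ≤ xo j)
    (hj1 : hc R.Q (R.C.cell (f (s 0)) b) (Mt 0) ≤ j1 + xo (s 0)) (hj2 : hc R.Q (Mt r) (R.C.cell (f (s r)) b) ≤ j2)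
    (hN1 : ∀ q < r, hc R.Q (Mt 0) (Mt (q + 1)) ≤ cN)
    (hA : ∀ q < r, hc R.Q (A q) (fun ω => (A (q + 1) ω, Θ ω)) ≤ cA)
    (hJ : hc R.Q (A r) (fun ω => (Θ ω, Mt r ω)) ≤ cJ) (w : ℕ → ℝ)
    (hs : ∀ q < r, w q ≤ hc R.Q (A (q + 1)) (fun ω => (A q ω, (Mt (q + 1) ω, Θ ω)))) :
    ∑ q ∈ range r, w q - (cA + cN) * r - (cJ + cNst K + j1 + j2) -
        ∑ j ∈ Ico (s 0) (s r), (qc R.Q R.ry (fun j => Zw R (f j)) (tdg (R.C.re f hf)) j + xo j) ≤
      psi R.Q R.ry (fun j => Zw R (f j)) (fun j => (R.C.re f hf).cell j b) (s r) -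
        psi R.Q R.ry (fun j => Zw R (f j)) (fun j => (R.C.re f hf).cell j b) (s 0) := by
  have hcn : 0 ≤ cNst K := by
    have := nst_t R.Q R.C hK (fun ω hω => h.ok ω hω) (le_refl (f (s 0))) hL
    have h1 := hc_nonneg R.Q (R.C.cell (f (s 0)) b) (R.C.cell (f (s 0)) b)
    linarith
  rcases hsr with hr | hr
  · subst hr
    simp only [Finset.range_zero, Finset.sum_empty, Finset.Ico_self, Nat.cast_zero, mul_zero, sub_self]
    linarith
  · have key := psi_seq R.Q R.ry (fun j => Zw R (f j)) (fun j => (R.C.re f hf).cell j b) (tdg (R.C.re f hf) (s r)) Θ s r Mt A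
      (s := w) (c := fun _ => cA) (ν := fun _ => cN) (cC := cNst K) (cJ := cJ) (j1 := j1 + xo (s 0)) (j2 := j2)
      (fn_chain R.Q (n := N) (Z := fun j => Zw R (f j)) (fun j _ => Zw_fn h hf j) hs0 hsN)
      (cell_Zw h ((hf (hs0.trans hsN)).trans (by omega)) b)
      (fun ω ω' p1 p2 e => tdg_T R.Q (R.C.re f hf) (s r) ω ω' p1 p2 (congrArg Prod.fst e))
      (fun ω ω' p1 p2 e => by
        have e1 := hΘ ω ω' p1 p2 e
        exact Vale.Agent.P127.U.CellD.fl1_fl1 (R.C.ha hki) e1)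
      (nst_t R.Q R.C hK (fun ω hω => h.ok ω hω) (hf hs0) hL) hj1 hj2 hJ hA hN1 hs
    have hcost := cost_time R.Q R.ry (n := N) (Z := fun j => Zw R (f j)) (tm := tdg (R.C.re f hf))
      (fun j _ => tdg_fn R.Q (R.C.re f hf) (Nat.le_succ j)) hs0 hsN
    have h3 : ∑ q ∈ range r, (w q - cA - cN) = ∑ q ∈ range r, w q - (cA + cN) * r := by
      rw [Finset.sum_sub_distrib, Finset.sum_sub_distrib, Finset.sum_const, Finset.sum_const, Finset.card_range,
        nsmul_eq_mul, nsmul_eq_mul]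
      ring
    rw [h3] at key
    rw [Finset.sum_add_distrib]
    have h1 : xo (s 0) ≤ ∑ j ∈ Ico (s 0) (s r), xo j :=
      Finset.single_le_sum (f := xo) (fun j _ => hxo j) (Finset.mem_Ico.2 ⟨le_rfl, hr⟩)
    linarith

end run

end Vale.Agent.P106.U.H495
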